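import Claimed.Agent.R296.Pvm

/-!
# Row 296: the joint projection valued measure of finitely many commuting PVMs

`E : Fin N → Pvm n I` pairwise commuting (`JpvComm E`).  `jpv E hc : Pvm n (Fin N → I)` has the projections
`∏_a (E a).P (x a)`.  Functions of one coordinate give back the calculus of `E a` (`jpv_op_coord`), and every factor is
absorbed by the product (`jpvP_mul_P`, `jpv_mulVec_absorb`), which gives the support statements.
Owner: helper6.  Prefix `jpv`.
-/

set_option autoImplicit false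
set_option linter.unusedSectionVars false

namespace Claimed.Agent.R296

open Matrix

variable {n : Type} [Fintype n] [DecidableEq n] {I : Type} [Fintype I] [DecidableEq I]

/-- the ordered product of the projections `(E a).P (x a)` -/
noncomputable def jpvP : (N : ℕ) → (Fin N → Pvm n I) → (Fin N → I) → Matrix n n ℂ
  | 0, _, _ => 1
  | N + 1, E, x => (E 0).P (x 0) * jpvP N (fun a => E a.succ) (fun a => x a.succ)

/-- the PVMs of the family commute pairwise -/
def JpvComm {N : ℕ} (E : Fin N → Pvm n I) : Prop :=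
  ∀ a b i j, Commute ((E a).P i) ((E b).P j)

theorem JpvComm.jpv_tail {N : ℕ} {E : Fin (N + 1) → Pvm n I} (h : JpvComm E) :
    JpvComm fun a => E a.succ := fun a b i j => h a.succ b.succ i j

theorem jpvP_commute : ∀ (N : ℕ) (E : Fin N → Pvm n I) (x : Fin N → I) (X : Matrix n n ℂ),
    (∀ a i, Commute X ((E a).P i)) → Commute X (jpvP N E x)
  | 0, _, _, X, _ => Commute.one_right X
  | N + 1, _, x, X, h =>
    (h 0 (x 0)).mul_right (jpvP_commute N _ _ X fun a i => h a.succ i)

theorem jpvP_herm : ∀ (N : ℕ) (E : Fin N → Pvm n I), JpvComm E → ∀ x : Fin N → I,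
    (jpvP N E x).IsHermitian
  | 0, _, _, _ => isHermitian_one
  | N + 1, E, hc, x => by
    show ((E 0).P (x 0) * jpvP N (fun a => E a.succ) (fun a => x a.succ))ᴴ = _
    rw [conjTranspose_mul, (jpvP_herm N _ hc.jpv_tail _).eq, ((E 0).herm _).eq]
    exact (jpvP_commute N _ _ _ fun a i => hc 0 a.succ (x 0) i).eq.symm

theorem jpv_ext_iff {N : ℕ} (x y : Fin (N + 1) → I) :
    x = y ↔ x 0 = y 0 ∧ (fun a : Fin N => x a.succ) = fun a => y a.succ := by
  constructor
  · rintro rfl
    exact ⟨rfl, rfl⟩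
  · rintro ⟨h0, h1⟩
    funext a
    refine Fin.cases h0 (fun b => ?_) a
    exact congrFun h1 b

theorem jpvP_orth : ∀ (N : ℕ) (E : Fin N → Pvm n I), JpvComm E → ∀ x y : Fin N → I,
    jpvP N E x * jpvP N E y = if x = y then jpvP N E x else 0
  | 0, _, _, x, y => by
    have : x = y := Subsingleton.elim x y
    rw [if_pos this]
    show (1 : Matrix n n ℂ) * 1 = 1
    rw [Matrix.one_mul]
  | N + 1, E, hc, x, y => by
    have c : Commute ((E 0).P (y 0)) (jpvP N (fun a => E a.succ) (fun a => x a.succ)) :=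
      jpvP_commute N _ _ _ fun a i => hc 0 a.succ (y 0) i
    have e : jpvP (N + 1) E x * jpvP (N + 1) E y =
        ((E 0).P (x 0) * (E 0).P (y 0)) *
          (jpvP N (fun a => E a.succ) (fun a => x a.succ) *
            jpvP N (fun a => E a.succ) (fun a => y a.succ)) := by
      show (E 0).P (x 0) * jpvP N (fun a => E a.succ) (fun a => x a.succ) *
        ((E 0).P (y 0) * jpvP N (fun a => E a.succ) (fun a => y a.succ)) = _
      rw [Matrix.mul_assoc, ← Matrix.mul_assoc (jpvP N _ _) ((E 0).P (y 0)), ← c.eq]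
      simp only [Matrix.mul_assoc]
    rw [e, (E 0).orth, jpvP_orth N _ hc.jpv_tail]
    by_cases h0 : x 0 = y 0
    · by_cases h1 : (fun a : Fin N => x a.succ) = fun a => y a.succ
      · rw [if_pos h0, if_pos h1, if_pos ((jpv_ext_iff x y).mpr ⟨h0, h1⟩)]
        rfl
      · rw [if_neg h1, if_neg fun h => h1 ((jpv_ext_iff x y).mp h).2, Matrix.mul_zero]
    · rw [if_neg h0, if_neg fun h => h0 ((jpv_ext_iff x y).mp h).1, Matrix.zero_mul]

/-- summation over `Fin (N+1) → I` -/
theorem jpv_sum_succ {M : Type*} [AddCommMonoid M] {N : ℕ} (F : (Fin (N + 1) → I) → M) :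
    ∑ x, F x = ∑ i : I, ∑ x' : Fin N → I, F (Fin.cons i x') := by
  rw [← (Fin.consEquiv fun _ : Fin (N + 1) => I).sum_comp, Fintype.sum_prod_type]
  rfl

theorem jpvP_cons {N : ℕ} (E : Fin (N + 1) → Pvm n I) (i : I) (x' : Fin N → I) :
    jpvP (N + 1) E (Fin.cons i x') = (E 0).P i * jpvP N (fun a => E a.succ) x' := rfl

theorem jpvP_total : ∀ (N : ℕ) (E : Fin N → Pvm n I), ∑ x, jpvP N E x = 1
  | 0, _ => by
    rw [Fintype.sum_unique]
    rfl
  | N + 1, E => by
    rw [jpv_sum_succ]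
    simp only [jpvP_cons, ← Finset.mul_sum, jpvP_total N, Matrix.mul_one, (E 0).total]

/-- the joint PVM -/
noncomputable def jpv {N : ℕ} (E : Fin N → Pvm n I) (hc : JpvComm E) : Pvm n (Fin N → I) where
  P := jpvP N E
  herm := jpvP_herm N E hc
  orth := jpvP_orth N E hc
  total := jpvP_total N E

/-- functions of one coordinate -/
theorem jpv_op_coord : ∀ (N : ℕ) (E : Fin N → Pvm n I) (hc : JpvComm E) (a : Fin N) (f : I → ℂ),
    (jpv E hc).op (fun x => f (x a)) = (E a).op f
  | 0, _, _, a, _ => a.elim0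
  | N + 1, E, hc, a, f => by
    have ih := jpv_op_coord N (fun a => E a.succ) hc.jpv_tail
    show ∑ x, f (x a) • jpvP (N + 1) E x = _
    rw [jpv_sum_succ]
    simp only [jpvP_cons]
    refine Fin.cases ?_ (fun b => ?_) a
    · simp only [Fin.cons_zero, ← Finset.smul_sum, ← Finset.mul_sum, jpvP_total N, Matrix.mul_one]
      rfl
    · simp only [Fin.cons_succ, ← Matrix.mul_smul, ← Finset.mul_sum, ← Finset.sum_mul]
      rw [(E 0).total, Matrix.one_mul]
      exact ih b f

/-- every factor is absorbed -/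
theorem jpvP_mul_P : ∀ (N : ℕ) (E : Fin N → Pvm n I), JpvComm E → ∀ (x : Fin N → I) (a : Fin N),
    jpvP N E x * (E a).P (x a) = jpvP N E x
  | 0, _, _, _, a => a.elim0
  | N + 1, E, hc, x, a => by
    show (E 0).P (x 0) * jpvP N (fun a => E a.succ) (fun a => x a.succ) * (E a).P (x a) =
      (E 0).P (x 0) * jpvP N (fun a => E a.succ) (fun a => x a.succ)
    refine Fin.cases ?_ (fun b => ?_) a
    · have c : Commute ((E 0).P (x 0)) (jpvP N (fun a => E a.succ) (fun a => x a.succ)) :=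
        jpvP_commute N _ _ _ fun a i => hc 0 a.succ (x 0) i
      rw [Matrix.mul_assoc, ← c.eq, ← Matrix.mul_assoc, (E 0).P_sq]
    · rw [Matrix.mul_assoc, jpvP_mul_P N (fun a => E a.succ) hc.jpv_tail (fun a => x a.succ) b]

theorem jpv_mulVec_absorb {N : ℕ} (E : Fin N → Pvm n I) (hc : JpvComm E) (x : Fin N → I)
    (a : Fin N) (w : n → ℂ) :
    (jpv E hc).P x *ᵥ ((E a).P (x a) *ᵥ w) = (jpv E hc).P x *ᵥ w := by
  rw [mulVec_mulVec]
  show (jpvP N E x * (E a).P (x a)) *ᵥ w = jpvP N E x *ᵥ w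
  rw [jpvP_mul_P N E hc]

theorem jpv_pr_eq_zero_of_mulVec {N : ℕ} (E : Fin N → Pvm n I) (hc : JpvComm E) (x : Fin N → I)
    {w : n → ℂ} (h : (jpv E hc).P x *ᵥ w = 0) : (jpv E hc).pr w x = 0 := by
  rw [Pvm.pr, h, dotProduct_zero, Complex.zero_re]

/-- support: one factor -/
theorem jpv_pr_eq_zero {N : ℕ} (E : Fin N → Pvm n I) (hc : JpvComm E) (x : Fin N → I) (a : Fin N)
    {w : n → ℂ} (h : (E a).P (x a) *ᵥ w = 0) : (jpv E hc).pr w x = 0 := by
  apply jpv_pr_eq_zero_of_mulVec
  rw [← jpv_mulVec_absorb E hc x a, h, mulVec_zero]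

/-- support: three factors -/
theorem jpv_pr_eq_zero₃ {N : ℕ} (E : Fin N → Pvm n I) (hc : JpvComm E) (x : Fin N → I)
    (a b c : Fin N) {w : n → ℂ}
    (h : (E a).P (x a) *ᵥ ((E b).P (x b) *ᵥ ((E c).P (x c) *ᵥ w)) = 0) :
    (jpv E hc).pr w x = 0 := by
  apply jpv_pr_eq_zero_of_mulVec
  rw [← jpv_mulVec_absorb E hc x c, ← jpv_mulVec_absorb E hc x b, ← jpv_mulVec_absorb E hc x a, h,
    mulVec_zero]

/-- real functions of one coordinate -/
theorem jpv_op_coord_real {N : ℕ} (E : Fin N → Pvm n I) (hc : JpvComm E) (a : Fin N) (f : I → ℝ) :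
    (jpv E hc).op (fun x => ((f (x a) : ℝ) : ℂ)) = (E a).op fun i => (f i : ℂ) :=
  jpv_op_coord N E hc a fun i => (f i : ℂ)

end Claimed.Agent.R296
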