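import Claimed.Agent.R296.Cmp.LowGrp

/-!
# Row 296, P1 Section 7.3, package CL-BAND: from the inverse metric to the labels of the two groups of copies
(eq. comparator:whole-inverse)

Architect: helper239.  ONE owner.  Generic replica system.
* `cl_mul_le_mul3`: products of commuting positive semidefinite matrices are monotone (`ca_mul_le_mul_left`,
  `ca_posSemidef_mul` of `CmpAbs.lean`).
* `cl_band_le_dim`: `bandFull t P Y F (-1) = W_P² W_F² W_Y⁻²` and `WQ_compare` (`Replica/Band.lean`) at `z = 2, 2, -2`.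
* `cl_whole_le_groups`: `cl_dimPow_neg_le` for `P`, `F`, `cl_dimPow_le` for `Y`; all nine operators commute (same region:
  `cenQ_commute_repS`, `repS_commute_of_disjoint_copies`; different regions are disjoint: `repS_commute_of_disjoint_regions`,
  `cenQ_commute_repS`, `cenQ_commute_cenQ`); reorder the six factors on the right.
-/

set_option autoImplicit false
set_option linter.unusedSectionVars false

namespace Claimed.Agent.R296

open Matrix Finset
open scoped ComplexOrder MatrixOrder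

theorem cl_posSemidef_of_le {n : Type} [Fintype n] [DecidableEq n] {A B : Matrix n n ℂ}
    (hA : A.PosSemidef) (h : A ≤ B) : B.PosSemidef :=
  Matrix.nonneg_iff_posSemidef.1 ((Matrix.nonneg_iff_posSemidef.2 hA).trans h)

/-- monotonicity of products of three commuting positive semidefinite matrices -/
theorem cl_mul_le_mul3 {n : Type} [Fintype n] [DecidableEq n] {A₁ A₂ A₃ B₁ B₂ B₃ : Matrix n n ℂ}
    (hA₁ : A₁.PosSemidef) (hA₂ : A₂.PosSemidef) (hA₃ : A₃.PosSemidef)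
    (h₁ : A₁ ≤ B₁) (h₂ : A₂ ≤ B₂) (h₃ : A₃ ≤ B₃)
    (c12 : Commute A₁ A₂) (c13 : Commute A₁ A₃) (c23 : Commute A₂ A₃)
    (d12 : Commute B₁ B₂) (d13 : Commute B₁ B₃) (d23 : Commute B₂ B₃)
    (e12 : Commute B₁ A₂) (e13 : Commute B₁ A₃) (e23 : Commute B₂ A₃) :
    A₁ * A₂ * A₃ ≤ B₁ * B₂ * B₃ := by
  have hB₁ := cl_posSemidef_of_le hA₁ h₁
  have hB₂ := cl_posSemidef_of_le hA₂ h₂
  -- step 1
  have s1 : A₁ * A₂ * A₃ ≤ B₁ * A₂ * A₃ := by
    have hZ := ca_posSemidef_mul hA₂ hA₃ c23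
    have z1 : Commute (A₂ * A₃) A₁ := (c12.symm).mul_left c13.symm
    have z2 : Commute (A₂ * A₃) B₁ := (e12.symm).mul_left e13.symm
    have := ca_mul_le_mul_left h₁ hZ z1 z2
    rwa [z1.eq, z2.eq, ← Matrix.mul_assoc, ← Matrix.mul_assoc] at this
  -- step 2
  have s2 : B₁ * A₂ * A₃ ≤ B₁ * B₂ * A₃ := by
    have hZ := ca_posSemidef_mul hB₁ hA₃ e13
    have z1 : Commute (B₁ * A₃) A₂ := e12.mul_left c23.symm
    have z2 : Commute (B₁ * A₃) B₂ := d12.mul_left e23.symm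
    have := ca_mul_le_mul_left h₂ hZ z1 z2
    have r1 : B₁ * A₃ * A₂ = B₁ * A₂ * A₃ := by
      rw [Matrix.mul_assoc, c23.symm.eq, ← Matrix.mul_assoc]
    have r2 : B₁ * A₃ * B₂ = B₁ * B₂ * A₃ := by
      rw [Matrix.mul_assoc, e23.symm.eq, ← Matrix.mul_assoc]
    rwa [r1, r2] at this
  -- step 3
  have s3 : B₁ * B₂ * A₃ ≤ B₁ * B₂ * B₃ := by
    have hZ := ca_posSemidef_mul hB₁ hB₂ d12
    exact ca_mul_le_mul_left h₃ hZ (e13.mul_left e23) (d13.mul_left d23)
  exact s1.trans (s2.trans s3)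

variable {s : Type} [DecidableEq s] [Fintype s]

theorem cl_dimI_rpow_pos {κ : Type} [Fintype κ] [DecidableEq κ] (b : ℝ)
    (i : Rep.Irr (Equiv.Perm κ)) : 0 < ((Rep.dimI i : ℕ) : ℝ) ^ b :=
  Real.rpow_pos_of_pos (by exact_mod_cast Rep.dimI_pos i) b

theorem cl_bandDim_posSemidef {io : s → Type} [∀ x, Fintype (io x)] [∀ x, DecidableEq (io x)]
    {κ : Type} [Fintype κ] [DecidableEq κ] {P Y F : Finset s} (h : IsPart3 P Y F) (a : ℝ) :
    (bandDim (io := io) (κ := κ) P Y F a).PosSemidef := by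
  unfold bandDim
  have hP := (cenQ_posDef (io := io) (κ := κ) P _ (cl_dimI_rpow_pos (-a))).posSemidef
  have hF := (cenQ_posDef (io := io) (κ := κ) F _ (cl_dimI_rpow_pos (-a))).posSemidef
  have hY := (cenQ_posDef (io := io) (κ := κ) Y _ (cl_dimI_rpow_pos a)).posSemidef
  refine ca_posSemidef_mul (ca_posSemidef_mul hP hF
    (cenQ_commute_cenQ _ _ (Or.inr (Or.inr h.dPF)))) hY ?_
  exact (cenQ_commute_cenQ _ _ (Or.inr (Or.inr h.dPY))).mul_left
    (cenQ_commute_cenQ _ _ (Or.inr (Or.inr h.dYF.symm)))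

/-- `A⁻¹ ≤ poly(k) e^{-a G}`, `a = 2 t` -/
theorem cl_band_le_dim (io : s → Type) [∀ x, Fintype (io x)] [∀ x, DecidableEq (io x)]
    [∀ x, Nonempty (io x)] (t : ℝ) (ht0 : 0 < t) (ht1 : t ≤ 1) :
    ∃ (C : ℝ) (m : ℕ), 1 ≤ C ∧ ∀ (κ : Type) [Fintype κ] [DecidableEq κ] (P Y F : Finset s),
      IsPart3 P Y F →
      bandFull (io := io) (κ := κ) t P Y F (-1) ≤
        ((C * ((Fintype.card κ : ℝ) + 1) ^ m : ℝ) : ℂ) • bandDim P Y F (2 * t) := by
  obtain ⟨C, m, hC, hW⟩ := WQ_compare io t ht0 ht1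
  refine ⟨C ^ 6, 6 * m, one_le_pow₀ hC, fun κ _ _ P Y F h => ?_⟩
  set c : ℝ := C * ((Fintype.card κ : ℝ) + 1) ^ m with hc
  have hc0 : 0 ≤ c := by positivity
  have e2 : ∀ Q : Finset s, WQ (io := io) (κ := κ) t Q 2 ≤
      ((c ^ 2 : ℝ) : ℂ) • dimPow Q (-(2 * t)) := by
    intro Q
    have := (hW κ Q 2).1
    rw [abs_of_pos (by norm_num : (0 : ℝ) < 2), Real.rpow_two, mul_comm t 2] at this
    exact this
  have e3 : ∀ Q : Finset s, WQ (io := io) (κ := κ) t Q (-2) ≤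
      ((c ^ 2 : ℝ) : ℂ) • dimPow Q (2 * t) := by
    intro Q
    have := (hW κ Q (-2)).1
    rw [abs_neg, abs_of_pos (by norm_num : (0 : ℝ) < 2), Real.rpow_two] at this
    have e : -(t * -2) = 2 * t := by ring
    rwa [e] at this
  have hb : bandFull (io := io) (κ := κ) t P Y F (-1) = WQ t P 2 * WQ t F 2 * WQ t Y (-2) := by
    unfold bandFull
    norm_num
  have cc : ∀ {Q E : Finset s}, Disjoint Q E → ∀ φ ψ : Rep.Irr (Equiv.Perm κ) → ℂ,
      Commute (cenQ (io := io) Q φ) (cenQ E ψ) :=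
    fun hQE φ ψ => cenQ_commute_cenQ _ _ (Or.inr (Or.inr hQE))
  rw [hb]
  have key := cl_mul_le_mul3 (WQ_posDef (io := io) (κ := κ) t ht0 P 2).posSemidef
    (WQ_posDef (io := io) (κ := κ) t ht0 F 2).posSemidef
    (WQ_posDef (io := io) (κ := κ) t ht0 Y (-2)).posSemidef (e2 P) (e2 F) (e3 Y)
    (cc h.dPF _ _) (cc h.dPY _ _) (cc h.dYF.symm _ _)
    (((cc h.dPF _ _).smul_left _).smul_right _) (((cc h.dPY _ _).smul_left _).smul_right _)
    (((cc h.dYF.symm _ _).smul_left _).smul_right _)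
    ((cc h.dPF _ _).smul_left _) ((cc h.dPY _ _).smul_left _) ((cc h.dYF.symm _ _).smul_left _)
  refine key.trans (le_of_eq ?_)
  simp only [Matrix.smul_mul, Matrix.mul_smul, smul_smul]
  have e6 : ((c ^ 2 : ℝ) : ℂ) * (((c ^ 2 : ℝ) : ℂ) * ((c ^ 2 : ℝ) : ℂ)) =
      ((C ^ 6 * ((Fintype.card κ : ℝ) + 1) ^ (6 * m) : ℝ) : ℂ) := by
    rw [← Complex.ofReal_mul, ← Complex.ofReal_mul]
    congr 1
    rw [hc, pow_mul']
    ring
  rw [e6]
  rfl

/-- reordering of six commuting factors -/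
theorem cl_reorder6 {R : Type*} [Monoid R] {p p' f f' y y' : R} (h1 : Commute p' f)
    (h2 : Commute p' y) (h3 : Commute f' y) :
    p * p' * (f * f') * (y * y') = p * f * y * (p' * f' * y') := by
  calc p * p' * (f * f') * (y * y') = p * (p' * f) * (f' * y) * y' := by simp only [mul_assoc]
    _ = p * (f * p') * (y * f') * y' := by rw [h1.eq, h3.eq]
    _ = p * f * (p' * y) * f' * y' := by simp only [mul_assoc]
    _ = p * f * (y * p') * f' * y' := by rw [h2.eq]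
    _ = _ := by simp only [mul_assoc]

theorem cl_dimPowS_commute_regions {io : s → Type} [∀ x, Fintype (io x)]
    [∀ x, DecidableEq (io x)] {κ : Type} [Fintype κ] [DecidableEq κ] {Q E : Finset s}
    (h : Disjoint Q E) (S S' : Finset κ) (b b' : ℝ) :
    Commute (dimPowS (io := io) Q S b) (dimPowS E S' b') := by
  unfold dimPowS cenS
  exact repS_commute_of_disjoint_regions h S S' _ _

theorem cl_dimPowS_commute_cenQ {io : s → Type} [∀ x, Fintype (io x)]
    [∀ x, DecidableEq (io x)] {κ : Type} [Fintype κ] [DecidableEq κ] {Q E : Finset s}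
    (h : Disjoint Q E) (S : Finset κ) (b : ℝ) (φ : Rep.Irr (Equiv.Perm κ) → ℂ) :
    Commute (dimPowS (io := io) Q S b) (cenQ E φ) := by
  unfold dimPowS cenS
  exact (cenQ_commute_repS (Or.inr h.symm) S φ _).symm

/-- **(comparator:whole-inverse)** -/
theorem cl_whole_le_groups {io : s → Type} [∀ x, Fintype (io x)] [∀ x, DecidableEq (io x)]
    {κ : Type} [Fintype κ] [DecidableEq κ] {P Y F : Finset s} (h : IsPart3 P Y F) (B : Finset κ)
    {a : ℝ} (ha : 0 ≤ a) :
    bandDim (io := io) P Y F a ≤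
      ((((Fintype.card κ).choose B.card : ℝ) ^ a : ℝ) : ℂ) •
        (bandDimS P Y F Bᶜ a * bandDimS P Y F B a) := by
  have cc : ∀ {Q E : Finset s}, Disjoint Q E → ∀ φ ψ : Rep.Irr (Equiv.Perm κ) → ℂ,
      Commute (cenQ (io := io) Q φ) (cenQ E ψ) :=
    fun hQE φ ψ => cenQ_commute_cenQ _ _ (Or.inr (Or.inr hQE))
  -- products of two group labels on disjoint regions
  have d2 : ∀ {Q E : Finset s}, Disjoint Q E → ∀ (b b' : ℝ),
      Commute (dimPowS (io := io) Q Bᶜ b * dimPowS Q B b) (dimPowS E Bᶜ b' * dimPowS E B b') :=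
    fun hQE b b' => ((cl_dimPowS_commute_regions hQE _ _ _ _).mul_right
      (cl_dimPowS_commute_regions hQE _ _ _ _)).mul_left
      ((cl_dimPowS_commute_regions hQE _ _ _ _).mul_right (cl_dimPowS_commute_regions hQE _ _ _ _))
  -- group labels against whole labels on disjoint regions
  have ee : ∀ {Q E : Finset s}, Disjoint Q E → ∀ (b : ℝ) (φ : Rep.Irr (Equiv.Perm κ) → ℂ),
      Commute (dimPowS (io := io) Q Bᶜ b * dimPowS Q B b) (cenQ E φ) :=
    fun hQE b φ => (cl_dimPowS_commute_cenQ hQE _ _ _).mul_left (cl_dimPowS_commute_cenQ hQE _ _ _)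
  have key := cl_mul_le_mul3
    (cenQ_posDef (io := io) (κ := κ) P _ (cl_dimI_rpow_pos (-a))).posSemidef
    (cenQ_posDef (io := io) (κ := κ) F _ (cl_dimI_rpow_pos (-a))).posSemidef
    (cenQ_posDef (io := io) (κ := κ) Y _ (cl_dimI_rpow_pos a)).posSemidef
    (cl_dimPow_neg_le (io := io) P B ha) (cl_dimPow_neg_le (io := io) F B ha)
    (cl_dimPow_le (io := io) Y B ha)
    (cc h.dPF _ _) (cc h.dPY _ _) (cc h.dYF.symm _ _)
    (d2 h.dPF _ _) ((d2 h.dPY _ _).smul_right _) ((d2 h.dYF.symm _ _).smul_right _)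
    (ee h.dPF _ _) (ee h.dPY _ _) (ee h.dYF.symm _ _)
  unfold bandDim bandDimS
  rw [Matrix.mul_smul, cl_reorder6 (cl_dimPowS_commute_regions h.dPF _ _ _ _)
    (cl_dimPowS_commute_regions h.dPY _ _ _ _)
    (cl_dimPowS_commute_regions h.dYF.symm _ _ _ _)] at key
  exact key

end Claimed.Agent.R296
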