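import Claimed.Agent.R296.Cmp.LowGrp

/-!
# Row 296, P1 Section 7.3, package CL-COMP: the components `u_B` of a vector with few excited copies

Architect: helper239.  ONE owner.  Model of `RepModel.lean` / `CmpDefs.lean`; inputs `CmpPre.lean` (sections `Tprod`, `Defect`),
`CmpOne.lean`, `Replica/Perm.lean` (`tpo = tprodOp`, `UQ_univ_conj_tpo`, `UQ_conj_tpo_emb_subset`).

* `cl_low_fixes`: the three factors of `mLowFull` are commuting Hermitian idempotents, so a vector fixed by the product is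
  fixed by each factor (`‖P₁ P₂ P₃ u‖ = ‖u‖` or algebra: `P₁ (P₁ P₂ P₃) = P₁ P₂ P₃`).
* `cl_pos_conj_sub`: `subHom S π` maps `B` to itself if `S = B` or `S = Bᶜ` (`cp_pos_conj`, `Equiv.Perm.ofSubtype_apply_of_mem`,
  `..._of_not_mem`).
* `cl_phys_absorb`: `mG1 = |Ω⟩⟨Ω| ⊗ 1_{CR}`; entrywise, the product over the good copies of `Ω(c_j)` is invariant under a permutation
  of the physical parts of the good copies (`Finset.prod_equiv`/`Equiv.prod_comp`).
-/

set_option autoImplicit false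
set_option linter.unusedSectionVars false

namespace Claimed.Agent.R296

namespace Scan

open Matrix Finset
open scoped ComplexOrder MatrixOrder

section Sub

variable {κ : Type} [Fintype κ] [DecidableEq κ]

theorem cl_subHom_of_not_mem (S : Finset κ) (π : Equiv.Perm {j // j ∈ S}) {j : κ} (h : j ∉ S) :
    subHom S π j = j :=
  Equiv.Perm.ofSubtype_apply_of_not_mem π h

theorem cl_subHom_mem_iff (S : Finset κ) (π : Equiv.Perm {j // j ∈ S}) (j : κ) :
    subHom S π j ∈ S ↔ j ∈ S := by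
  by_cases h : j ∈ S
  · have e : subHom S π j = π ⟨j, h⟩ := Equiv.Perm.ofSubtype_apply_of_mem π h
    rw [e]
    exact ⟨fun _ => h, fun _ => (π ⟨j, h⟩).2⟩
  · rw [cl_subHom_of_not_mem S π h]

theorem cl_map_eq_of_mem_iff (σ : Equiv.Perm κ) (B : Finset κ) (h : ∀ j, σ j ∈ B ↔ j ∈ B) :
    B.map σ.toEmbedding = B := by
  ext j
  rw [Finset.mem_map]
  constructor
  · rintro ⟨i, hi, rfl⟩
    exact (h i).2 hi
  · intro hj
    refine ⟨σ⁻¹ j, ?_, by simp⟩
    rw [← h]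
    simpa using hj

theorem cl_subHom_compl_mem_iff (B : Finset κ) (π : Equiv.Perm {j // j ∈ Bᶜ}) (j : κ) :
    subHom Bᶜ π j ∈ B ↔ j ∈ B := by
  have h := cl_subHom_mem_iff Bᶜ π j
  rw [Finset.mem_compl, Finset.mem_compl] at h
  exact not_iff_not.1 h

/-- a product over the copies outside `B` is invariant under the permutations of `Bᶜ` -/
theorem cl_prod_subHom (B : Finset κ) (π : Equiv.Perm {j // j ∈ Bᶜ}) (g f h : κ → ℂ) :
    ∏ j, (if j ∈ B then g j else f (subHom Bᶜ π j) * h j) =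
      ∏ j, (if j ∈ B then g j else f j * h j) := by
  have e1 : ∀ F : κ → ℂ, ∏ j, (if j ∈ B then g j else F j * h j) =
      (∏ j, (if j ∈ B then 1 else F j)) * ∏ j, (if j ∈ B then g j else h j) := by
    intro F
    rw [← Finset.prod_mul_distrib]
    refine Finset.prod_congr rfl fun j _ => ?_
    split_ifs <;> simp
  rw [e1 (fun j => f (subHom Bᶜ π j)), e1 f]
  congr 1
  rw [← Equiv.prod_comp (subHom Bᶜ π) fun j => if j ∈ B then (1 : ℂ) else f j]
  refine Finset.prod_congr rfl fun j _ => ?_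
  simp only [cl_subHom_compl_mem_iff]

end Sub

variable {Λ ι α : Type} [Fintype Λ] [DecidableEq Λ] [Fintype ι]
  {io : Λ → Type} [∀ x, Fintype (io x)] [∀ x, DecidableEq (io x)] [∀ x, Nonempty (io x)]
  (𝔇 : RepData Λ ι α io) {κ : Type} [Fintype κ] [DecidableEq κ]

/-- a vector in the range of `mLowFull` is fixed by each of the three projectors -/
theorem cl_low_fixes {a0 : ℝ} (hW : 𝔇.WF a0) (lam : Rep.Irr (Equiv.Perm κ))
    {u : RCfg (rmIo io 𝔇.dst) κ → ℂ} (h : 𝔇.mLowFull lam *ᵥ u = u) :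
    𝔇.mDef κ *ᵥ u = u ∧ labP {rmC} lam *ᵥ u = u ∧ labP {rmR} lam *ᵥ u = u := by
  have hA2 := cp_def_sq (κ := κ) 𝔇 hW
  have hB2 := cp_labP_sq (κ := κ) 𝔇 {rmC} lam
  have hC2 := cp_labP_sq (κ := κ) 𝔇 {rmR} lam
  have hAB := cp_def_commute_labP (κ := κ) 𝔇 (Q := {rmC}) (by simp) lam
  have hAC := cp_def_commute_labP (κ := κ) 𝔇 (Q := {rmR}) (by simp) lam
  have hBC := cp_labC_commute_labR (κ := κ) 𝔇 lam lam
  unfold RepData.mLowFull at h
  generalize 𝔇.mDef κ = A at *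
  generalize labP (io := rmIo io 𝔇.dst) {rmC} lam = P at *
  generalize labP (io := rmIo io 𝔇.dst) {rmR} lam = R at *
  refine ⟨?_, ?_, ?_⟩
  · calc A *ᵥ u = A *ᵥ ((A * P * R) *ᵥ u) := by rw [h]
      _ = ((A * A) * P * R) *ᵥ u := by rw [mulVec_mulVec]; simp only [Matrix.mul_assoc]
      _ = u := by rw [hA2, h]
  · calc P *ᵥ u = P *ᵥ ((A * P * R) *ᵥ u) := by rw [h]
      _ = ((P * A) * P * R) *ᵥ u := by rw [mulVec_mulVec]; simp only [Matrix.mul_assoc]
      _ = (A * (P * P) * R) *ᵥ u := by rw [← hAB.eq]; simp only [Matrix.mul_assoc]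
      _ = u := by rw [hB2, h]
  · calc R *ᵥ u = R *ᵥ ((A * P * R) *ᵥ u) := by rw [h]
      _ = ((R * A) * P * R) *ᵥ u := by rw [mulVec_mulVec]; simp only [Matrix.mul_assoc]
      _ = (A * (R * P) * R) *ᵥ u := by rw [← hAC.eq]; simp only [Matrix.mul_assoc]
      _ = (A * P * (R * R)) *ᵥ u := by rw [← hBC.eq]; simp only [Matrix.mul_assoc]
      _ = u := by rw [hC2, h]

/-- the position projector commutes with the simultaneous permutations inside `B` -/
theorem cl_pos_commute_sub (B : Finset κ) (π : Equiv.Perm {j // j ∈ B}) :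
    Commute (𝔇.mPos B) (UQ Finset.univ (subHom B π)) := by
  apply commute_UQ_of_conj
  rw [cp_pos_conj, cl_map_eq_of_mem_iff _ _ (cl_subHom_mem_iff B π)]

/-- ... and inside the complement of `B` -/
theorem cl_pos_commute_sub' (B : Finset κ) (π : Equiv.Perm {j // j ∈ Bᶜ}) :
    Commute (𝔇.mPos B) (UQ Finset.univ (subHom Bᶜ π)) := by
  apply commute_UQ_of_conj
  rw [cp_pos_conj, cl_map_eq_of_mem_iff _ _ (cl_subHom_compl_mem_iff B π)]

theorem cl_rmAtC_rperm {d : ℕ} (σ : Equiv.Perm κ) (c : RCfg (rmIo io d) κ) (j : κ) :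
    rmAtC (rcopy (rperm (rmPh (Finset.univ : Finset Λ)) σ c) j) = rmAtC (rcopy c j) := by
  simp [rmAtC, rcopy, rperm_apply, rmPh]
  rfl

theorem cl_rmAtR_rperm {d : ℕ} (σ : Equiv.Perm κ) (c : RCfg (rmIo io d) κ) (j : κ) :
    rmAtR (rcopy (rperm (rmPh (Finset.univ : Finset Λ)) σ c) j) = rmAtR (rcopy c j) := by
  simp [rmAtR, rcopy, rperm_apply, rmPh]
  rfl

theorem cl_rmPhys_rperm {d : ℕ} (σ : Equiv.Perm κ) (c : RCfg (rmIo io d) κ) (j : κ) :
    rmPhys (rcopy (rperm (rmPh (Finset.univ : Finset Λ)) σ c) j) = rmPhys (rcopy c (σ⁻¹ j)) := by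
  funext y
  simp [rmPhys, rcopy, rperm_apply, rmPh]
  rfl

/-- the good physical copies are in the product state: permutations of their physical parts are absorbed -/
theorem cl_phys_absorb (B : Finset κ) (π : Equiv.Perm {j // j ∈ Bᶜ}) :
    UQ (rmPh (Finset.univ : Finset Λ)) (subHom Bᶜ π) * 𝔇.mPos B = 𝔇.mPos B := by
  ext c c'
  rw [UQ_eq_rpMat, rpMat_mul_apply, ← map_inv]
  unfold RepData.mPos
  rw [tprodOp_apply, tprodOp_apply]
  have hB : ∀ j ∈ B, rcopy (rperm (rmPh (Finset.univ : Finset Λ)) (subHom Bᶜ π)⁻¹ c) j =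
      rcopy c j := by
    intro j hj
    funext x
    have e : (subHom Bᶜ π)⁻¹⁻¹ j = j := by
      rw [inv_inv]
      exact cl_subHom_of_not_mem Bᶜ π (by simpa using hj)
    have e2 : ∀ a : κ, a = j → (c (a, x) : rmIo io 𝔇.dst x) = c (j, x) := by
      rintro a rfl
      rfl
    simp only [rcopy, rperm_apply]
    split_ifs
    · exact e2 _ e
    · rfl
  have key := cl_prod_subHom B π
    (fun j => (1 - 𝔇.mG1) (rcopy c j) (rcopy c' j))
    (fun i => 𝔇.S.Om (rmPhys (rcopy c i)))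
    (fun j => if rmAtC (rcopy c j) = rmAtC (rcopy c' j) ∧ rmAtR (rcopy c j) = rmAtR (rcopy c' j)
      then star (𝔇.S.Om (rmPhys (rcopy c' j))) else 0)
  convert key using 2 with j _ j _
  · by_cases hj : j ∈ B
    · simp only [hj, if_true, hB j hj]
    · simp only [hj, if_false, RepData.mG1, rmLift, Matrix.of_apply, cl_rmAtC_rperm,
        cl_rmAtR_rperm, cl_rmPhys_rperm, inv_inv, pureOp,
        vecMulVec_apply, mul_ite, mul_zero, Pi.star_apply]
  · by_cases hj : j ∈ B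
    · simp only [hj, if_true]
    · simp only [hj, if_false, RepData.mG1, rmLift, Matrix.of_apply, pureOp,
        vecMulVec_apply, mul_ite, mul_zero, Pi.star_apply]

/-- **the components are good vectors** -/
theorem cl_goodVec {a0 : ℝ} (hW : 𝔇.WF a0) (lam : Rep.Irr (Equiv.Perm κ))
    {u : RCfg (rmIo io 𝔇.dst) κ → ℂ} (hu : IsSymVec u) (h : 𝔇.mLowFull lam *ᵥ u = u)
    (B : Finset κ) : 𝔇.GoodVec lam B (𝔇.mPos B *ᵥ u) := by
  obtain ⟨-, hC, hR⟩ := cl_low_fixes 𝔇 hW lam h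
  refine ⟨?_, ?_, ?_, ?_, ?_⟩
  · rw [mulVec_mulVec, cp_pos_mul 𝔇 hW, if_pos rfl]
  · intro π
    rw [mulVec_mulVec, ← (cl_pos_commute_sub 𝔇 B π).eq, ← mulVec_mulVec, hu]
  · intro π
    rw [mulVec_mulVec, ← (cl_pos_commute_sub' 𝔇 B π).eq, ← mulVec_mulVec, hu]
  · have hc : Commute (𝔇.mPos B) (labP {rmC} lam) := cp_pos_commute_repQ 𝔇 (by simp) _ B
    rw [mulVec_mulVec, ← hc.eq, ← mulVec_mulVec, hC]
  · have hc : Commute (𝔇.mPos B) (labP {rmR} lam) := cp_pos_commute_repQ 𝔇 (by simp) _ B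
    rw [mulVec_mulVec, ← hc.eq, ← mulVec_mulVec, hR]

theorem cl_sum_components {a0 : ℝ} (hW : 𝔇.WF a0) (lam : Rep.Irr (Equiv.Perm κ))
    {u : RCfg (rmIo io 𝔇.dst) κ → ℂ} (h : 𝔇.mLowFull lam *ᵥ u = u) :
    u = ∑ B ∈ 𝔇.mSmall κ, 𝔇.mPos B *ᵥ u := by
  have h1 := (cl_low_fixes 𝔇 hW lam h).1
  unfold RepData.mDef at h1
  rw [sum_mulVec] at h1
  exact h1.symm

theorem cl_sum_norms {a0 : ℝ} (hW : 𝔇.WF a0) (u : RCfg (rmIo io 𝔇.dst) κ → ℂ) :
    ∑ B ∈ 𝔇.mSmall κ, (star (𝔇.mPos B *ᵥ u) ⬝ᵥ (𝔇.mPos B *ᵥ u)).re ≤ (star u ⬝ᵥ u).re := by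
  have e : ∀ B : Finset κ, star (𝔇.mPos B *ᵥ u) ⬝ᵥ (𝔇.mPos B *ᵥ u) = star u ⬝ᵥ (𝔇.mPos B *ᵥ u) :=
    fun B => cp_proj_quad (cp_pos_isHermitian 𝔇 hW B) (by rw [cp_pos_mul 𝔇 hW, if_pos rfl]) u
  simp only [e]
  have hnn : ∀ B : Finset κ, 0 ≤ (star u ⬝ᵥ (𝔇.mPos B *ᵥ u)).re := fun B =>
    (Complex.le_def.1 ((cp_pos_posSemidef 𝔇 hW B).dotProduct_mulVec_nonneg u)).1
  calc ∑ B ∈ 𝔇.mSmall κ, (star u ⬝ᵥ (𝔇.mPos B *ᵥ u)).re
      ≤ ∑ B : Finset κ, (star u ⬝ᵥ (𝔇.mPos B *ᵥ u)).re :=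
        Finset.sum_le_sum_of_subset_of_nonneg (Finset.subset_univ _) fun B _ _ => hnn B
    _ = (star u ⬝ᵥ u).re := by
        rw [← Complex.re_sum, ← dotProduct_sum, ← sum_mulVec, cp_sum_pos 𝔇 hW, one_mulVec]

variable {𝔇}

/-- the physical parts of the good copies are symmetric -/
theorem RepData.GoodVec.physG {lam : Rep.Irr (Equiv.Perm κ)} {B : Finset κ}
    {w : RCfg (rmIo io 𝔇.dst) κ → ℂ} (h : 𝔇.GoodVec lam B w) :
    FixS (rmPh (Finset.univ : Finset Λ)) Bᶜ w := by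
  intro π
  rw [← h.pos, mulVec_mulVec, cl_phys_absorb]

/-- the auxiliary parts of the good copies are symmetric -/
theorem RepData.GoodVec.auxG {lam : Rep.Irr (Equiv.Perm κ)} {B : Finset κ}
    {w : RCfg (rmIo io 𝔇.dst) κ → ℂ} (h : 𝔇.GoodVec lam B w) :
    FixS ({rmC, rmR} : Finset (Λ ⊕ Bool)) Bᶜ w := by
  refine FixS.of_union (cp_disjoint_phys (Finset.Subset.refl _) Finset.univ) ?_ h.physG
  have e : rmPh (Finset.univ : Finset Λ) ∪ ({rmC, rmR} : Finset (Λ ⊕ Bool)) = Finset.univ := by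
    ext x
    simp only [Finset.mem_union, Finset.mem_univ, iff_true]
    rcases x with y | b
    · left
      unfold rmPh
      rw [Finset.mem_map]
      exact ⟨y, Finset.mem_univ _, rfl⟩
    · right
      cases b <;> simp [rmC, rmR]
  rw [e]
  exact h.symG

end Scan

end Claimed.Agent.R296
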