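import Claimed.Agent.R296.Cmp.LowPin

/-!
# Row 296, P1 Section 7.3: inverse compression and the lower pins
(eqs. comparator:inverse-compression, comparator:lower-pin)

Owner: helper239.  Prefix `cl_`.
`cl_pin_rough`, `cl_pin_sharp` :  `exp (k a L - 3 ε k) • mLow lam ≤ mBand (Fin k) s`  for `k ≥ k0(ε)` and every label with `GoodLab lam ε`.
-/

set_option autoImplicit false
set_option linter.unusedSectionVars false

namespace Claimed.Agent.R296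

namespace Scan

open Matrix Finset
open scoped ComplexOrder MatrixOrder

variable {Λ ι α : Type} [Fintype Λ] [DecidableEq Λ] [Fintype ι]
  {io : Λ → Type} [∀ x, Fintype (io x)] [∀ x, DecidableEq (io x)] [∀ x, Nonempty (io x)]
  (𝔇 : RepData Λ ι α io)

/-- Cauchy-Schwarz over the components -/
theorem cl_compress {κ : Type} [Fintype κ] [DecidableEq κ] {a0 : ℝ} (hW : 𝔇.WF a0)
    (lam : Rep.Irr (Equiv.Perm κ)) {s : Finset Λ × Finset Λ} (hs : Disjoint s.1 s.2) {β : ℝ}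
    (hβ : ∀ B ∈ 𝔇.mSmall κ, ∀ w : RCfg (rmIo io 𝔇.dst) κ → ℂ, 𝔇.GoodVec lam B w →
      (star w ⬝ᵥ (bandFull (𝔇.a / 2) (RepData.mP s) (RepData.mY s) (RepData.mFar s) (-1) *ᵥ w)).re ≤
        β * (star w ⬝ᵥ w).re) (hβ0 : 0 ≤ β)
    (x : 𝔇.MIx κ → ℂ) (hx : 𝔇.mLow lam *ᵥ x = x) :
    (star x ⬝ᵥ ((𝔇.mBand κ s)⁻¹ *ᵥ x)).re ≤ ((𝔇.mSmall κ).card : ℝ) * β * (star x ⬝ᵥ x).re := by
  have := cl_nonempty 𝔇 hW
  have ht : 0 < 𝔇.a / 2 := by have := hW.a_pos; linarith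
  set u : RCfg (rmIo io 𝔇.dst) κ → ℂ := symV *ᵥ x with hu
  have husym : IsSymVec u := isSymVec_symV_mulVec x
  have hlow : 𝔇.mLowFull lam *ᵥ u = u := by
    have h1 := mul_symV_eq (cp_lowFull_proj 𝔇 hW lam).2.2
    rw [hu, mulVec_mulVec, ← h1, ← mulVec_mulVec]
    change symV *ᵥ (𝔇.mLow lam *ᵥ x) = _
    rw [hx]
  have hnorm : star u ⬝ᵥ u = star x ⬝ᵥ x := by
    have h1 := cmp_quadratic_form (io := rmIo io 𝔇.dst) (κ := κ) 1 x x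
    rw [cmp_one, one_mulVec, one_mulVec] at h1
    exact h1.symm
  set Xf := bandFull (io := rmIo io 𝔇.dst) (κ := κ) (𝔇.a / 2) (RepData.mP s) (RepData.mY s)
    (RepData.mFar s) (-1) with hXf
  have hPSD : Xf.PosSemidef := (bandFull_posDef (𝔇.a / 2) ht (cp_part3 hs) (-1)).posSemidef
  rw [cp_band_inv 𝔇 hW hs, cmp_quadratic_form, ← hu, ← hnorm]
  have hsum := cl_sum_components 𝔇 hW lam hlow
  have h1 := ca_cs_sum hPSD (𝔇.mSmall κ) (fun B => 𝔇.mPos B *ᵥ u)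
  rw [← hsum] at h1
  have h2 : ∑ B ∈ 𝔇.mSmall κ, (star (𝔇.mPos B *ᵥ u) ⬝ᵥ (Xf *ᵥ (𝔇.mPos B *ᵥ u))).re ≤
      β * (star u ⬝ᵥ u).re := by
    calc _ ≤ ∑ B ∈ 𝔇.mSmall κ, β * (star (𝔇.mPos B *ᵥ u) ⬝ᵥ (𝔇.mPos B *ᵥ u)).re :=
          Finset.sum_le_sum fun B hB => hβ B hB _ (cl_goodVec 𝔇 hW lam husym hlow B)
      _ = β * ∑ B ∈ 𝔇.mSmall κ, (star (𝔇.mPos B *ᵥ u) ⬝ᵥ (𝔇.mPos B *ᵥ u)).re := by
          rw [Finset.mul_sum]
      _ ≤ β * (star u ⬝ᵥ u).re := mul_le_mul_of_nonneg_left (cl_sum_norms 𝔇 hW u) hβ0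
  calc _ ≤ _ := h1
    _ ≤ ((𝔇.mSmall κ).card : ℝ) * (β * (star u ⬝ᵥ u).re) :=
        mul_le_mul_of_nonneg_left h2 (Nat.cast_nonneg _)
    _ = _ := by ring

/-! ### scalar bookkeeping -/

/-- the factor of a component which comes from the binomial coefficient and the threshold -/
theorem cl_beta_le {a E1 E2 E3 ch dp dl : ℝ} (ha : 0 ≤ a) (hch0 : 0 < ch) (hdp0 : 0 < dp)
    (hdl0 : 0 < dl) (hch : ch ≤ Real.exp E1) (hdp : dp ≤ Real.exp E2) (hdl : Real.exp E3 ≤ dl) :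
    ch ^ a * (dl / (ch * dp)) ^ (-(2 * a)) ≤ Real.exp (3 * a * E1 + 2 * a * E2 - 2 * a * E3) := by
  have h1 : ch ^ a ≤ Real.exp (a * E1) := by
    calc ch ^ a ≤ (Real.exp E1) ^ a := Real.rpow_le_rpow hch0.le hch ha
      _ = Real.exp (a * E1) := by rw [← Real.exp_mul]; congr 1; ring
  have h2 : (dl / (ch * dp)) ^ (-(2 * a)) = (ch * dp / dl) ^ (2 * a) := by
    rw [Real.rpow_neg (by positivity), ← Real.inv_rpow (by positivity), inv_div]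
  have h3 : ch * dp / dl ≤ Real.exp (E1 + E2 - E3) := by
    rw [Real.exp_sub, Real.exp_add]
    exact div_le_div₀ (by positivity) (mul_le_mul hch hdp hdp0.le (Real.exp_pos _).le)
      (Real.exp_pos _) hdl
  have h4 : (ch * dp / dl) ^ (2 * a) ≤ Real.exp (2 * a * (E1 + E2 - E3)) := by
    calc (ch * dp / dl) ^ (2 * a) ≤ (Real.exp (E1 + E2 - E3)) ^ (2 * a) :=
          Real.rpow_le_rpow (by positivity) h3 (by linarith)
      _ = Real.exp (2 * a * (E1 + E2 - E3)) := by rw [← Real.exp_mul]; congr 1; ring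
  rw [h2]
  calc ch ^ a * (ch * dp / dl) ^ (2 * a) ≤
        Real.exp (a * E1) * Real.exp (2 * a * (E1 + E2 - E3)) :=
        mul_le_mul h1 h4 (by positivity) (Real.exp_pos _).le
    _ = _ := by rw [← Real.exp_add]; congr 1; ring

/-- comparison of the exponents, rough version -/
theorem cl_exponent_rough {k a τ h ld S' ε C : ℝ} (hk : 0 ≤ k) (ha0 : 0 < a) (ha1 : a ≤ 1)
    (hτ : 0 ≤ τ) (hh : 0 ≤ h) (hld : 0 ≤ ld) (hε : 0 ≤ ε) (hC : 4 ≤ C) :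
    ε * k + k * h + (3 * a * (k * h) + 2 * a * (τ * k * ld) - 2 * a * (k * S' - ε * k)) ≤
      -(k * (a * (2 * S' - C * (τ * ld + h / a))) - 3 * ε * k) := by
  have e1 : a * (2 * S' - C * (τ * ld + h / a)) = 2 * a * S' - C * (a * τ * ld) - C * h := by
    field_simp
    ring
  rw [e1]
  have A1 : 0 ≤ k * h := mul_nonneg hk hh
  have A2 : a * (k * h) ≤ k * h := mul_le_of_le_one_left A1 ha1
  have A3 : 0 ≤ k * (a * τ * ld) := by positivity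
  have A4 : a * (ε * k) ≤ ε * k := mul_le_of_le_one_left (by positivity) ha1
  have A5 : 4 * (k * h) ≤ C * (k * h) := mul_le_mul_of_nonneg_right hC A1
  have A6 : 4 * (k * (a * τ * ld)) ≤ C * (k * (a * τ * ld)) := mul_le_mul_of_nonneg_right hC A3
  nlinarith

/-- comparison of the exponents, sharp version -/
theorem cl_exponent_sharp {k k' a τ h ld S' ε C g c BB : ℝ} (hk : 0 ≤ k) (ha0 : 0 < a)
    (ha1 : a ≤ 1) (hτ : 0 ≤ τ) (hh : 0 ≤ h) (hld : 0 ≤ ld) (hε : 0 ≤ ε) (hC : 4 ≤ C)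
    (hk1 : (1 - τ) * k ≤ k') (hk2 : k' ≤ k) (hg : 0 ≤ g) (hc : 0 ≤ c) (hcC : 25 * c ≤ C * BB) :
    ε * k + k * h + (3 * a * (k * h) + 2 * a * (τ * k * ld) - 2 * a * (k * S' - ε * k)) +
        k' * (-(a * g) + 25 * c * a ^ 2) ≤
      -(k * (a * (2 * S' + (1 - τ) * g - C * (τ * ld + h / a + a * BB))) - 3 * ε * k) := by
  have h1 := cl_exponent_rough (S' := S') hk ha0 ha1 hτ hh hld hε hC
  have e1 : k * (a * (2 * S' + (1 - τ) * g - C * (τ * ld + h / a + a * BB))) =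
      k * (a * (2 * S' - C * (τ * ld + h / a))) + (1 - τ) * k * (a * g) - k * (C * BB * a ^ 2) := by
    ring
  rw [e1]
  have hag : 0 ≤ a * g := by positivity
  have h2 : (1 - τ) * k * (a * g) ≤ k' * (a * g) := mul_le_mul_of_nonneg_right hk1 hag
  have hca : 0 ≤ 25 * c * a ^ 2 := by positivity
  have h3 : k' * (25 * c * a ^ 2) ≤ k * (25 * c * a ^ 2) := mul_le_mul_of_nonneg_right hk2 hca
  have h4 : k * (25 * c * a ^ 2) ≤ k * (C * BB * a ^ 2) := by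
    apply mul_le_mul_of_nonneg_left _ hk
    exact mul_le_mul_of_nonneg_right hcC (by positivity)
  have e2 : k' * (-(a * g) + 25 * c * a ^ 2) = -(k' * (a * g)) + k' * (25 * c * a ^ 2) := by ring
  rw [e2]
  linarith

/-! ### the three scalar inputs -/

theorem cl_dst_pow_le {a0 : ℝ} (hW : 𝔇.WF a0) {k r : ℕ} (hr : (r : ℝ) ≤ 𝔇.τ * k) :
    (𝔇.dst : ℝ) ^ r ≤ Real.exp (𝔇.τ * k * 𝔇.ld) := by
  have h2 : (0 : ℝ) < (𝔇.dst : ℝ) := by exact_mod_cast co_dst_pos 𝔇 hW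
  have h3 : Real.exp 𝔇.ld = (𝔇.dst : ℝ) := Real.exp_log h2
  rw [← h3, ← Real.exp_nat_mul]
  exact Real.exp_le_exp.2 (mul_le_mul_of_nonneg_right hr (co_ld_nonneg 𝔇 hW))

theorem cl_dimI_ge {k : ℕ} {lam : Rep.Irr (Equiv.Perm (Fin k))} {ε : ℝ} (h : 𝔇.GoodLab lam ε) :
    Real.exp (k * 𝔇.S' - ε * k) ≤ (Rep.dimI lam : ℝ) := by
  have h1 := (abs_le.1 h.2).1
  rw [Fintype.card_fin] at h1
  have h2 : (0 : ℝ) < (Rep.dimI lam : ℝ) := by exact_mod_cast Rep.dimI_pos lam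
  rw [← Real.exp_log h2]
  exact Real.exp_le_exp.2 (by linarith)

/-- the common part of the two pins: bound of `|mSmall| * poly * choose^a * D^{-2a}` -/
theorem cl_prefactor {a0 : ℝ} (hW : 𝔇.WF a0) {k : ℕ} {lam : Rep.Irr (Equiv.Perm (Fin k))} {ε : ℝ}
    (h : 𝔇.GoodLab lam ε) {B : Finset (Fin k)} (hB : B ∈ 𝔇.mSmall (Fin k)) :
    ((Fintype.card (Fin k)).choose B.card : ℝ) ^ 𝔇.a * 𝔇.clD lam B ^ (-(2 * 𝔇.a)) ≤
      Real.exp (3 * 𝔇.a * (k * Real.binEntropy 𝔇.τ) + 2 * 𝔇.a * (𝔇.τ * k * 𝔇.ld) -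
        2 * 𝔇.a * (k * 𝔇.S' - ε * k)) := by
  have hB' : (B.card : ℝ) ≤ 𝔇.τ * k := by
    have := (Finset.mem_filter.1 hB).2
    rwa [Fintype.card_fin] at this
  have h2 : (0 : ℝ) < (𝔇.dst : ℝ) := by exact_mod_cast co_dst_pos 𝔇 hW
  unfold RepData.clD
  refine cl_beta_le hW.a_pos.le (cl_choose_pos B) (by positivity)
    (by exact_mod_cast Rep.dimI_pos lam) ?_ (cl_dst_pow_le 𝔇 hW hB') (cl_dimI_ge 𝔇 h)
  rw [Fintype.card_fin]
  exact cl_choose_le hW.tau_pos hW.tau_lt k B.card hB'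

theorem cl_card_small {a0 : ℝ} (hW : 𝔇.WF a0) (k : ℕ) :
    ((𝔇.mSmall (Fin k)).card : ℝ) ≤ ((k : ℝ) + 1) * Real.exp (k * Real.binEntropy 𝔇.τ) := by
  have := cl_card_small_le hW.tau_pos hW.tau_lt (Fin k)
  rw [Fintype.card_fin] at this
  unfold RepData.mSmall
  rw [Fintype.card_fin]
  convert this

/-- **(comparator:lower-pin)**, rough version -/
theorem cl_pin_rough {a0 : ℝ} (hW : 𝔇.WF a0) (ha : 2 * 𝔇.a ≤ 1) {C : ℝ} (hC : 4 ≤ C) {ε : ℝ}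
    (hε : 0 < ε) :
    ∃ k0 : ℕ, ∀ k : ℕ, k0 ≤ k → ∀ lam : Rep.Irr (Equiv.Perm (Fin k)), 𝔇.GoodLab lam ε →
      ∀ s : Finset Λ × Finset Λ, Disjoint s.1 s.2 →
      ((Real.exp (k * (𝔇.a * 𝔇.LR C) - 3 * ε * k) : ℝ) : ℂ) • 𝔇.mLow lam ≤ 𝔇.mBand (Fin k) s := by
  obtain ⟨Cp, m, hCp, hcomp⟩ := cl_comp_rough 𝔇 hW ha
  obtain ⟨k0, hk0⟩ := cl_poly_le_exp Cp (m + 1) hε
  refine ⟨k0, fun k hk lam hlam s hs => ?_⟩
  have hproj := cp_low_proj 𝔇 hW lam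
  refine ca_pin_of_compress (cp_band_posDef 𝔇 hW hs) hproj.1 hproj.2 (Real.exp_pos _) fun x hx => ?_
  set E : ℝ := 3 * 𝔇.a * (k * Real.binEntropy 𝔇.τ) + 2 * 𝔇.a * (𝔇.τ * k * 𝔇.ld) -
    2 * 𝔇.a * (k * 𝔇.S' - ε * k) with hE
  have hpoly0 : 0 ≤ Cp * ((k : ℝ) + 1) ^ m := by positivity
  have hβ : ∀ B ∈ 𝔇.mSmall (Fin k), ∀ w : RCfg (rmIo io 𝔇.dst) (Fin k) → ℂ, 𝔇.GoodVec lam B w →
      (star w ⬝ᵥ (bandFull (𝔇.a / 2) (RepData.mP s) (RepData.mY s) (RepData.mFar s) (-1) *ᵥ w)).re ≤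
        (Cp * ((k : ℝ) + 1) ^ m * Real.exp E) * (star w ⬝ᵥ w).re := by
    intro B hB w hw
    have h1 := hcomp (Fin k) lam B w hw s hs
    have h2 := cl_prefactor 𝔇 hW hlam hB
    have hn := cl_norm_nonneg w
    rw [Fintype.card_fin] at h1 h2
    calc _ ≤ _ := h1
      _ = Cp * ((k : ℝ) + 1) ^ m * ((k.choose B.card : ℝ) ^ 𝔇.a * 𝔇.clD lam B ^ (-(2 * 𝔇.a))) *
          (star w ⬝ᵥ w).re := by ring
      _ ≤ _ := mul_le_mul_of_nonneg_right (mul_le_mul_of_nonneg_left h2 hpoly0) hn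
  have h3 := cl_compress 𝔇 hW lam hs hβ (by positivity) x hx
  have hn := cl_norm_nonneg x
  refine h3.trans (mul_le_mul_of_nonneg_right ?_ hn)
  have h4 := cl_card_small 𝔇 hW k
  have h5 := hk0 k hk
  have hkk : (0 : ℝ) ≤ (k : ℝ) := Nat.cast_nonneg k
  have h6 := cl_exponent_rough (k := (k : ℝ)) (a := 𝔇.a) (τ := 𝔇.τ) (h := Real.binEntropy 𝔇.τ)
    (ld := 𝔇.ld) (S' := 𝔇.S') (ε := ε) (C := C) hkk hW.a_pos (by linarith) hW.tau_pos.le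
    (Real.binEntropy_nonneg hW.tau_pos.le (by linarith [hW.tau_lt])) (co_ld_nonneg 𝔇 hW) hε.le hC
  rw [← Real.exp_neg]
  calc ((𝔇.mSmall (Fin k)).card : ℝ) * (Cp * ((k : ℝ) + 1) ^ m * Real.exp E)
      ≤ (((k : ℝ) + 1) * Real.exp (k * Real.binEntropy 𝔇.τ)) *
          (Cp * ((k : ℝ) + 1) ^ m * Real.exp E) :=
        mul_le_mul_of_nonneg_right h4 (by positivity)
    _ = (Cp * ((k : ℝ) + 1) ^ (m + 1)) * (Real.exp (k * Real.binEntropy 𝔇.τ) * Real.exp E) := by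
        rw [pow_succ]; ring
    _ ≤ Real.exp (ε * k) * (Real.exp (k * Real.binEntropy 𝔇.τ) * Real.exp E) :=
        mul_le_mul_of_nonneg_right h5 (by positivity)
    _ = Real.exp (ε * k + k * Real.binEntropy 𝔇.τ + E) := by
        rw [← Real.exp_add, ← Real.exp_add]; congr 1; ring
    _ ≤ _ := Real.exp_le_exp.2 h6

/-- **(comparator:lower-pin)**, sharp version -/
theorem cl_pin_sharp {a0 : ℝ} (hW : 𝔇.WF a0) (ha : 10 * 𝔇.a ≤ 1) {C C0 c0 : ℝ} (hC : 4 ≤ C)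
    (hC0 : 0 ≤ C0) (hCC : 25 * C0 ≤ C) (hBB : 0 ≤ 𝔇.BB)
    (hc : 10 * 𝔇.a ≤ c0 / Real.sqrt 𝔇.BB) {ε : ℝ} (hε : 0 < ε) :
    ∃ k0 : ℕ, ∀ k : ℕ, k0 ≤ k → ∀ lam : Rep.Irr (Equiv.Perm (Fin k)), 𝔇.GoodLab lam ε →
      ∀ s : Finset Λ × Finset Λ, Disjoint s.1 s.2 →
      𝔇.MgfAt C0 c0 s.1 → 𝔇.MgfAt C0 c0 s.2 → 𝔇.MgfAt C0 c0 (s.1 ∪ s.2)ᶜ →
      ((Real.exp (k * (𝔇.a * 𝔇.LS C s) - 3 * ε * k) : ℝ) : ℂ) • 𝔇.mLow lam ≤ 𝔇.mBand (Fin k) s := by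
  obtain ⟨Cp, m, hCp, hcomp⟩ := cl_comp_sharp 𝔇 hW ha
  obtain ⟨k0, hk0⟩ := cl_poly_le_exp Cp (m + 1) hε
  refine ⟨k0, fun k hk lam hlam s hs M1 M2 M3 => ?_⟩
  have hproj := cp_low_proj 𝔇 hW lam
  refine ca_pin_of_compress (cp_band_posDef 𝔇 hW hs) hproj.1 hproj.2 (Real.exp_pos _) fun x hx => ?_
  set E : ℝ := 3 * 𝔇.a * (k * Real.binEntropy 𝔇.τ) + 2 * 𝔇.a * (𝔇.τ * k * 𝔇.ld) -
    2 * 𝔇.a * (k * 𝔇.S' - ε * k) with hE
  -- the exponent which is uniform in the component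
  set E' : ℝ := -(k * (𝔇.a * 𝔇.LS C s) - 3 * ε * k) - (ε * k + k * Real.binEntropy 𝔇.τ) with hE'
  have hpoly0 : 0 ≤ Cp * ((k : ℝ) + 1) ^ m := by positivity
  have hkk : (0 : ℝ) ≤ (k : ℝ) := Nat.cast_nonneg k
  have hβ : ∀ B ∈ 𝔇.mSmall (Fin k), ∀ w : RCfg (rmIo io 𝔇.dst) (Fin k) → ℂ, 𝔇.GoodVec lam B w →
      (star w ⬝ᵥ (bandFull (𝔇.a / 2) (RepData.mP s) (RepData.mY s) (RepData.mFar s) (-1) *ᵥ w)).re ≤
        (Cp * ((k : ℝ) + 1) ^ m * Real.exp E') * (star w ⬝ᵥ w).re := by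
    intro B hB w hw
    have h1 := hcomp (Fin k) C0 c0 lam B w hw s hs M1 M2 M3 hc
    have h2 := cl_prefactor 𝔇 hW hlam hB
    have hn := cl_norm_nonneg w
    have hB' : (B.card : ℝ) ≤ 𝔇.τ * k := by
      have := (Finset.mem_filter.1 hB).2
      rwa [Fintype.card_fin] at this
    have hcc : ((Bᶜ).card : ℝ) = (k : ℝ) - B.card := by
      rw [Finset.card_compl, Fintype.card_fin, Nat.cast_sub]
      have := Finset.card_le_univ B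
      rwa [Fintype.card_fin] at this
    have hBn : (0 : ℝ) ≤ (B.card : ℝ) := Nat.cast_nonneg _
    have h6 := cl_exponent_sharp (k := (k : ℝ)) (k' := ((Bᶜ).card : ℝ)) (a := 𝔇.a) (τ := 𝔇.τ)
      (h := Real.binEntropy 𝔇.τ) (ld := 𝔇.ld) (S' := 𝔇.S') (ε := ε) (C := C) (g := 𝔇.gpre s)
      (c := C0 * 𝔇.BB) (BB := 𝔇.BB) hkk hW.a_pos (by linarith) hW.tau_pos.le
      (Real.binEntropy_nonneg hW.tau_pos.le (by linarith [hW.tau_lt])) (co_ld_nonneg 𝔇 hW) hε.le hC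
      (by rw [hcc]; linarith) (by rw [hcc]; linarith) (RepData.rm_gpre_nonneg hW s) (by positivity)
      (by
        have := mul_le_mul_of_nonneg_right hCC hBB
        linarith)
    have h7 : E + ((Bᶜ).card : ℝ) * (-(𝔇.a * 𝔇.gpre s) + 25 * (C0 * 𝔇.BB) * 𝔇.a ^ 2) ≤ E' := by
      rw [hE', hE]
      unfold RepData.LS
      linarith
    rw [Fintype.card_fin] at h1 h2
    calc _ ≤ _ := h1
      _ = Cp * ((k : ℝ) + 1) ^ m * (((k.choose B.card : ℝ) ^ 𝔇.a * 𝔇.clD lam B ^ (-(2 * 𝔇.a))) *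
          Real.exp (((Bᶜ).card : ℝ) * (-(𝔇.a * 𝔇.gpre s) + 25 * (C0 * 𝔇.BB) * 𝔇.a ^ 2))) *
          (star w ⬝ᵥ w).re := by ring
      _ ≤ Cp * ((k : ℝ) + 1) ^ m * (Real.exp E *
          Real.exp (((Bᶜ).card : ℝ) * (-(𝔇.a * 𝔇.gpre s) + 25 * (C0 * 𝔇.BB) * 𝔇.a ^ 2))) *
          (star w ⬝ᵥ w).re :=
        mul_le_mul_of_nonneg_right (mul_le_mul_of_nonneg_left
          (mul_le_mul_of_nonneg_right h2 (Real.exp_pos _).le) hpoly0) hn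
      _ ≤ _ := by
        rw [← Real.exp_add]
        exact mul_le_mul_of_nonneg_right (mul_le_mul_of_nonneg_left (Real.exp_le_exp.2 h7) hpoly0) hn
  have h3 := cl_compress 𝔇 hW lam hs hβ (by positivity) x hx
  have hn := cl_norm_nonneg x
  refine h3.trans (mul_le_mul_of_nonneg_right ?_ hn)
  have h4 := cl_card_small 𝔇 hW k
  have h5 := hk0 k hk
  rw [← Real.exp_neg]
  calc ((𝔇.mSmall (Fin k)).card : ℝ) * (Cp * ((k : ℝ) + 1) ^ m * Real.exp E')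
      ≤ (((k : ℝ) + 1) * Real.exp (k * Real.binEntropy 𝔇.τ)) *
          (Cp * ((k : ℝ) + 1) ^ m * Real.exp E') :=
        mul_le_mul_of_nonneg_right h4 (by positivity)
    _ = (Cp * ((k : ℝ) + 1) ^ (m + 1)) * (Real.exp (k * Real.binEntropy 𝔇.τ) * Real.exp E') := by
        rw [pow_succ]; ring
    _ ≤ Real.exp (ε * k) * (Real.exp (k * Real.binEntropy 𝔇.τ) * Real.exp E') :=
        mul_le_mul_of_nonneg_right h5 (by positivity)
    _ = Real.exp (ε * k + k * Real.binEntropy 𝔇.τ + E') := by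
        rw [← Real.exp_add, ← Real.exp_add]; congr 1; ring
    _ = _ := by rw [hE']; congr 1; ring

end Scan

end Claimed.Agent.R296
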