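import Claimed.Agent.R296.CmpPre

/-!
# Row 296, P1 Section 7.3 (the inverse metric on copies near the ground state): DEFINITIONS

Architect: helper239.  Prefix `cl_` (theorems), `repS / cenS / labS / dimPowS` (labels of a GROUP of copies).

## Labels of a group of copies
For `S : Finset κ` the permutations of the copies in `S` form the subgroup
`subHom S : Perm {j // j ∈ S} →* Perm κ` (`Equiv.Perm.ofSubtype`).  On the copies of a region `Q`:
* `repS Q S y  = repQ Q (Rep.gmap (subHom S) y)`  : the group algebra of `Perm S` on the region `Q`;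
* `cenS Q S φ`, `labS Q S i`, `dimPowS Q S b`      : central label functions, label projectors, `e^{b F_Q^S}`.
"good" copies = `Bᶜ`, "bad" copies = `B`.

## The components of a vector with few excited copies
`GoodVec 𝔇 lam B w` collects what is used of `w = u_B = mPos B u` (`u` symmetric, both auxiliary labels `lam`).

## The operators
* `bandDim P Y F a     = e^{-a (F_P + F_F - F_Y)}`       (whole labels),
* `bandDimS P Y F S a  = e^{-a (F_P^S + F_F^S - F_Y^S)}` (labels of the group `S`),
* `mergeS Q E S b      = e^{b (F_Q^S + F_E^S - F_{QE}^S)}` (merge deficit).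
-/

set_option autoImplicit false
set_option linter.unusedSectionVars false

namespace Claimed.Agent.R296

open Matrix Finset
open scoped ComplexOrder

section Group

variable {s : Type} [DecidableEq s] [Fintype s] {io : s → Type}
  [∀ x, Fintype (io x)] [∀ x, DecidableEq (io x)] {κ : Type} [Fintype κ] [DecidableEq κ]

/-- the permutations of the copies in `S`, as permutations of all copies -/
noncomputable def subHom (S : Finset κ) : Equiv.Perm {j // j ∈ S} →* Equiv.Perm κ :=
  Equiv.Perm.ofSubtype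

/-- the group algebra of the permutations of the copies in `S`, acting on the region `Q` -/
noncomputable def repS (Q : Finset s) (S : Finset κ) :
    GA {j // j ∈ S} →ₐ[ℂ] Matrix (RCfg io κ) (RCfg io κ) ℂ :=
  (repQ Q).comp (Rep.gmap (subHom S))

/-- central label function of the group `S` on the region `Q` -/
noncomputable def cenS (Q : Finset s) (S : Finset κ)
    (φ : Rep.Irr (Equiv.Perm {j // j ∈ S}) → ℂ) : Matrix (RCfg io κ) (RCfg io κ) ℂ :=
  repS Q S (Rep.cfun φ)

/-- label projector of the group `S` on the region `Q` -/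
noncomputable def labS (Q : Finset s) (S : Finset κ) (i : Rep.Irr (Equiv.Perm {j // j ∈ S})) :
    Matrix (RCfg io κ) (RCfg io κ) ℂ :=
  repS Q S (Rep.idem i)

/-- `e^{b F_Q^S} = ∑ d_α^b π_{Q,S}^α` -/
noncomputable def dimPowS (Q : Finset s) (S : Finset κ) (b : ℝ) :
    Matrix (RCfg io κ) (RCfg io κ) ℂ :=
  cenS Q S fun i => ((((Rep.dimI i : ℕ) : ℝ) ^ b : ℝ) : ℂ)

/-- `e^{-a (F_P + F_F - F_Y)}`, whole labels -/
noncomputable def bandDim (P Y F : Finset s) (a : ℝ) : Matrix (RCfg io κ) (RCfg io κ) ℂ :=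
  cenQ P (fun i => ((((Rep.dimI i : ℕ) : ℝ) ^ (-a) : ℝ) : ℂ)) *
    cenQ F (fun i => ((((Rep.dimI i : ℕ) : ℝ) ^ (-a) : ℝ) : ℂ)) *
    cenQ Y (fun i => ((((Rep.dimI i : ℕ) : ℝ) ^ a : ℝ) : ℂ))

/-- `e^{-a (F_P^S + F_F^S - F_Y^S)}`, labels of the group `S` -/
noncomputable def bandDimS (P Y F : Finset s) (S : Finset κ) (a : ℝ) :
    Matrix (RCfg io κ) (RCfg io κ) ℂ :=
  dimPowS P S (-a) * dimPowS F S (-a) * dimPowS Y S a

/-- `e^{b D}`, `D = F_Q^S + F_E^S - F_{Q ∪ E}^S` the merge deficit -/
noncomputable def mergeS (Q E : Finset s) (S : Finset κ) (b : ℝ) :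
    Matrix (RCfg io κ) (RCfg io κ) ℂ :=
  dimPowS Q S b * dimPowS E S b * dimPowS (Q ∪ E) S (-b)

/-- `w` is fixed by the permutations of the copies in `S` acting on the region `Q` -/
def FixS (Q : Finset s) (S : Finset κ) (w : RCfg io κ → ℂ) : Prop :=
  ∀ π : Equiv.Perm {j // j ∈ S}, UQ Q (subHom S π) *ᵥ w = w

end Group

namespace Scan

namespace RepData

variable {Λ ι α : Type} [Fintype Λ] [DecidableEq Λ] [Fintype ι]
  {io : Λ → Type} [∀ x, Fintype (io x)] [∀ x, DecidableEq (io x)]
  (𝔇 : RepData Λ ι α io) {κ : Type} [Fintype κ] [DecidableEq κ]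

/-- what is used of a component `u_B` -/
structure GoodVec (lam : Rep.Irr (Equiv.Perm κ)) (B : Finset κ)
    (w : RCfg (rmIo io 𝔇.dst) κ → ℂ) : Prop where
  pos : 𝔇.mPos B *ᵥ w = w
  symB : FixS Finset.univ B w
  symG : FixS Finset.univ Bᶜ w
  labC : labP {rmC} lam *ᵥ w = w
  labR : labP {rmR} lam *ᵥ w = w

end RepData

end Scan

end Claimed.Agent.R296
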