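import Claimed.Agent.R296.Cmp.LowMerge
import Claimed.Agent.R296.Cmp.JointPvm

/-!
# Row 296, P1 Section 7.3, package CL-GOOD: the inverse metric on one group of copies
(eqs. comparator:good-auxiliary, merge-decomposition, the two Hoelder steps before component-inverse)

Architect: helper239.  ONE owner (or two: `Bad` + `Thr` / `Good`).  Generic replica system; the sites contain two marked sites
`c, r` (the auxiliary systems) and three disjoint regions `Q, V, Y` (physical).  `P = Q ∪ {c}`, `F = V ∪ {r}`.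
All operators are label functions of ONE group of copies `S`; the regions `Q, V, Y, {c}, {r}, P, F` are pairwise nested or
disjoint, so all of them commute (`cenS_commute_cenS`).  Recommended technique: the joint projection valued measure of the
seven labels and the finite measure `μ(i) = ⟨w, E(i) w⟩` (helper116's `Replica/Pvm.lean`), then everything is a scalar
inequality for finite sums:
`(d_Y / (d_P d_F))^a = (d_Y / (d_Q d_V))^a (d_Q d_c / d_P)^a (d_V d_r / d_F)^a d_c^{-a} d_r^{-a}`.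
* on the support of `μ`: `d_c, d_r ≥ D` (hypothesis), `d_Y ≤ d_Q d_V` (`cl_mirror` for `Y` against `Q ∪ V`, `cl_merge_compat`);
* rough: Cauchy-Schwarz and `cl_merge_moment` at `b = 2a`;
* sharp: Hoelder with five factors, `cl_merge_moment` at `b = 5a` and the three hypotheses.
-/

set_option autoImplicit false
set_option linter.unusedSectionVars false

namespace Claimed.Agent.R296

open Matrix Finset
open scoped ComplexOrder MatrixOrder

variable {s : Type} [DecidableEq s] [Fintype s]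

/-- three disjoint regions and two further sites -/
structure IsFive (Q V Y : Finset s) (c r : s) : Prop where
  dQV : Disjoint Q V
  dQY : Disjoint Q Y
  dVY : Disjoint V Y
  cQ : c ∉ Q
  cV : c ∉ V
  cY : c ∉ Y
  rQ : r ∉ Q
  rV : r ∉ V
  rY : r ∉ Y
  cr : c ≠ r

section Tools

variable {io : s → Type} [∀ x, Fintype (io x)] [∀ x, DecidableEq (io x)]
  {κ : Type} [Fintype κ] [DecidableEq κ]

/-- the label PVM of the group `S` of copies on the region `Q` -/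
noncomputable def clE (Q : Finset s) (S : Finset κ) :
    Pvm (RCfg io κ) (Rep.Irr (Equiv.Perm {j // j ∈ S})) where
  P := labS Q S
  herm := labS_isHermitian Q S
  orth := labS_mul_labS Q S
  total := sum_labS Q S

theorem clE_op (Q : Finset s) (S : Finset κ) (φ : Rep.Irr (Equiv.Perm {j // j ∈ S}) → ℂ) :
    (clE (io := io) Q S).op φ = cenS Q S φ := (cenS_eq_sum Q S φ).symm

theorem cl_labS_eq_cenS (Q : Finset s) (S : Finset κ) (i : Rep.Irr (Equiv.Perm {j // j ∈ S})) :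
    labS (io := io) Q S i = cenS Q S fun j => if j = i then 1 else 0 := by
  rw [← clE_op, Pvm.op_single]
  rfl

theorem cl_labS_commute {Q E : Finset s} (h : Q ⊆ E ∨ E ⊆ Q ∨ Disjoint Q E) (S : Finset κ)
    (i j : Rep.Irr (Equiv.Perm {j // j ∈ S})) :
    Commute (labS (io := io) Q S i) (labS E S j) := by
  rw [cl_labS_eq_cenS, cl_labS_eq_cenS]
  exact cenS_commute_cenS h S _ _

theorem cl_dimPowS_commute {Q E : Finset s} (h : Q ⊆ E ∨ E ⊆ Q ∨ Disjoint Q E) (S : Finset κ)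
    (b b' : ℝ) : Commute (dimPowS (io := io) Q S b) (dimPowS E S b') :=
  cenS_commute_cenS h S _ _

theorem cl_dimPowS_herm (Q : Finset s) (S : Finset κ) (b : ℝ) :
    (dimPowS (io := io) Q S b).IsHermitian := (dimPowS_posDef Q S b).1

/-- quadratic forms: `⟨w, X X w⟩ = ⟨X w, X w⟩` for Hermitian `X` -/
theorem cl_quad_sq {n : Type} [Fintype n] {X : Matrix n n ℂ} (hX : X.IsHermitian) (Z : Matrix n n ℂ)
    (w : n → ℂ) : star w ⬝ᵥ ((X * Z * X) *ᵥ w) = star (X *ᵥ w) ⬝ᵥ (Z *ᵥ (X *ᵥ w)) := by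
  rw [star_mulVec, hX.eq, ← dotProduct_mulVec, mulVec_mulVec, mulVec_mulVec, Matrix.mul_assoc]

end Tools

section Bad

variable {io : s → Type} [∀ x, Fintype (io x)] [∀ x, DecidableEq (io x)]
  {κ : Type} [Fintype κ] [DecidableEq κ]

theorem cl_bandDimS_add {P Y F : Finset s} (h : IsPart3 P Y F) (S : Finset κ) (a a' : ℝ) :
    bandDimS (io := io) P Y F S a * bandDimS P Y F S a' = bandDimS P Y F S (a + a') := by
  unfold bandDimS
  rw [band_mul3_mul3 (cl_dimPowS_commute (Or.inr (Or.inr h.dPF.symm)) S _ _)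
    (cl_dimPowS_commute (Or.inr (Or.inr h.dPY.symm)) S _ _)
    (cl_dimPowS_commute (Or.inr (Or.inr h.dYF)) S _ _), dimPowS_add, dimPowS_add, dimPowS_add,
    neg_add]

theorem cl_bandDimS_herm {P Y F : Finset s} (h : IsPart3 P Y F) (S : Finset κ) (a : ℝ) :
    (bandDimS (io := io) P Y F S a).IsHermitian := by
  unfold bandDimS
  have c1 := cl_dimPowS_commute (io := io) (Or.inr (Or.inr h.dPF)) S (-a) (-a)
  have c2 := cl_dimPowS_commute (io := io) (Or.inr (Or.inr h.dPY)) S (-a) a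
  have c3 := cl_dimPowS_commute (io := io) (Or.inr (Or.inr h.dYF.symm)) S (-a) a
  rw [IsHermitian, conjTranspose_mul, conjTranspose_mul, (cl_dimPowS_herm _ _ _).eq,
    (cl_dimPowS_herm _ _ _).eq, (cl_dimPowS_herm _ _ _).eq, ← c1.eq]
  exact ((c2.mul_left c3).eq).symm

theorem cl_bandDimS_posSemidef {P Y F : Finset s} (h : IsPart3 P Y F) (S : Finset κ) (a : ℝ) :
    (bandDimS (io := io) P Y F S a).PosSemidef := by
  have e : bandDimS (io := io) P Y F S a =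
      (bandDimS P Y F S (a / 2))ᴴ * bandDimS P Y F S (a / 2) := by
    rw [(cl_bandDimS_herm h S _).eq, cl_bandDimS_add h, add_halves]
  rw [e]
  exact posSemidef_conjTranspose_mul_self _

/-- on vectors which are symmetric in the copies of `S`: `F_Y ≤ F_P + F_F`
(`cl_mirror` with `Y`, `P ∪ F`; `cl_mergeS_neg_le_one`) -/
theorem cl_bandDimS_le_one {P Y F : Finset s} (h : IsPart3 P Y F) (S : Finset κ) {a : ℝ}
    (ha : 0 ≤ a) {x : RCfg io κ → ℂ} (hx : FixS Finset.univ S x) :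
    (star x ⬝ᵥ (bandDimS P Y F S a *ᵥ x)).re ≤ (star x ⬝ᵥ x).re := by
  have hd : Disjoint Y (P ∪ F) := Finset.disjoint_union_right.mpr ⟨h.dPY.symm, h.dYF⟩
  have hcov : Y ∪ (P ∪ F) = Finset.univ := by
    rw [← h.cover]
    ext z
    simp only [Finset.mem_union]
    tauto
  have hx' : FixS (Y ∪ (P ∪ F)) S x := by rw [hcov]; exact hx
  have hm : dimPowS Y S a *ᵥ x = dimPowS (P ∪ F) S a *ᵥ x := cl_mirror hd hx' _
  have e : bandDimS P Y F S a *ᵥ x = mergeS P F S (-a) *ᵥ x := by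
    unfold bandDimS mergeS
    rw [← mulVec_mulVec, hm, mulVec_mulVec, neg_neg]
  rw [e]
  have hle := cl_mergeS_neg_le_one (io := io) h.dPF S ha
  rw [Matrix.le_iff] at hle
  have h2 := hle.dotProduct_mulVec_nonneg x
  rw [Matrix.sub_mulVec, Matrix.one_mulVec, dotProduct_sub] at h2
  have h3 := (Complex.le_def.mp h2).1
  rw [Complex.sub_re, Complex.zero_re] at h3
  linarith

/-- the bad copies are discarded: apply `cl_bandDimS_le_one` to `x = bandDimS P Y F Bᶜ (a/2) w`, which is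
still symmetric in the copies of `B` (`repS_commute_of_disjoint_copies`, `FixS.mulVec`) -/
theorem cl_bad_le {P Y F : Finset s} (h : IsPart3 P Y F) (B : Finset κ) {a : ℝ} (ha : 0 ≤ a)
    {w : RCfg io κ → ℂ} (hw : FixS Finset.univ B w) :
    (star w ⬝ᵥ ((bandDimS P Y F Bᶜ a * bandDimS P Y F B a) *ᵥ w)).re ≤
      (star w ⬝ᵥ (bandDimS P Y F Bᶜ a *ᵥ w)).re := by
  set H := bandDimS (io := io) P Y F Bᶜ (a / 2) with hH
  have hHh : H.IsHermitian := cl_bandDimS_herm h _ _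
  have hHH : H * H = bandDimS P Y F Bᶜ a := by rw [hH, cl_bandDimS_add h, add_halves]
  have hdis : Disjoint Bᶜ B := disjoint_compl_left
  -- `H` commutes with everything on the copies of `B`
  have hcomm : ∀ (E : Finset s) (y : GA {j // j ∈ B}), Commute H (repS E B y) := by
    intro E y
    rw [hH]
    unfold bandDimS dimPowS cenS
    exact ((repS_commute_of_disjoint_copies hdis _ _ _ _).mul_left
      (repS_commute_of_disjoint_copies hdis _ _ _ _)).mul_left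
      (repS_commute_of_disjoint_copies hdis _ _ _ _)
  have hcB : Commute H (bandDimS P Y F B a) := by
    unfold bandDimS dimPowS cenS
    exact ((hcomm _ _).mul_right (hcomm _ _)).mul_right (hcomm _ _)
  have hx : FixS Finset.univ B (H *ᵥ w) := by
    apply hw.mulVec
    intro π
    rw [← repS_of]
    exact hcomm _ _
  have e1 : bandDimS P Y F Bᶜ a * bandDimS P Y F B a = H * bandDimS P Y F B a * H := by
    rw [← hHH, Matrix.mul_assoc, hcB.eq, ← Matrix.mul_assoc, hcB.eq]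
  have e2 : bandDimS (io := io) P Y F Bᶜ a = H * 1 * H := by rw [Matrix.mul_one, hHH]
  rw [e1, cl_quad_sq hHh]
  conv_rhs => rw [e2, cl_quad_sq hHh, Matrix.one_mulVec]
  exact cl_bandDimS_le_one h B ha hx

end Bad

section Thr

variable {io : s → Type} [∀ x, Fintype (io x)] [∀ x, DecidableEq (io x)]
  {κ : Type} [Fintype κ] [DecidableEq κ]

theorem cl_card_cfgOn_singleton (c : s) : Fintype.card (CfgOn io {c}) = Fintype.card (io c) := by
  rw [Fintype.card_pi]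
  have : (Finset.univ : Finset {x // x ∈ ({c} : Finset s)}) =
      {⟨c, Finset.mem_singleton_self c⟩} := by
    ext x
    simp only [Finset.mem_univ, Finset.mem_singleton, true_iff]
    exact Subtype.ext (Finset.mem_singleton.mp x.2)
  rw [this, Finset.prod_singleton]

/-- **(comparator:good-auxiliary)**: a vector with whole label `lam` on the site `c` has only large labels on the
good copies.  `labS c Bᶜ α w = ∑_β labS c Bᶜ α * labS c B β * labP c lam w`; `cl_group_compat`, `cl_labS_occurs`. -/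
theorem cl_aux_threshold (c : s) (B : Finset κ) (lam : Rep.Irr (Equiv.Perm κ))
    {w : RCfg io κ → ℂ} (h : labP {c} lam *ᵥ w = w) (α : Rep.Irr (Equiv.Perm {j // j ∈ Bᶜ}))
    (hα : (Fintype.card κ).choose B.card * (Rep.dimI α * Fintype.card (io c) ^ B.card) <
      Rep.dimI lam) :
    labS {c} Bᶜ α *ᵥ w = 0 := by
  have hz : ∀ β : Rep.Irr (Equiv.Perm {j // j ∈ B}),
      labP (io := io) {c} lam * labS {c} Bᶜ α * labS {c} B β = 0 := by
    intro β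
    by_contra hne
    have h1 := (cl_group_compat {c} B lam α β hne).2
    have hβ : labS (io := io) {c} B β ≠ 0 := by
      intro h0
      exact hne (by rw [h0, Matrix.mul_zero])
    have h2 := cl_labS_occurs {c} B β hβ
    rw [cl_card_cfgOn_singleton] at h2
    have h3 : (Fintype.card κ).choose B.card * (Rep.dimI α * Rep.dimI β) ≤
        (Fintype.card κ).choose B.card * (Rep.dimI α * Fintype.card (io c) ^ B.card) :=
      Nat.mul_le_mul_left _ (Nat.mul_le_mul_left _ h2)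
    omega
  have hsum : labP (io := io) {c} lam * labS {c} Bᶜ α = 0 := by
    have : labP (io := io) {c} lam * labS {c} Bᶜ α =
        ∑ β, labP (io := io) {c} lam * labS {c} Bᶜ α * labS {c} B β := by
      rw [← Finset.mul_sum, sum_labS, Matrix.mul_one]
    rw [this]
    exact Finset.sum_eq_zero fun β _ => hz β
  obtain ⟨φ, hφ⟩ := Scan.cp_labP_eq_cenQ (io' := io) {c} lam
  have hc : Commute (labP (io := io) {c} lam) (labS {c} Bᶜ α) := by
    rw [hφ]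
    exact cenQ_commute_repS (Or.inl (Finset.Subset.refl _)) _ _ _
  rw [← h, mulVec_mulVec, ← hc.eq, hsum, Matrix.zero_mulVec]

end Thr


section Scalar

/-- the pointwise inequality behind both estimates -/
theorem cl_pointwise {d0 d1 d2 d3 d4 d5 d6 a D : ℝ} (h0 : 0 < d0) (h1 : 0 < d1) (h2 : 0 < d2)
    (h3 : 0 < d3) (h4 : 0 < d4) (h5 : 0 < d5) (h6 : 0 < d6) (ha : 0 ≤ a) (hD : 0 < D)
    (hD3 : D ≤ d3) (hD4 : D ≤ d4) :
    d5 ^ (-a) * d6 ^ (-a) * d2 ^ a ≤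
      D ^ (-(2 * a)) * (d0 ^ (-a) * d1 ^ (-a) * d2 ^ a * (d0 ^ a * d3 ^ a * d5 ^ (-a)) *
        (d1 ^ a * d4 ^ a * d6 ^ (-a))) := by
  have e3 : D ^ a ≤ d3 ^ a := Real.rpow_le_rpow hD.le hD3 ha
  have e4 : D ^ a ≤ d4 ^ a := Real.rpow_le_rpow hD.le hD4 ha
  have hE : 0 < D ^ a := Real.rpow_pos_of_pos hD a
  have hDD : D ^ (-(2 * a)) = (D ^ a)⁻¹ * (D ^ a)⁻¹ := by
    rw [Real.rpow_neg hD.le, two_mul, Real.rpow_add hD, mul_inv]
  rw [hDD, Real.rpow_neg h0.le, Real.rpow_neg h1.le]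
  have p0 : 0 < d0 ^ a := Real.rpow_pos_of_pos h0 a
  have p1 : 0 < d1 ^ a := Real.rpow_pos_of_pos h1 a
  have p2 : 0 < d2 ^ a := Real.rpow_pos_of_pos h2 a
  have p5 : 0 < d5 ^ (-a) := Real.rpow_pos_of_pos h5 _
  have p6 : 0 < d6 ^ (-a) := Real.rpow_pos_of_pos h6 _
  have hone : 1 ≤ (D ^ a)⁻¹ * (D ^ a)⁻¹ * (d3 ^ a * d4 ^ a) := by
    have : D ^ a * D ^ a ≤ d3 ^ a * d4 ^ a := mul_le_mul e3 e4 hE.le (hE.le.trans e3)
    rw [← mul_inv, inv_mul_eq_div, one_le_div (by positivity)]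
    exact this
  have hF : 0 ≤ d5 ^ (-a) * d6 ^ (-a) * d2 ^ a := by positivity
  calc d5 ^ (-a) * d6 ^ (-a) * d2 ^ a = 1 * (d5 ^ (-a) * d6 ^ (-a) * d2 ^ a) := (one_mul _).symm
    _ ≤ ((D ^ a)⁻¹ * (D ^ a)⁻¹ * (d3 ^ a * d4 ^ a)) * (d5 ^ (-a) * d6 ^ (-a) * d2 ^ a) :=
        mul_le_mul_of_nonneg_right hone hF
    _ = _ := by
        field_simp

/-- `(x^(t b))^(1/t) = x^b` -/
theorem cl_rpow_root {x : ℝ} (hx : 0 < x) {t : ℝ} (ht : t ≠ 0) (b : ℝ) :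
    (x ^ (t * b)) ^ (1 / t) = x ^ b := by
  rw [← Real.rpow_mul hx.le]
  congr 1
  field_simp

theorem cl_rpow_root_neg {x : ℝ} (hx : 0 < x) {t : ℝ} (ht : t ≠ 0) (b : ℝ) :
    (x ^ (-(t * b))) ^ (1 / t) = x ^ (-b) := by
  rw [← Real.rpow_mul hx.le]
  congr 1
  field_simp

theorem cl_rpow_root3 {x y z : ℝ} (hx : 0 < x) (hy : 0 < y) (hz : 0 < z) {t : ℝ} (ht : t ≠ 0)
    (b : ℝ) :
    (x ^ (t * b) * y ^ (t * b) * z ^ (-(t * b))) ^ (1 / t) = x ^ b * y ^ b * z ^ (-b) := by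
  rw [Real.mul_rpow (by positivity) (by positivity), Real.mul_rpow (by positivity) (by positivity),
    cl_rpow_root hx ht, cl_rpow_root hy ht, cl_rpow_root_neg hz ht]

/-- the rough estimate, scalar form -/
theorem cl_scalar_rough {X : Type*} [Fintype X] (μ : X → ℝ) (hμ : ∀ x, 0 ≤ μ x)
    (d : Fin 7 → X → ℝ) (hd : ∀ t x, 0 < d t x) {a D K N : ℝ} (ha : 0 ≤ a) (hD : 0 < D)
    (hsupp : ∀ x, μ x ≠ 0 → d 2 x ≤ d 0 x * d 1 x ∧ D ≤ d 3 x ∧ D ≤ d 4 x)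
    (h1 : ∑ x, (d 0 x ^ (2 * a) * d 3 x ^ (2 * a) * d 5 x ^ (-(2 * a))) * μ x ≤ K * N)
    (h2 : ∑ x, (d 1 x ^ (2 * a) * d 4 x ^ (2 * a) * d 6 x ^ (-(2 * a))) * μ x ≤ K * N) :
    ∑ x, (d 5 x ^ (-a) * d 6 x ^ (-a) * d 2 x ^ a) * μ x ≤ K * D ^ (-(2 * a)) * N := by
  set g : Fin 2 → X → ℝ := ![fun x => d 0 x ^ (2 * a) * d 3 x ^ (2 * a) * d 5 x ^ (-(2 * a)),
    fun x => d 1 x ^ (2 * a) * d 4 x ^ (2 * a) * d 6 x ^ (-(2 * a))] with hg
  have hg0 : ∀ t x, 0 ≤ g t x := by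
    intro t x
    have := hd
    fin_cases t
    · show 0 ≤ d 0 x ^ (2 * a) * d 3 x ^ (2 * a) * d 5 x ^ (-(2 * a))
      have := hd 0 x; have := hd 3 x; have := hd 5 x
      positivity
    · show 0 ≤ d 1 x ^ (2 * a) * d 4 x ^ (2 * a) * d 6 x ^ (-(2 * a))
      have := hd 1 x; have := hd 4 x; have := hd 6 x
      positivity
  have hol := pvm_holder (Finset.univ : Finset X) (Finset.univ : Finset (Fin 2)) μ g
    (fun _ => 1 / 2) (fun x _ => hμ x) (fun t _ x _ => hg0 t x) (fun _ _ => by norm_num)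
    (by simp)
  rw [Fin.prod_univ_two] at hol
  simp only [Fin.prod_univ_two] at hol
  have two : (2 : ℝ) ≠ 0 := two_ne_zero
  have r0 : ∀ x, g 0 x ^ ((1 : ℝ) / 2) = d 0 x ^ a * d 3 x ^ a * d 5 x ^ (-a) := fun x =>
    cl_rpow_root3 (hd 0 x) (hd 3 x) (hd 5 x) two a
  have r1 : ∀ x, g 1 x ^ ((1 : ℝ) / 2) = d 1 x ^ a * d 4 x ^ a * d 6 x ^ (-a) := fun x =>
    cl_rpow_root3 (hd 1 x) (hd 4 x) (hd 6 x) two a
  have hDp : 0 < D ^ (-(2 * a)) := Real.rpow_pos_of_pos hD _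
  -- termwise
  have hterm : ∀ x, (d 5 x ^ (-a) * d 6 x ^ (-a) * d 2 x ^ a) * μ x ≤
      D ^ (-(2 * a)) * (μ x * (g 0 x ^ ((1 : ℝ) / 2) * g 1 x ^ ((1 : ℝ) / 2))) := by
    intro x
    by_cases hx : μ x = 0
    · rw [hx]; simp
    · obtain ⟨s1, s2, s3⟩ := hsupp x hx
      have hp := cl_pointwise (hd 0 x) (hd 1 x) (hd 2 x) (hd 3 x) (hd 4 x) (hd 5 x) (hd 6 x) ha hD
        s2 s3
      have hle : d 0 x ^ (-a) * d 1 x ^ (-a) * d 2 x ^ a ≤ 1 := by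
        rw [Real.rpow_neg (hd 0 x).le, Real.rpow_neg (hd 1 x).le, ← mul_inv,
          ← Real.mul_rpow (hd 0 x).le (hd 1 x).le, inv_mul_le_one₀
            (Real.rpow_pos_of_pos (mul_pos (hd 0 x) (hd 1 x)) a)]
        exact Real.rpow_le_rpow (hd 2 x).le s1 ha
      rw [r0, r1]
      have hM : 0 ≤ (d 0 x ^ a * d 3 x ^ a * d 5 x ^ (-a)) * (d 1 x ^ a * d 4 x ^ a * d 6 x ^ (-a)) := by
        have := hd 0 x; have := hd 3 x; have := hd 5 x
        have := hd 1 x; have := hd 4 x; have := hd 6 x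
        positivity
      have h3 : d 0 x ^ (-a) * d 1 x ^ (-a) * d 2 x ^ a * (d 0 x ^ a * d 3 x ^ a * d 5 x ^ (-a)) *
          (d 1 x ^ a * d 4 x ^ a * d 6 x ^ (-a)) ≤
          (d 0 x ^ a * d 3 x ^ a * d 5 x ^ (-a)) * (d 1 x ^ a * d 4 x ^ a * d 6 x ^ (-a)) := by
        rw [mul_assoc]
        calc _ ≤ 1 * ((d 0 x ^ a * d 3 x ^ a * d 5 x ^ (-a)) *
              (d 1 x ^ a * d 4 x ^ a * d 6 x ^ (-a))) := mul_le_mul_of_nonneg_right hle hM
          _ = _ := one_mul _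
      have h4 := hp.trans (mul_le_mul_of_nonneg_left h3 hDp.le)
      calc _ ≤ (D ^ (-(2 * a)) * ((d 0 x ^ a * d 3 x ^ a * d 5 x ^ (-a)) *
            (d 1 x ^ a * d 4 x ^ a * d 6 x ^ (-a)))) * μ x :=
            mul_le_mul_of_nonneg_right h4 (hμ x)
        _ = _ := by ring
  have hs0 : ∑ x, μ x * g 0 x ≤ K * N := by
    refine le_trans (le_of_eq ?_) h1
    exact Finset.sum_congr rfl fun x _ => mul_comm _ _
  have hs1 : ∑ x, μ x * g 1 x ≤ K * N := by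
    refine le_trans (le_of_eq ?_) h2
    exact Finset.sum_congr rfl fun x _ => mul_comm _ _
  have hn0 : 0 ≤ ∑ x, μ x * g 0 x := Finset.sum_nonneg fun x _ => mul_nonneg (hμ x) (hg0 0 x)
  have hn1 : 0 ≤ ∑ x, μ x * g 1 x := Finset.sum_nonneg fun x _ => mul_nonneg (hμ x) (hg0 1 x)
  have hKN : 0 ≤ K * N := hn0.trans hs0
  have hprod : (∑ x, μ x * g 0 x) ^ ((1 : ℝ) / 2) * (∑ x, μ x * g 1 x) ^ ((1 : ℝ) / 2) ≤ K * N := by
    calc _ ≤ (K * N) ^ ((1 : ℝ) / 2) * (K * N) ^ ((1 : ℝ) / 2) :=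
          mul_le_mul (Real.rpow_le_rpow hn0 hs0 (by norm_num))
            (Real.rpow_le_rpow hn1 hs1 (by norm_num)) (by positivity) (by positivity)
      _ = K * N := by
          rw [← Real.rpow_add_of_nonneg hKN (by norm_num) (by norm_num)]
          norm_num
  calc ∑ x, (d 5 x ^ (-a) * d 6 x ^ (-a) * d 2 x ^ a) * μ x
      ≤ ∑ x, D ^ (-(2 * a)) * (μ x * (g 0 x ^ ((1 : ℝ) / 2) * g 1 x ^ ((1 : ℝ) / 2))) :=
        Finset.sum_le_sum fun x _ => hterm x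
    _ = D ^ (-(2 * a)) * ∑ x, μ x * (g 0 x ^ ((1 : ℝ) / 2) * g 1 x ^ ((1 : ℝ) / 2)) := by
        rw [Finset.mul_sum]
    _ ≤ D ^ (-(2 * a)) * (K * N) := mul_le_mul_of_nonneg_left (hol.trans hprod) hDp.le
    _ = K * D ^ (-(2 * a)) * N := by ring

/-- the sharp estimate, scalar form -/
theorem cl_scalar_sharp {X : Type*} [Fintype X] (μ : X → ℝ) (hμ : ∀ x, 0 ≤ μ x)
    (d : Fin 7 → X → ℝ) (hd : ∀ t x, 0 < d t x) {a D K N mQ mV mY : ℝ} (ha : 0 ≤ a) (hD : 0 < D)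
    (hK : 1 ≤ K) (hN : 0 ≤ N) (hmQ : 0 ≤ mQ) (hmV : 0 ≤ mV) (hmY : 0 ≤ mY)
    (hsupp : ∀ x, μ x ≠ 0 → D ≤ d 3 x ∧ D ≤ d 4 x)
    (hQ : ∑ x, d 0 x ^ (-(5 * a)) * μ x ≤ mQ * N)
    (hV : ∑ x, d 1 x ^ (-(5 * a)) * μ x ≤ mV * N)
    (hY : ∑ x, d 2 x ^ (5 * a) * μ x ≤ mY * N)
    (h1 : ∑ x, (d 0 x ^ (5 * a) * d 3 x ^ (5 * a) * d 5 x ^ (-(5 * a))) * μ x ≤ K * N)
    (h2 : ∑ x, (d 1 x ^ (5 * a) * d 4 x ^ (5 * a) * d 6 x ^ (-(5 * a))) * μ x ≤ K * N) :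
    ∑ x, (d 5 x ^ (-a) * d 6 x ^ (-a) * d 2 x ^ a) * μ x ≤
      K * D ^ (-(2 * a)) * (mQ * mV * mY) ^ ((1 : ℝ) / 5) * N := by
  set g : Fin 5 → X → ℝ := ![fun x => d 0 x ^ (-(5 * a)), fun x => d 1 x ^ (-(5 * a)),
    fun x => d 2 x ^ (5 * a),
    fun x => d 0 x ^ (5 * a) * d 3 x ^ (5 * a) * d 5 x ^ (-(5 * a)),
    fun x => d 1 x ^ (5 * a) * d 4 x ^ (5 * a) * d 6 x ^ (-(5 * a))] with hg
  have hg0 : ∀ t x, 0 ≤ g t x := by
    intro t x
    have q0 := hd 0 x; have q1 := hd 1 x; have q2 := hd 2 x; have q3 := hd 3 x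
    have q4 := hd 4 x; have q5 := hd 5 x; have q6 := hd 6 x
    fin_cases t
    · show 0 ≤ d 0 x ^ (-(5 * a))
      positivity
    · show 0 ≤ d 1 x ^ (-(5 * a))
      positivity
    · show 0 ≤ d 2 x ^ (5 * a)
      positivity
    · show 0 ≤ d 0 x ^ (5 * a) * d 3 x ^ (5 * a) * d 5 x ^ (-(5 * a))
      positivity
    · show 0 ≤ d 1 x ^ (5 * a) * d 4 x ^ (5 * a) * d 6 x ^ (-(5 * a))
      positivity
  have hol := pvm_holder (Finset.univ : Finset X) (Finset.univ : Finset (Fin 5)) μ g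
    (fun _ => 1 / 5) (fun x _ => hμ x) (fun t _ x _ => hg0 t x) (fun _ _ => by norm_num)
    (by simp)
  rw [Fin.prod_univ_five] at hol
  simp only [Fin.prod_univ_five] at hol
  have five : (5 : ℝ) ≠ 0 := by norm_num
  have r0 : ∀ x, g 0 x ^ ((1 : ℝ) / 5) = d 0 x ^ (-a) := fun x => cl_rpow_root_neg (hd 0 x) five a
  have r1 : ∀ x, g 1 x ^ ((1 : ℝ) / 5) = d 1 x ^ (-a) := fun x => cl_rpow_root_neg (hd 1 x) five a
  have r2 : ∀ x, g 2 x ^ ((1 : ℝ) / 5) = d 2 x ^ a := fun x => cl_rpow_root (hd 2 x) five a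
  have r3 : ∀ x, g 3 x ^ ((1 : ℝ) / 5) = d 0 x ^ a * d 3 x ^ a * d 5 x ^ (-a) := fun x =>
    cl_rpow_root3 (hd 0 x) (hd 3 x) (hd 5 x) five a
  have r4 : ∀ x, g 4 x ^ ((1 : ℝ) / 5) = d 1 x ^ a * d 4 x ^ a * d 6 x ^ (-a) := fun x =>
    cl_rpow_root3 (hd 1 x) (hd 4 x) (hd 6 x) five a
  have hDp : 0 < D ^ (-(2 * a)) := Real.rpow_pos_of_pos hD _
  have hterm : ∀ x, (d 5 x ^ (-a) * d 6 x ^ (-a) * d 2 x ^ a) * μ x ≤
      D ^ (-(2 * a)) * (μ x * (g 0 x ^ ((1 : ℝ) / 5) * g 1 x ^ ((1 : ℝ) / 5) *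
        g 2 x ^ ((1 : ℝ) / 5) * g 3 x ^ ((1 : ℝ) / 5) * g 4 x ^ ((1 : ℝ) / 5))) := by
    intro x
    by_cases hx : μ x = 0
    · rw [hx]; simp
    · obtain ⟨s2, s3⟩ := hsupp x hx
      have hp := cl_pointwise (hd 0 x) (hd 1 x) (hd 2 x) (hd 3 x) (hd 4 x) (hd 5 x) (hd 6 x) ha hD
        s2 s3
      rw [r0, r1, r2, r3, r4]
      calc _ ≤ (D ^ (-(2 * a)) * (d 0 x ^ (-a) * d 1 x ^ (-a) * d 2 x ^ a *
            (d 0 x ^ a * d 3 x ^ a * d 5 x ^ (-a)) * (d 1 x ^ a * d 4 x ^ a * d 6 x ^ (-a)))) * μ x :=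
            mul_le_mul_of_nonneg_right hp (hμ x)
        _ = _ := by ring
  have hs : ∀ (t : Fin 5) (B : ℝ), ∑ x, g t x * μ x ≤ B → ∑ x, μ x * g t x ≤ B := by
    intro t B h
    refine le_trans (le_of_eq ?_) h
    exact Finset.sum_congr rfl fun x _ => mul_comm _ _
  have hn : ∀ t : Fin 5, 0 ≤ ∑ x, μ x * g t x := fun t =>
    Finset.sum_nonneg fun x _ => mul_nonneg (hμ x) (hg0 t x)
  have b0 := Real.rpow_le_rpow (hn 0) (hs 0 _ hQ) (by norm_num : (0 : ℝ) ≤ 1 / 5)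
  have b1 := Real.rpow_le_rpow (hn 1) (hs 1 _ hV) (by norm_num : (0 : ℝ) ≤ 1 / 5)
  have b2 := Real.rpow_le_rpow (hn 2) (hs 2 _ hY) (by norm_num : (0 : ℝ) ≤ 1 / 5)
  have b3 := Real.rpow_le_rpow (hn 3) (hs 3 _ h1) (by norm_num : (0 : ℝ) ≤ 1 / 5)
  have b4 := Real.rpow_le_rpow (hn 4) (hs 4 _ h2) (by norm_num : (0 : ℝ) ≤ 1 / 5)
  have hK0 : 0 ≤ K := by linarith
  have hprod : (∑ x, μ x * g 0 x) ^ ((1 : ℝ) / 5) * (∑ x, μ x * g 1 x) ^ ((1 : ℝ) / 5) *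
      (∑ x, μ x * g 2 x) ^ ((1 : ℝ) / 5) * (∑ x, μ x * g 3 x) ^ ((1 : ℝ) / 5) *
      (∑ x, μ x * g 4 x) ^ ((1 : ℝ) / 5) ≤ K * (mQ * mV * mY) ^ ((1 : ℝ) / 5) * N := by
    have p : ∀ t : Fin 5, 0 ≤ (∑ x, μ x * g t x) ^ ((1 : ℝ) / 5) := fun t =>
      Real.rpow_nonneg (hn t) _
    have step : (∑ x, μ x * g 0 x) ^ ((1 : ℝ) / 5) * (∑ x, μ x * g 1 x) ^ ((1 : ℝ) / 5) *
        (∑ x, μ x * g 2 x) ^ ((1 : ℝ) / 5) * (∑ x, μ x * g 3 x) ^ ((1 : ℝ) / 5) *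
        (∑ x, μ x * g 4 x) ^ ((1 : ℝ) / 5) ≤
        (mQ * N) ^ ((1 : ℝ) / 5) * (mV * N) ^ ((1 : ℝ) / 5) * (mY * N) ^ ((1 : ℝ) / 5) *
        (K * N) ^ ((1 : ℝ) / 5) * (K * N) ^ ((1 : ℝ) / 5) := by
      have q0 : 0 ≤ (mQ * N) ^ ((1 : ℝ) / 5) := by positivity
      have q1 : 0 ≤ (mV * N) ^ ((1 : ℝ) / 5) := by positivity
      have q2 : 0 ≤ (mY * N) ^ ((1 : ℝ) / 5) := by positivity
      have q3 : 0 ≤ (K * N) ^ ((1 : ℝ) / 5) := by positivity
      have m1 := mul_le_mul b0 b1 (p 1) q0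
      have m2 := mul_le_mul m1 b2 (p 2) (mul_nonneg q0 q1)
      have m3 := mul_le_mul m2 b3 (p 3) (mul_nonneg (mul_nonneg q0 q1) q2)
      exact mul_le_mul m3 b4 (p 4) (mul_nonneg (mul_nonneg (mul_nonneg q0 q1) q2) q3)
    refine step.trans ?_
    rw [Real.mul_rpow hmQ hN, Real.mul_rpow hmV hN, Real.mul_rpow hmY hN, Real.mul_rpow hK0 hN,
      Real.mul_rpow (mul_nonneg hmQ hmV) hmY, Real.mul_rpow hmQ hmV]
    have hN5 : N ^ ((1 : ℝ) / 5) * N ^ ((1 : ℝ) / 5) * N ^ ((1 : ℝ) / 5) * N ^ ((1 : ℝ) / 5) *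
        N ^ ((1 : ℝ) / 5) = N := by
      rw [← Real.rpow_add_of_nonneg hN (by norm_num) (by norm_num),
        ← Real.rpow_add_of_nonneg hN (by norm_num) (by norm_num),
        ← Real.rpow_add_of_nonneg hN (by norm_num) (by norm_num),
        ← Real.rpow_add_of_nonneg hN (by norm_num) (by norm_num)]
      norm_num
    have hK5 : K ^ ((1 : ℝ) / 5) * K ^ ((1 : ℝ) / 5) ≤ K := by
      rw [← Real.rpow_add_of_nonneg hK0 (by norm_num) (by norm_num)]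
      calc K ^ ((1 : ℝ) / 5 + 1 / 5) ≤ K ^ (1 : ℝ) :=
            Real.rpow_le_rpow_of_exponent_le hK (by norm_num)
        _ = K := Real.rpow_one K
    have hm : 0 ≤ mQ ^ ((1 : ℝ) / 5) * mV ^ ((1 : ℝ) / 5) * mY ^ ((1 : ℝ) / 5) := by positivity
    calc mQ ^ ((1 : ℝ) / 5) * N ^ ((1 : ℝ) / 5) * (mV ^ ((1 : ℝ) / 5) * N ^ ((1 : ℝ) / 5)) *
          (mY ^ ((1 : ℝ) / 5) * N ^ ((1 : ℝ) / 5)) * (K ^ ((1 : ℝ) / 5) * N ^ ((1 : ℝ) / 5)) *
          (K ^ ((1 : ℝ) / 5) * N ^ ((1 : ℝ) / 5))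
        = (K ^ ((1 : ℝ) / 5) * K ^ ((1 : ℝ) / 5)) *
          (mQ ^ ((1 : ℝ) / 5) * mV ^ ((1 : ℝ) / 5) * mY ^ ((1 : ℝ) / 5)) *
          (N ^ ((1 : ℝ) / 5) * N ^ ((1 : ℝ) / 5) * N ^ ((1 : ℝ) / 5) * N ^ ((1 : ℝ) / 5) *
            N ^ ((1 : ℝ) / 5)) := by ring
      _ = (K ^ ((1 : ℝ) / 5) * K ^ ((1 : ℝ) / 5)) *
          (mQ ^ ((1 : ℝ) / 5) * mV ^ ((1 : ℝ) / 5) * mY ^ ((1 : ℝ) / 5)) * N := by rw [hN5]
      _ ≤ K * (mQ ^ ((1 : ℝ) / 5) * mV ^ ((1 : ℝ) / 5) * mY ^ ((1 : ℝ) / 5)) * N :=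
          mul_le_mul_of_nonneg_right (mul_le_mul_of_nonneg_right hK5 hm) hN
  calc ∑ x, (d 5 x ^ (-a) * d 6 x ^ (-a) * d 2 x ^ a) * μ x
      ≤ ∑ x, D ^ (-(2 * a)) * (μ x * (g 0 x ^ ((1 : ℝ) / 5) * g 1 x ^ ((1 : ℝ) / 5) *
        g 2 x ^ ((1 : ℝ) / 5) * g 3 x ^ ((1 : ℝ) / 5) * g 4 x ^ ((1 : ℝ) / 5))) :=
        Finset.sum_le_sum fun x _ => hterm x
    _ = D ^ (-(2 * a)) * ∑ x, μ x * (g 0 x ^ ((1 : ℝ) / 5) * g 1 x ^ ((1 : ℝ) / 5) *
        g 2 x ^ ((1 : ℝ) / 5) * g 3 x ^ ((1 : ℝ) / 5) * g 4 x ^ ((1 : ℝ) / 5)) := by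
        rw [Finset.mul_sum]
    _ ≤ D ^ (-(2 * a)) * (K * (mQ * mV * mY) ^ ((1 : ℝ) / 5) * N) :=
        mul_le_mul_of_nonneg_left (hol.trans hprod) hDp.le
    _ = K * D ^ (-(2 * a)) * (mQ * mV * mY) ^ ((1 : ℝ) / 5) * N := by ring


end Scalar

section Mom

variable {io : s → Type} [∀ x, Fintype (io x)] [∀ x, DecidableEq (io x)]

/-- `cl_merge_moment` for `Q` and the site `c` -/
theorem cl_merge_mom1 {C : ℝ} {m : ℕ}
    (hM : ∀ (κ : Type) [Fintype κ] [DecidableEq κ] (S : Finset κ)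
      (Q Q' E E' : Finset s), Disjoint Q Q' → Disjoint E E' → Disjoint Q E → Disjoint Q E' →
      Disjoint Q' E → ∀ w : RCfg io κ → ℂ, FixS (Q ∪ Q') S w → FixS (E ∪ E') S w →
      ∀ b : ℝ, 0 ≤ b → b ≤ 1 →
        (star w ⬝ᵥ (mergeS Q E S b *ᵥ w)).re ≤
          C * ((Fintype.card κ : ℝ) + 1) ^ m * (star w ⬝ᵥ w).re)
    {κ : Type} [Fintype κ] [DecidableEq κ] {S : Finset κ} {Q V Y : Finset s} {c r : s}
    (h : IsFive Q V Y c r) {w : RCfg io κ → ℂ} (hw : FixS (Q ∪ V ∪ Y) S w)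
    (hcr : FixS {c, r} S w) (b : ℝ) (hb0 : 0 ≤ b) (hb1 : b ≤ 1) :
    (star w ⬝ᵥ (mergeS Q {c} S b *ᵥ w)).re ≤
      C * ((Fintype.card κ : ℝ) + 1) ^ m * (star w ⬝ᵥ w).re := by
  refine hM κ S Q (V ∪ Y) {c} {r} (Finset.disjoint_union_right.mpr ⟨h.dQV, h.dQY⟩)
    (Finset.disjoint_singleton.mpr h.cr) (Finset.disjoint_singleton_right.mpr h.cQ)
    (Finset.disjoint_singleton_right.mpr h.rQ)
    (Finset.disjoint_singleton_right.mpr fun hc => ?_) w ?_ ?_ b hb0 hb1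
  · rcases Finset.mem_union.mp hc with hc | hc
    · exact h.cV hc
    · exact h.cY hc
  · rw [← Finset.union_assoc]
    exact hw
  · rw [← Finset.insert_eq]
    exact hcr

/-- `cl_merge_moment` for `V` and the site `r` -/
theorem cl_merge_mom2 {C : ℝ} {m : ℕ}
    (hM : ∀ (κ : Type) [Fintype κ] [DecidableEq κ] (S : Finset κ)
      (Q Q' E E' : Finset s), Disjoint Q Q' → Disjoint E E' → Disjoint Q E → Disjoint Q E' →
      Disjoint Q' E → ∀ w : RCfg io κ → ℂ, FixS (Q ∪ Q') S w → FixS (E ∪ E') S w →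
      ∀ b : ℝ, 0 ≤ b → b ≤ 1 →
        (star w ⬝ᵥ (mergeS Q E S b *ᵥ w)).re ≤
          C * ((Fintype.card κ : ℝ) + 1) ^ m * (star w ⬝ᵥ w).re)
    {κ : Type} [Fintype κ] [DecidableEq κ] {S : Finset κ} {Q V Y : Finset s} {c r : s}
    (h : IsFive Q V Y c r) {w : RCfg io κ → ℂ} (hw : FixS (Q ∪ V ∪ Y) S w)
    (hcr : FixS {c, r} S w) (b : ℝ) (hb0 : 0 ≤ b) (hb1 : b ≤ 1) :
    (star w ⬝ᵥ (mergeS V {r} S b *ᵥ w)).re ≤
      C * ((Fintype.card κ : ℝ) + 1) ^ m * (star w ⬝ᵥ w).re := by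
  refine hM κ S V (Q ∪ Y) {r} {c} (Finset.disjoint_union_right.mpr ⟨h.dQV.symm, h.dVY⟩)
    (Finset.disjoint_singleton.mpr h.cr.symm) (Finset.disjoint_singleton_right.mpr h.rV)
    (Finset.disjoint_singleton_right.mpr h.cV)
    (Finset.disjoint_singleton_right.mpr fun hc => ?_) w ?_ ?_ b hb0 hb1
  · rcases Finset.mem_union.mp hc with hc | hc
    · exact h.rQ hc
    · exact h.rY hc
  · have e : V ∪ (Q ∪ Y) = Q ∪ V ∪ Y := by
      ext z
      simp only [Finset.mem_union]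
      tauto
    rw [e]
    exact hw
  · rw [Finset.union_comm, ← Finset.insert_eq]
    exact hcr

end Mom

section Good

section Joint

variable {io : s → Type} [∀ x, Fintype (io x)] [∀ x, DecidableEq (io x)]
  {κ : Type} [Fintype κ] [DecidableEq κ] {Q V Y : Finset s} {c r : s}

/-- the seven regions `Q, V, Y, {c}, {r}, Q ∪ {c}, V ∪ {r}` -/
def clR (Q V Y : Finset s) (c r : s) : Fin 7 → Finset s := ![Q, V, Y, {c}, {r}, Q ∪ {c}, V ∪ {r}]

/-- nested or disjoint -/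
def ClRel (A B : Finset s) : Prop := A ⊆ B ∨ B ⊆ A ∨ Disjoint A B

theorem ClRel.cl_symm {A B : Finset s} (h : ClRel A B) : ClRel B A := by
  rcases h with h | h | h
  · exact Or.inr (Or.inl h)
  · exact Or.inl h
  · exact Or.inr (Or.inr h.symm)

theorem IsFive.cl_rel_lt (h : IsFive Q V Y c r) (a b : Fin 7) (hab : a < b) :
    ClRel (clR Q V Y c r a) (clR Q V Y c r b) := by
  have dis : ∀ {A B : Finset s}, Disjoint A B → ClRel A B := fun h => Or.inr (Or.inr h)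
  have sr : ∀ {A : Finset s} {x : s}, x ∉ A → Disjoint A {x} := fun h =>
    Finset.disjoint_singleton_right.mpr h
  have sl : ∀ {A : Finset s} {x : s}, x ∉ A → Disjoint {x} A := fun h =>
    Finset.disjoint_singleton_left.mpr h
  have hcr : Disjoint ({c} : Finset s) {r} := Finset.disjoint_singleton.mpr h.cr
  have p06 : Disjoint Q (V ∪ {r}) := Finset.disjoint_union_right.mpr ⟨h.dQV, sr h.rQ⟩
  have p36 : Disjoint ({c} : Finset s) (V ∪ {r}) := Finset.disjoint_union_right.mpr ⟨sl h.cV, hcr⟩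
  fin_cases a <;> fin_cases b <;> first | exact absurd hab (by decide) | skip
  · exact dis h.dQV
  · exact dis h.dQY
  · exact dis (sr h.cQ)
  · exact dis (sr h.rQ)
  · exact Or.inl Finset.subset_union_left
  · exact dis p06
  · exact dis h.dVY
  · exact dis (sr h.cV)
  · exact dis (sr h.rV)
  · exact dis (Finset.disjoint_union_right.mpr ⟨h.dQV.symm, sr h.cV⟩)
  · exact Or.inl Finset.subset_union_left
  · exact dis (sr h.cY)
  · exact dis (sr h.rY)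
  · exact dis (Finset.disjoint_union_right.mpr ⟨h.dQY.symm, sr h.cY⟩)
  · exact dis (Finset.disjoint_union_right.mpr ⟨h.dVY.symm, sr h.rY⟩)
  · exact dis hcr
  · exact Or.inl Finset.subset_union_right
  · exact dis p36
  · exact dis (Finset.disjoint_union_right.mpr ⟨sl h.rQ, hcr.symm⟩)
  · exact Or.inl Finset.subset_union_right
  · exact dis (Finset.disjoint_union_left.mpr ⟨p06, p36⟩)

theorem IsFive.cl_rel (h : IsFive Q V Y c r) (a b : Fin 7) :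
    ClRel (clR Q V Y c r a) (clR Q V Y c r b) := by
  rcases lt_trichotomy a b with hab | rfl | hab
  · exact h.cl_rel_lt a b hab
  · exact Or.inl (Finset.Subset.refl _)
  · exact (h.cl_rel_lt b a hab).cl_symm

theorem IsFive.cl_comm (h : IsFive Q V Y c r) (S : Finset κ) :
    JpvComm fun a => clE (io := io) (clR Q V Y c r a) S :=
  fun a b i j => cl_labS_commute (h.cl_rel a b) S i j

/-- the joint PVM of the seven labels -/
noncomputable def clJ (h : IsFive Q V Y c r) (S : Finset κ) :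
    Pvm (RCfg io κ) (Fin 7 → Rep.Irr (Equiv.Perm {j // j ∈ S})) :=
  jpv (fun a => clE (clR Q V Y c r a) S) (h.cl_comm S)

/-- the dimensions of the seven labels -/
noncomputable def clD (S : Finset κ) (t : Fin 7) (x : Fin 7 → Rep.Irr (Equiv.Perm {j // j ∈ S})) :
    ℝ := ((Rep.dimI (x t) : ℕ) : ℝ)

theorem clD_pos (S : Finset κ) (t : Fin 7) (x : Fin 7 → Rep.Irr (Equiv.Perm {j // j ∈ S})) :
    0 < clD S t x := by
  unfold clD
  exact_mod_cast Rep.dimI_pos (x t)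

theorem cl_dimPowS_eq_op (h : IsFive Q V Y c r) (S : Finset κ) (t : Fin 7) (b : ℝ) :
    dimPowS (io := io) (clR Q V Y c r t) S b = (clJ h S).op fun x => ((clD S t x ^ b : ℝ) : ℂ) := by
  have h1 := jpv_op_coord 7 (fun a => clE (io := io) (clR Q V Y c r a) S) (h.cl_comm S) t
    (fun i => ((((Rep.dimI i : ℕ) : ℝ) ^ b : ℝ) : ℂ))
  rw [clE_op] at h1
  exact h1.symm

theorem cl_op3 (h : IsFive Q V Y c r) (S : Finset κ) (t₁ t₂ t₃ : Fin 7) (b₁ b₂ b₃ : ℝ) :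
    dimPowS (io := io) (clR Q V Y c r t₁) S b₁ * dimPowS (clR Q V Y c r t₂) S b₂ *
      dimPowS (clR Q V Y c r t₃) S b₃ =
    (clJ h S).op fun x => ((clD S t₁ x ^ b₁ * clD S t₂ x ^ b₂ * clD S t₃ x ^ b₃ : ℝ) : ℂ) := by
  rw [cl_dimPowS_eq_op h, cl_dimPowS_eq_op h, cl_dimPowS_eq_op h, Pvm.op_mul, Pvm.op_mul]
  congr 1
  funext x
  push_cast
  rfl

theorem cl_band_eq_op (h : IsFive Q V Y c r) (S : Finset κ) (a : ℝ) :
    bandDimS (io := io) (Q ∪ {c}) Y (V ∪ {r}) S a =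
      (clJ h S).op fun x => ((clD S 5 x ^ (-a) * clD S 6 x ^ (-a) * clD S 2 x ^ a : ℝ) : ℂ) :=
  cl_op3 h S 5 6 2 (-a) (-a) a

theorem cl_band0_eq_op (h : IsFive Q V Y c r) (S : Finset κ) (a : ℝ) :
    bandDimS (io := io) Q Y V S a =
      (clJ h S).op fun x => ((clD S 0 x ^ (-a) * clD S 1 x ^ (-a) * clD S 2 x ^ a : ℝ) : ℂ) :=
  cl_op3 h S 0 1 2 (-a) (-a) a

theorem cl_merge1_eq_op (h : IsFive Q V Y c r) (S : Finset κ) (b : ℝ) :
    mergeS (io := io) Q {c} S b =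
      (clJ h S).op fun x => ((clD S 0 x ^ b * clD S 3 x ^ b * clD S 5 x ^ (-b) : ℝ) : ℂ) :=
  cl_op3 h S 0 3 5 b b (-b)

theorem cl_merge2_eq_op (h : IsFive Q V Y c r) (S : Finset κ) (b : ℝ) :
    mergeS (io := io) V {r} S b =
      (clJ h S).op fun x => ((clD S 1 x ^ b * clD S 4 x ^ b * clD S 6 x ^ (-b) : ℝ) : ℂ) :=
  cl_op3 h S 1 4 6 b b (-b)

/-- support of the joint law: the auxiliary labels -/
theorem cl_supp_aux (h : IsFive Q V Y c r) (S : Finset κ) {w : RCfg io κ → ℂ} {D : ℝ}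
    (hc : ∀ α : Rep.Irr (Equiv.Perm {j // j ∈ S}), (Rep.dimI α : ℝ) < D → labS {c} S α *ᵥ w = 0)
    (hr : ∀ α : Rep.Irr (Equiv.Perm {j // j ∈ S}), (Rep.dimI α : ℝ) < D → labS {r} S α *ᵥ w = 0)
    (x : Fin 7 → Rep.Irr (Equiv.Perm {j // j ∈ S})) (hx : (clJ h S).pr w x ≠ 0) :
    D ≤ clD S 3 x ∧ D ≤ clD S 4 x := by
  constructor
  · by_contra hlt
    exact hx (jpv_pr_eq_zero _ _ x 3 (hc (x 3) (not_le.mp hlt)))
  · by_contra hlt
    exact hx (jpv_pr_eq_zero _ _ x 4 (hr (x 4) (not_le.mp hlt)))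

/-- support of the joint law: `d_Y ≤ d_Q d_V` -/
theorem cl_supp_phys (h : IsFive Q V Y c r) (S : Finset κ) {w : RCfg io κ → ℂ}
    (hw : FixS (Q ∪ V ∪ Y) S w)
    (x : Fin 7 → Rep.Irr (Equiv.Perm {j // j ∈ S})) (hx : (clJ h S).pr w x ≠ 0) :
    clD S 2 x ≤ clD S 0 x * clD S 1 x := by
  by_contra hlt
  apply hx
  apply jpv_pr_eq_zero₃ _ _ x 0 1 2
  show labS Q S (x 0) *ᵥ (labS V S (x 1) *ᵥ (labS Y S (x 2) *ᵥ w)) = 0
  have hd : Disjoint Y (Q ∪ V) := Finset.disjoint_union_right.mpr ⟨h.dQY.symm, h.dVY.symm⟩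
  have hw' : FixS (Y ∪ (Q ∪ V)) S w := by rw [Finset.union_comm]; exact hw
  have hm : labS Y S (x 2) *ᵥ w = labS (Q ∪ V) S (x 2) *ᵥ w := by
    rw [cl_labS_eq_cenS, cl_labS_eq_cenS]
    exact cl_mirror hd hw' _
  rw [hm, mulVec_mulVec, mulVec_mulVec]
  have hz : labS (io := io) Q S (x 0) * labS V S (x 1) * labS (Q ∪ V) S (x 2) = 0 := by
    by_contra hne
    have h1 := (cl_merge_compat h.dQV S _ _ _ hne).2.1
    apply hlt
    unfold clD
    exact_mod_cast h1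
  rw [hz, Matrix.zero_mulVec]

theorem cl_sum_pr (h : IsFive Q V Y c r) (S : Finset κ) (w : RCfg io κ → ℂ) :
    ∑ x, (clJ h S).pr w x = (star w ⬝ᵥ w).re := by
  rw [Pvm.sum_pr, l2n_sq_eq_re]

end Joint

/-- (comparator:merge-decomposition), multiplicative form -/
theorem cl_bandDimS_decomp {io : s → Type} [∀ x, Fintype (io x)] [∀ x, DecidableEq (io x)]
    {κ : Type} [Fintype κ] [DecidableEq κ] {Q V Y : Finset s} {c r : s} (h : IsFive Q V Y c r)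
    (S : Finset κ) (a : ℝ) :
    bandDimS (io := io) (Q ∪ {c}) Y (V ∪ {r}) S a =
      bandDimS Q Y V S a * mergeS Q {c} S a * mergeS V {r} S a *
        dimPowS {c} S (-a) * dimPowS {r} S (-a) := by
  rw [cl_band_eq_op h, cl_band0_eq_op h, cl_merge1_eq_op h, cl_merge2_eq_op h,
    show dimPowS (io := io) {c} S (-a) = _ from cl_dimPowS_eq_op h S 3 (-a),
    show dimPowS (io := io) {r} S (-a) = _ from cl_dimPowS_eq_op h S 4 (-a),
    Pvm.op_mul, Pvm.op_mul, Pvm.op_mul, Pvm.op_mul]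
  congr 1
  funext x
  have p0 := clD_pos S 0 x
  have p1 := clD_pos S 1 x
  have p3 := clD_pos S 3 x
  have p4 := clD_pos S 4 x
  have q0 : 0 < clD S 0 x ^ a := Real.rpow_pos_of_pos p0 a
  have q1 : 0 < clD S 1 x ^ a := Real.rpow_pos_of_pos p1 a
  have q3 : 0 < clD S 3 x ^ a := Real.rpow_pos_of_pos p3 a
  have q4 : 0 < clD S 4 x ^ a := Real.rpow_pos_of_pos p4 a
  rw [← Complex.ofReal_mul, ← Complex.ofReal_mul, ← Complex.ofReal_mul, ← Complex.ofReal_mul]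
  congr 1
  rw [Real.rpow_neg p0.le, Real.rpow_neg p1.le, Real.rpow_neg p3.le, Real.rpow_neg p4.le]
  field_simp

/-- **the rough estimate on the good copies** -/
theorem cl_good_rough (io : s → Type) [∀ x, Fintype (io x)] [∀ x, DecidableEq (io x)]
    [∀ x, Nonempty (io x)] :
    ∃ (C : ℝ) (m : ℕ), 1 ≤ C ∧ ∀ (κ : Type) [Fintype κ] [DecidableEq κ] (S : Finset κ)
      (Q V Y : Finset s) (c r : s), IsFive Q V Y c r → ∀ (w : RCfg io κ → ℂ) (a D : ℝ),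
      0 ≤ a → 2 * a ≤ 1 → 0 < D → FixS (Q ∪ V ∪ Y) S w → FixS {c, r} S w →
      (∀ α : Rep.Irr (Equiv.Perm {j // j ∈ S}), (Rep.dimI α : ℝ) < D → labS {c} S α *ᵥ w = 0) →
      (∀ α : Rep.Irr (Equiv.Perm {j // j ∈ S}), (Rep.dimI α : ℝ) < D → labS {r} S α *ᵥ w = 0) →
      (star w ⬝ᵥ (bandDimS (Q ∪ {c}) Y (V ∪ {r}) S a *ᵥ w)).re ≤
        C * ((Fintype.card κ : ℝ) + 1) ^ m * D ^ (-(2 * a)) * (star w ⬝ᵥ w).re := by
  obtain ⟨C, m, hC, hM⟩ := cl_merge_moment io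
  refine ⟨C, m, hC, ?_⟩
  intro κ _ _ S Q V Y c r h w a D ha h2a hD hw hcr hc hr
  have m1 := cl_merge_mom1 hM h hw hcr (2 * a) (by linarith) h2a
  have m2 := cl_merge_mom2 hM h hw hcr (2 * a) (by linarith) h2a
  rw [cl_merge1_eq_op h, Pvm.quad_op_re] at m1
  rw [cl_merge2_eq_op h, Pvm.quad_op_re] at m2
  rw [cl_band_eq_op h, Pvm.quad_op_re]
  exact cl_scalar_rough ((clJ h S).pr w) ((clJ h S).pr_nonneg w) (clD S) (clD_pos S) ha hD
    (fun x hx => ⟨cl_supp_phys h S hw x hx, cl_supp_aux h S hc hr x hx⟩) m1 m2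

/-- **the sharp estimate on the good copies** -/
theorem cl_good_sharp (io : s → Type) [∀ x, Fintype (io x)] [∀ x, DecidableEq (io x)]
    [∀ x, Nonempty (io x)] :
    ∃ (C : ℝ) (m : ℕ), 1 ≤ C ∧ ∀ (κ : Type) [Fintype κ] [DecidableEq κ] (S : Finset κ)
      (Q V Y : Finset s) (c r : s), IsFive Q V Y c r → ∀ (w : RCfg io κ → ℂ) (a D mQ mV mY : ℝ),
      0 ≤ a → 5 * a ≤ 1 → 0 < D → FixS (Q ∪ V ∪ Y) S w → FixS {c, r} S w →
      (∀ α : Rep.Irr (Equiv.Perm {j // j ∈ S}), (Rep.dimI α : ℝ) < D → labS {c} S α *ᵥ w = 0) →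
      (∀ α : Rep.Irr (Equiv.Perm {j // j ∈ S}), (Rep.dimI α : ℝ) < D → labS {r} S α *ᵥ w = 0) →
      0 ≤ mQ → 0 ≤ mV → 0 ≤ mY →
      (star w ⬝ᵥ (dimPowS Q S (-(5 * a)) *ᵥ w)).re ≤ mQ * (star w ⬝ᵥ w).re →
      (star w ⬝ᵥ (dimPowS V S (-(5 * a)) *ᵥ w)).re ≤ mV * (star w ⬝ᵥ w).re →
      (star w ⬝ᵥ (dimPowS Y S (5 * a) *ᵥ w)).re ≤ mY * (star w ⬝ᵥ w).re →
      (star w ⬝ᵥ (bandDimS (Q ∪ {c}) Y (V ∪ {r}) S a *ᵥ w)).re ≤
        C * ((Fintype.card κ : ℝ) + 1) ^ m * D ^ (-(2 * a)) * (mQ * mV * mY) ^ ((1 : ℝ) / 5) *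
          (star w ⬝ᵥ w).re := by
  obtain ⟨C, m, hC, hM⟩ := cl_merge_moment io
  refine ⟨C, m, hC, ?_⟩
  intro κ _ _ S Q V Y c r h w a D mQ mV mY ha h5a hD hw hcr hc hr hmQ hmV hmY hQ hV hY
  have m1 := cl_merge_mom1 hM h hw hcr (5 * a) (by linarith) h5a
  have m2 := cl_merge_mom2 hM h hw hcr (5 * a) (by linarith) h5a
  rw [cl_merge1_eq_op h, Pvm.quad_op_re] at m1
  rw [cl_merge2_eq_op h, Pvm.quad_op_re] at m2
  rw [show dimPowS (io := io) Q S (-(5 * a)) = _ from cl_dimPowS_eq_op h S 0 (-(5 * a)),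
    Pvm.quad_op_re] at hQ
  rw [show dimPowS (io := io) V S (-(5 * a)) = _ from cl_dimPowS_eq_op h S 1 (-(5 * a)),
    Pvm.quad_op_re] at hV
  rw [show dimPowS (io := io) Y S (5 * a) = _ from cl_dimPowS_eq_op h S 2 (5 * a),
    Pvm.quad_op_re] at hY
  rw [cl_band_eq_op h, Pvm.quad_op_re]
  have hK : (1 : ℝ) ≤ C * ((Fintype.card κ : ℝ) + 1) ^ m := by
    have : (1 : ℝ) ≤ ((Fintype.card κ : ℝ) + 1) ^ m := one_le_pow₀ (by
      have : (0 : ℝ) ≤ (Fintype.card κ : ℝ) := Nat.cast_nonneg _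
      linarith)
    calc (1 : ℝ) = 1 * 1 := (one_mul 1).symm
      _ ≤ C * ((Fintype.card κ : ℝ) + 1) ^ m := mul_le_mul hC this zero_le_one (by linarith)
  have hN : 0 ≤ (star w ⬝ᵥ w).re := by
    rw [← l2n_sq_eq_re]
    positivity
  exact cl_scalar_sharp ((clJ h S).pr w) ((clJ h S).pr_nonneg w) (clD S) (clD_pos S) ha hD hK hN
    hmQ hmV hmY (fun x hx => cl_supp_aux h S hc hr x hx) hQ hV hY m1 m2

end Good

end Claimed.Agent.R296
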