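import Claimed.Agent.R296.Cmp.LowDefs

/-!
# Row 296, P1 Section 7.3, package CL-GRP: label calculus of a group of copies (Lemma 5.1 (2), (3), (4))

Architect: helper239.  Proofs of `Calc`, `Comm`: helper98.  ONE owner (may be split: sections `Calc`, `Comm` = CL-GRP-A; `Compat` = CL-GRP-B).
Generic replica system `(s, io, κ)`, `S : Finset κ`.  `repS Q S = Rep.repAlg ((UQhom Q).comp (subHom S))` up to
`Rep.gmap` (`repS_eq_repAlg`), so every statement of section `Calc` is the statement of `Replica/Cen.lean`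
with the SAME proof from `Rep.repAlg_*`, `Rep.cfun_*` (BlockA*, BlockB2): copy those proofs.

Section `Comm`:
* same group, nested or disjoint regions: conjugation by `UQ E (subHom S π)` permutes `UQ Q (subHom S σ)` by conjugation
  in `Perm S` (`UQ_conj_subset`, `map_mul`), central elements are fixed;
* disjoint groups: `subHom S π` and `subHom S' σ` commute (`Equiv.Perm.Disjoint`), and for ARBITRARY regions `Q, E`
  `rperm Q (subHom S π)` and `rperm E (subHom S' σ)` commute (they move different copies): entrywise;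
* whole central label of `Q` against anything on `E ⊇ Q` or disjoint `E`: `cenQ_commute_repQ`.

Section `Compat`: `Rep.res_dim_le`, `Rep.res_dim_ge`, `Rep.idem_res_eq_zero` with `f₁ = subHom S`, `f₂ = subHom Sᶜ`
(`card (Perm κ) = k!`, `k! = choose k r * r! * (k-r)!`); `Rep.merge_compat`, `Rep.kron_dim_le`, `Rep.kron_dim_le'`
(`Perm` is ambivalent) with `U₁ = (UQhom Q).comp (subHom S)`, `U₂ = (UQhom E).comp (subHom S)`, `mulRep = UQ (Q ∪ E)` (`UQ_union`);
occurrence: `RCfg io κ ≃ ({j // j ∈ S} → CfgOn io Q) × rest`, under which `repS Q S y = Rep.tRep (CfgOn io Q) S y ⊗ 1`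
(the proof of `repQ_eq_liftQ` in `Replica/Transfer.lean` generalises), then `Rep.dimI_le_card_pow`.
-/

set_option autoImplicit false
set_option linter.unusedSectionVars false

namespace Claimed.Agent.R296

open Matrix Finset
open scoped ComplexOrder MatrixOrder

variable {s : Type} [DecidableEq s] [Fintype s] {io : s → Type}
  [∀ x, Fintype (io x)] [∀ x, DecidableEq (io x)] {κ : Type} [Fintype κ] [DecidableEq κ]

section Calc

variable (Q : Finset s) (S : Finset κ) (φ ψ : Rep.Irr (Equiv.Perm {j // j ∈ S}) → ℂ)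

theorem repS_of (π : Equiv.Perm {j // j ∈ S}) :
    repS (io := io) Q S (MonoidAlgebra.of ℂ _ π) = UQ Q (subHom S π) := by
  rw [repS, AlgHom.comp_apply, Rep.gmap_of, MonoidAlgebra.of_apply, repQ_single, one_smul]

theorem repS_eq_repAlg (y : GA {j // j ∈ S}) :
    repS (io := io) Q S y = Rep.repAlg ((UQhom Q).comp (subHom S)) y := by
  conv_lhs => rw [Rep.b2_eq_sum_of y]
  rw [Rep.repAlg_eq_sum, map_sum]
  refine Finset.sum_congr rfl fun π _ => ?_
  rw [map_smul, repS_of]
  rfl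

/-- the permutation operators of a group of copies are unitary -/
theorem cl_subU_conjTranspose (g : Equiv.Perm {j // j ∈ S}) :
    (((UQhom (io := io) Q).comp (subHom S)) g)ᴴ = ((UQhom Q).comp (subHom S)) g⁻¹ := by
  rw [MonoidHom.comp_apply, MonoidHom.comp_apply, map_inv]
  exact UQ_conjTranspose Q _

theorem cenS_eq_sum : cenS (io := io) Q S φ = ∑ i, φ i • labS Q S i := by
  simp only [cenS, labS, Rep.cfun, map_sum, map_smul]

theorem labS_mul_labS (i j : Rep.Irr (Equiv.Perm {j // j ∈ S})) :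
    labS (io := io) Q S i * labS Q S j = if i = j then labS Q S i else 0 := by
  rw [labS, labS, ← map_mul, Rep.idem_mul_idem]
  split_ifs <;> simp

theorem sum_labS : ∑ i, labS (io := io) Q S i = 1 := by
  simp only [labS]
  rw [← map_sum, Rep.sum_idem, map_one]

theorem labS_isHermitian (i : Rep.Irr (Equiv.Perm {j // j ∈ S})) :
    (labS (io := io) Q S i).IsHermitian := by
  rw [labS, repS_eq_repAlg]
  exact Rep.repAlg_idem_isHermitian _ (cl_subU_conjTranspose Q S) i

theorem labS_posSemidef (i : Rep.Irr (Equiv.Perm {j // j ∈ S})) :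
    (labS (io := io) Q S i).PosSemidef := by
  rw [labS, repS_eq_repAlg]
  exact Rep.repAlg_idem_posSemidef _ (cl_subU_conjTranspose Q S) i

theorem cenS_one : cenS (io := io) Q S (fun _ => 1) = 1 := by
  rw [cenS, Rep.cfun_one, map_one]

theorem cenS_mul : cenS (io := io) Q S φ * cenS Q S ψ = cenS Q S fun i => φ i * ψ i := by
  rw [cenS, cenS, ← map_mul, Rep.cfun_mul]
  rfl

theorem cenS_mul_labS (i : Rep.Irr (Equiv.Perm {j // j ∈ S})) :
    cenS (io := io) Q S φ * labS Q S i = φ i • labS Q S i := by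
  rw [cenS, labS, ← map_mul, Rep.cfun_mul_idem, map_smul]

theorem cenS_isHermitian (f : Rep.Irr (Equiv.Perm {j // j ∈ S}) → ℝ) :
    (cenS (io := io) Q S fun i => (f i : ℂ)).IsHermitian := by
  rw [cenS, repS_eq_repAlg]
  exact Rep.repAlg_cfun_isHermitian _ (cl_subU_conjTranspose Q S) f

theorem cenS_le_cenS (f g : Rep.Irr (Equiv.Perm {j // j ∈ S}) → ℝ)
    (h : ∀ i, labS (io := io) Q S i ≠ 0 → f i ≤ g i) :
    cenS (io := io) Q S (fun i => (f i : ℂ)) ≤ cenS Q S fun i => (g i : ℂ) := by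
  rw [Matrix.le_iff, cenS, cenS, repS_eq_repAlg, repS_eq_repAlg]
  refine Rep.repAlg_cfun_mono _ (cl_subU_conjTranspose Q S) f g fun i hi => h i ?_
  rwa [labS, repS_eq_repAlg]

theorem cenS_posDef (f : Rep.Irr (Equiv.Perm {j // j ∈ S}) → ℝ) (h : ∀ i, 0 < f i) :
    (cenS (io := io) Q S fun i => (f i : ℂ)).PosDef := by
  have hps : (cenS (io := io) Q S fun i => (f i : ℂ)).PosSemidef := by
    rw [cenS, repS_eq_repAlg]
    exact Rep.repAlg_cfun_posSemidef _ (cl_subU_conjTranspose Q S) f fun i => (h i).le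
  rw [hps.posDef_iff_isUnit]
  refine IsUnit.of_mul_eq_one (cenS Q S fun i => ((f i : ℂ))⁻¹) ?_
  rw [cenS_mul, ← cenS_one (io := io) Q S]
  congr 1
  funext i
  exact mul_inv_cancel₀ (by exact_mod_cast (h i).ne')

theorem dimPowS_zero : dimPowS (io := io) Q S 0 = 1 := by
  rw [dimPowS, ← cenS_one (io := io) Q S]
  congr 1
  funext i
  rw [Real.rpow_zero, Complex.ofReal_one]

theorem dimPowS_add (b b' : ℝ) :
    dimPowS (io := io) Q S b * dimPowS Q S b' = dimPowS Q S (b + b') := by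
  rw [dimPowS, dimPowS, dimPowS, cenS_mul]
  congr 1
  funext i
  have hd : (0 : ℝ) < ((Rep.dimI i : ℕ) : ℝ) := by exact_mod_cast Rep.dimI_pos i
  rw [Real.rpow_add hd, Complex.ofReal_mul]

theorem dimPowS_posDef (b : ℝ) : (dimPowS (io := io) Q S b).PosDef := by
  refine cenS_posDef Q S _ fun i => Real.rpow_pos_of_pos ?_ b
  exact_mod_cast Rep.dimI_pos i

theorem dimPowS_eq_sum (b : ℝ) :
    dimPowS (io := io) Q S b = ∑ i, ((((Rep.dimI i : ℕ) : ℝ) ^ b : ℝ) : ℂ) • labS Q S i := by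
  rw [dimPowS, cenS_eq_sum]

end Calc

section Comm

theorem repS_eq_sum (Q : Finset s) (S : Finset κ) (y : GA {j // j ∈ S}) :
    repS (io := io) Q S y = ∑ π : Equiv.Perm {j // j ∈ S}, y.coeff π • UQ Q (subHom S π) := by
  rw [repS_eq_repAlg, Rep.repAlg_eq_sum]
  rfl

/-- nested regions: an element of `ℂ[Perm κ]` which commutes with `π` gives, on the smaller region, an operator
which commutes with `U_E(π)` -/
theorem cl_repQ_commute_UQ {Q E : Finset s} (h : Q ⊆ E) {z : GA κ} (π : Equiv.Perm κ)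
    (hz : Commute z (MonoidAlgebra.single π 1)) : Commute (repQ (io := io) Q z) (UQ E π) := by
  apply commute_UQ_of_conj
  have e1 : UQ (io := io) E π * repQ Q z * UQ E π⁻¹
      = repQ Q (MonoidAlgebra.single π 1 * z * MonoidAlgebra.single π⁻¹ 1) := by
    rw [map_mul, map_mul, repQ_single, repQ_single, one_smul, one_smul, repQ_eq_sum Q z]
    simp only [Finset.mul_sum, Finset.sum_mul, Matrix.mul_smul, Matrix.smul_mul, UQ_conj_subset h,
      ← UQ_mul]
  rw [e1, ← hz.eq, mul_assoc, MonoidAlgebra.single_mul_single, mul_inv_cancel, one_mul]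
  have : (MonoidAlgebra.single (1 : Equiv.Perm κ) (1 : ℂ)) = 1 := rfl
  rw [this, mul_one]

/-- commuting permutations of the copies commute on arbitrary regions -/
theorem cl_rperm_commute (Q E : Finset s) {a b : Equiv.Perm κ} (h : Commute a b) :
    Commute (rperm (io := io) Q a) (rperm E b) := by
  have h' : ∀ j, a⁻¹ (b⁻¹ j) = b⁻¹ (a⁻¹ j) := by
    intro j
    have := congrArg (fun f : Equiv.Perm κ => f j) (h.inv_inv).eq
    simpa [Equiv.Perm.mul_apply] using this
  ext c : 1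
  funext p
  rw [Equiv.Perm.mul_apply, Equiv.Perm.mul_apply]
  simp only [rperm_apply]
  split_ifs
  · rw [h']
  · rfl
  · rfl
  · rfl

theorem cl_UQ_commute (Q E : Finset s) {a b : Equiv.Perm κ} (h : Commute a b) :
    Commute (UQ (io := io) Q a) (UQ E b) := by
  show UQ (io := io) Q a * UQ E b = UQ E b * UQ Q a
  simp only [UQ_eq_rpMat, ← rpMat_mul]
  rw [(cl_rperm_commute Q E h).eq]

theorem cl_subHom_commute {S S' : Finset κ} (h : Disjoint S S') (π : Equiv.Perm {j // j ∈ S})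
    (σ : Equiv.Perm {j // j ∈ S'}) : Commute (subHom S π) (subHom S' σ) := by
  apply Equiv.Perm.Disjoint.commute
  intro x
  by_cases hx : x ∈ S
  · right
    exact Equiv.Perm.ofSubtype_apply_of_not_mem σ (Finset.disjoint_left.1 h hx)
  · left
    exact Equiv.Perm.ofSubtype_apply_of_not_mem π hx

/-- the central labels of the smaller region commute with all permutations of the larger region -/
theorem cenS_commute_repS {Q E : Finset s} (h : Q ⊆ E ∨ Disjoint Q E) (S : Finset κ)
    (φ : Rep.Irr (Equiv.Perm {j // j ∈ S}) → ℂ) (y : GA {j // j ∈ S}) :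
    Commute (cenS (io := io) Q S φ) (repS E S y) := by
  rcases h with h | h
  · rw [repS_eq_sum E S y]
    refine Commute.sum_right _ _ _ fun π _ => Commute.smul_right ?_ _
    rw [cenS, repS, AlgHom.comp_apply]
    refine cl_repQ_commute_UQ h _ ?_
    have h0 : Commute (Rep.cfun φ) (MonoidAlgebra.of ℂ _ π) := Rep.cfun_comm φ _
    have h1 := h0.map (Rep.gmap (subHom S))
    rwa [Rep.gmap_of, MonoidAlgebra.of_apply] at h1
  · exact repQ_commute_disjoint h _ _

/-- same group of copies, nested or disjoint regions -/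
theorem cenS_commute_cenS {Q E : Finset s} (h : Q ⊆ E ∨ E ⊆ Q ∨ Disjoint Q E) (S : Finset κ)
    (φ ψ : Rep.Irr (Equiv.Perm {j // j ∈ S}) → ℂ) :
    Commute (cenS (io := io) Q S φ) (cenS E S ψ) := by
  rcases h with h | h | h
  · exact cenS_commute_repS (Or.inl h) S φ _
  · exact (cenS_commute_repS (Or.inl h) S ψ _).symm
  · exact cenS_commute_repS (Or.inr h) S φ _

/-- disjoint groups of copies, arbitrary regions -/
theorem repS_commute_of_disjoint_copies {S S' : Finset κ} (h : Disjoint S S') (Q E : Finset s)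
    (y : GA {j // j ∈ S}) (y' : GA {j // j ∈ S'}) :
    Commute (repS (io := io) Q S y) (repS E S' y') := by
  rw [repS_eq_sum, repS_eq_sum]
  refine Commute.sum_left _ _ _ fun π _ => Commute.sum_right _ _ _ fun σ _ => ?_
  exact ((cl_UQ_commute Q E (cl_subHom_commute h π σ)).smul_left _).smul_right _

/-- disjoint regions, arbitrary groups of copies -/
theorem repS_commute_of_disjoint_regions {Q E : Finset s} (h : Disjoint Q E) (S S' : Finset κ)
    (y : GA {j // j ∈ S}) (y' : GA {j // j ∈ S'}) :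
    Commute (repS (io := io) Q S y) (repS E S' y') :=
  repQ_commute_disjoint h _ _

/-- whole central labels against the permutations of a group of copies -/
theorem cenQ_commute_repS {Q E : Finset s} (h : Q ⊆ E ∨ Disjoint Q E) (S : Finset κ)
    (φ : Rep.Irr (Equiv.Perm κ) → ℂ) (y : GA {j // j ∈ S}) :
    Commute (cenQ (io := io) Q φ) (repS E S y) := by
  exact cenQ_commute_repQ φ h _

/-- an invariant vector stays invariant under operators which commute with the permutations -/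
theorem FixS.mulVec {Q : Finset s} {S : Finset κ} {w : RCfg io κ → ℂ} (hw : FixS Q S w)
    {X : Matrix (RCfg io κ) (RCfg io κ) ℂ}
    (hX : ∀ π : Equiv.Perm {j // j ∈ S}, Commute X (UQ Q (subHom S π))) : FixS Q S (X *ᵥ w) := by
  intro π
  rw [mulVec_mulVec, ← (hX π).eq, ← mulVec_mulVec, hw π]

/-- `U_{Q ∪ E} = U_Q U_E`: invariance under two of the three implies the third -/
theorem FixS.of_union {Q E : Finset s} (h : Disjoint Q E) {S : Finset κ} {w : RCfg io κ → ℂ}
    (hQE : FixS (Q ∪ E) S w) (hQ : FixS Q S w) : FixS E S w := by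
  intro π
  have h1 := hQE π
  rw [UQ_union h, ← mulVec_mulVec] at h1
  have h2 := hQ π⁻¹
  rw [map_inv] at h2
  calc UQ E (subHom S π) *ᵥ w
      = (UQ Q (subHom S π)⁻¹ * UQ Q (subHom S π)) *ᵥ (UQ E (subHom S π) *ᵥ w) := by
        rw [UQ_inv_mul, one_mulVec]
    _ = UQ Q (subHom S π)⁻¹ *ᵥ w := by rw [← mulVec_mulVec, h1]
    _ = w := h2

end Comm

section Compat

/-! #### three commuting families of projections -/

section Triple

variable {N I J L : Type} [Fintype N] [DecidableEq N] [Fintype I] [Fintype J] [Fintype L]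

/-- three pairwise commuting families of Hermitian idempotents -/
structure ClcTriple (A : I → Matrix N N ℂ) (B : J → Matrix N N ℂ) (C : L → Matrix N N ℂ) :
    Prop where
  hA : ∀ i, (A i).IsHermitian
  hB : ∀ j, (B j).IsHermitian
  hC : ∀ l, (C l).IsHermitian
  sA : ∀ i, A i * A i = A i
  sB : ∀ j, B j * B j = B j
  sC : ∀ l, C l * C l = C l
  cAB : ∀ i j, Commute (A i) (B j)
  cAC : ∀ i l, Commute (A i) (C l)
  cBC : ∀ j l, Commute (B j) (C l)

variable {A : I → Matrix N N ℂ} {B : J → Matrix N N ℂ} {C : L → Matrix N N ℂ}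

theorem ClcTriple.posSemidef (T : ClcTriple A B C) (i : I) (j : J) (l : L) :
    (A i * B j * C l).PosSemidef := by
  have c123 : Commute (A i * B j) (C l) := (T.cAC i l).mul_left (T.cBC j l)
  have hH : (A i * B j * C l)ᴴ = A i * B j * C l := by
    rw [conjTranspose_mul, conjTranspose_mul, (T.hA i).eq, (T.hB j).eq, (T.hC l).eq,
      ← (T.cAB i j).eq, c123.eq]
  have hI : (A i * B j * C l) * (A i * B j * C l) = A i * B j * C l :=
    Rep.idempotent_mul_of_commute (Rep.idempotent_mul_of_commute (T.sA i) (T.sB j) (T.cAB i j).eq)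
      (T.sC l) c123.eq
  have e : A i * B j * C l = (A i * B j * C l)ᴴ * (A i * B j * C l) := by rw [hH, hI]
  rw [e]
  exact Matrix.posSemidef_conjTranspose_mul_self _

theorem ClcTriple.sum_le (T : ClcTriple A B C) (f g : I → J → L → ℝ)
    (h : ∀ i j l, A i * B j * C l ≠ 0 → f i j l ≤ g i j l) :
    ∑ i, ∑ j, ∑ l, (f i j l : ℂ) • (A i * B j * C l)
      ≤ ∑ i, ∑ j, ∑ l, (g i j l : ℂ) • (A i * B j * C l) := by
  refine Finset.sum_le_sum fun i _ => Finset.sum_le_sum fun j _ => Finset.sum_le_sum fun l _ => ?_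
  by_cases h0 : A i * B j * C l = 0
  · rw [h0, smul_zero, smul_zero]
  · rw [Matrix.le_iff, ← sub_smul]
    refine (T.posSemidef i j l).smul ?_
    rw [← Complex.ofReal_sub]
    exact_mod_cast sub_nonneg.2 (h i j l h0)

theorem clc_expand (A : I → Matrix N N ℂ) (B : J → Matrix N N ℂ) (C : L → Matrix N N ℂ)
    (a : I → ℂ) (b : J → ℂ) (c : L → ℂ) :
    (∑ i, a i • A i) * (∑ j, b j • B j) * (∑ l, c l • C l)
      = ∑ i, ∑ j, ∑ l, (a i * b j * c l) • (A i * B j * C l) := by
  rw [Finset.sum_mul_sum, Finset.sum_mul]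
  refine Finset.sum_congr rfl fun i _ => ?_
  rw [Finset.sum_mul]
  refine Finset.sum_congr rfl fun j _ => ?_
  rw [Finset.mul_sum]
  refine Finset.sum_congr rfl fun l _ => ?_
  rw [smul_mul_smul_comm, smul_mul_smul_comm]

/-- operator inequality between products of functions of three commuting families -/
theorem ClcTriple.prod_le (T : ClcTriple A B C) (a a' : I → ℝ) (b b' : J → ℝ) (c c' : L → ℝ)
    (h : ∀ i j l, A i * B j * C l ≠ 0 → a i * b j * c l ≤ a' i * b' j * c' l) :
    (∑ i, (a i : ℂ) • A i) * (∑ j, (b j : ℂ) • B j) * (∑ l, (c l : ℂ) • C l) ≤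
      (∑ i, (a' i : ℂ) • A i) * (∑ j, (b' j : ℂ) • B j) * (∑ l, (c' l : ℂ) • C l) := by
  rw [clc_expand, clc_expand]
  simp only [← Complex.ofReal_mul]
  exact T.sum_le (fun i j l => a i * b j * c l) (fun i j l => a' i * b' j * c' l) h

end Triple

/-! #### the subgroups of the permutations of `B` and of `Bᶜ` -/

theorem clc_subHom_of_mem (S : Finset κ) (π : Equiv.Perm {j // j ∈ S}) {x : κ} (hx : x ∈ S) :
    subHom S π x = π ⟨x, hx⟩ := Equiv.Perm.ofSubtype_apply_of_mem π hx

theorem clc_subHom_of_not_mem (S : Finset κ) (π : Equiv.Perm {j // j ∈ S}) {x : κ} (hx : x ∉ S) :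
    subHom S π x = x := Equiv.Perm.ofSubtype_apply_of_not_mem π hx

theorem clc_subHom_commute {S S' : Finset κ} (h : Disjoint S S') (a : Equiv.Perm {j // j ∈ S})
    (b : Equiv.Perm {j // j ∈ S'}) : subHom S a * subHom S' b = subHom S' b * subHom S a := by
  apply Equiv.Perm.Disjoint.commute
  intro x
  by_cases hx : x ∈ S
  · exact Or.inr (clc_subHom_of_not_mem S' b (Finset.disjoint_left.1 h hx))
  · exact Or.inl (clc_subHom_of_not_mem S a hx)

theorem clc_subHom_inj {S S' : Finset κ} (h : Disjoint S S') :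
    Function.Injective fun p : Equiv.Perm {j // j ∈ S} × Equiv.Perm {j // j ∈ S'} =>
      subHom S p.1 * subHom S' p.2 := by
  rintro ⟨a, b⟩ ⟨a', b'⟩ hab
  simp only at hab
  refine Prod.ext ?_ ?_
  · ext x
    have h1 := congrArg (fun σ : Equiv.Perm κ => σ x.1) hab
    simp only [Equiv.Perm.mul_apply] at h1
    rw [clc_subHom_of_not_mem S' b (Finset.disjoint_left.1 h x.2),
      clc_subHom_of_not_mem S' b' (Finset.disjoint_left.1 h x.2), clc_subHom_of_mem S a x.2,
      clc_subHom_of_mem S a' x.2] at h1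
    exact h1
  · ext x
    have h1 := congrArg (fun σ : Equiv.Perm κ => σ x.1) hab
    simp only [Equiv.Perm.mul_apply] at h1
    rw [clc_subHom_of_mem S' b x.2, clc_subHom_of_mem S' b' x.2,
      clc_subHom_of_not_mem S a (Finset.disjoint_right.1 h (b x).2),
      clc_subHom_of_not_mem S a' (Finset.disjoint_right.1 h (b' x).2)] at h1
    exact h1

theorem clc_card_perm (S : Finset κ) : Fintype.card (Equiv.Perm {j // j ∈ S}) = S.card.factorial := by
  rw [Fintype.card_perm, Fintype.card_coe]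

theorem clc_labP_commute_labS (Q : Finset s) (S : Finset κ) (l : Rep.Irr (Equiv.Perm κ))
    (α : Rep.Irr (Equiv.Perm {j // j ∈ S})) :
    Commute (labP (io := io) Q l) (labS Q S α) := by
  show repQ Q (Rep.idem l) * repQ Q (Rep.gmap (subHom S) (Rep.idem α)) =
    repQ Q (Rep.gmap (subHom S) (Rep.idem α)) * repQ Q (Rep.idem l)
  rw [← map_mul, ← map_mul, Rep.idem_comm]

/-- **(replicas:group-dimensions)** -/
theorem cl_group_compat (Q : Finset s) (B : Finset κ) (l : Rep.Irr (Equiv.Perm κ))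
    (α : Rep.Irr (Equiv.Perm {j // j ∈ Bᶜ})) (β : Rep.Irr (Equiv.Perm {j // j ∈ B}))
    (h : labP (io := io) Q l * labS Q Bᶜ α * labS Q B β ≠ 0) :
    Rep.dimI α * Rep.dimI β ≤ Rep.dimI l ∧
      Rep.dimI l ≤ (Fintype.card κ).choose B.card * (Rep.dimI α * Rep.dimI β) := by
  have hd : Disjoint Bᶜ B := disjoint_compl_left
  have hc := clc_subHom_commute hd
  have hchi : Rep.chi l (Rep.gmap (subHom Bᶜ) (Rep.idem α) * Rep.gmap (subHom B) (Rep.idem β)) ≠ 0 := by
    intro h0
    apply h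
    have h1 := Rep.idem_res_eq_zero (subHom Bᶜ) (subHom B) hc l α β h0
    show repQ Q (Rep.idem l) * repQ Q (Rep.gmap (subHom Bᶜ) (Rep.idem α)) *
      repQ Q (Rep.gmap (subHom B) (Rep.idem β)) = 0
    rw [← map_mul, ← map_mul, mul_assoc, h1, map_zero]
  refine ⟨Rep.res_dim_le (subHom Bᶜ) (subHom B) hc l α β hchi, ?_⟩
  have h2 := Rep.res_dim_ge (subHom Bᶜ) (subHom B) hc (clc_subHom_inj hd) l α β hchi
  rw [clc_card_perm, clc_card_perm, Fintype.card_perm, Finset.card_compl] at h2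
  have hle : B.card ≤ Fintype.card κ := Finset.card_le_univ B
  have h3 := Nat.choose_mul_factorial_mul_factorial hle
  have hpos : 0 < (Fintype.card κ - B.card).factorial * B.card.factorial :=
    Nat.mul_pos (Nat.factorial_pos _) (Nat.factorial_pos _)
  apply Nat.le_of_mul_le_mul_right _ hpos
  calc Rep.dimI l * ((Fintype.card κ - B.card).factorial * B.card.factorial)
      ≤ (Fintype.card κ).factorial * (Rep.dimI α * Rep.dimI β) := h2
    _ = (Fintype.card κ).choose B.card * (Rep.dimI α * Rep.dimI β) *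
        ((Fintype.card κ - B.card).factorial * B.card.factorial) := by
        rw [← h3]; ring

theorem clc_triple_group (Q : Finset s) (B : Finset κ) :
    ClcTriple (labP (io := io) Q) (labS Q Bᶜ) (labS Q B) where
  hA := labP_isHermitian Q
  hB := labS_isHermitian Q Bᶜ
  hC := labS_isHermitian Q B
  sA i := by rw [labP_mul_labP, if_pos rfl]
  sB j := by rw [labS_mul_labS, if_pos rfl]
  sC l := by rw [labS_mul_labS, if_pos rfl]
  cAB := clc_labP_commute_labS Q Bᶜ
  cAC := clc_labP_commute_labS Q B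
  cBC _ _ := repS_commute_of_disjoint_copies disjoint_compl_left Q Q _ _

theorem clc_dim_pos {G : Type} [Group G] [Fintype G] (i : Rep.Irr G) : (0 : ℝ) < (Rep.dimI i : ℕ) := by
  exact_mod_cast Rep.dimI_pos i

/-- `e^{-b F^{whole}} ≤ e^{-b F^{good}} e^{-b F^{bad}}` -/
theorem cl_dimPow_neg_le (Q : Finset s) (B : Finset κ) {b : ℝ} (hb : 0 ≤ b) :
    cenQ (io := io) Q (fun i => ((((Rep.dimI i : ℕ) : ℝ) ^ (-b) : ℝ) : ℂ)) ≤
      dimPowS Q Bᶜ (-b) * dimPowS Q B (-b) := by
  have h := (clc_triple_group (io := io) Q B).prod_le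
    (fun l => ((Rep.dimI l : ℕ) : ℝ) ^ (-b)) (fun _ => 1) (fun _ => 1)
    (fun α => ((Rep.dimI α : ℕ) : ℝ) ^ (-b)) (fun _ => 1) (fun β => ((Rep.dimI β : ℕ) : ℝ) ^ (-b))
    (by
      intro l α β hne
      have h1 := (cl_group_compat Q B l α β hne).1
      have h2 : ((Rep.dimI α : ℕ) : ℝ) * ((Rep.dimI β : ℕ) : ℝ) ≤ ((Rep.dimI l : ℕ) : ℝ) := by
        exact_mod_cast h1
      rw [mul_one, mul_one, one_mul, ← Real.mul_rpow (clc_dim_pos α).le (clc_dim_pos β).le]
      exact Real.rpow_le_rpow_of_nonpos (mul_pos (clc_dim_pos α) (clc_dim_pos β)) h2 (by linarith))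
  simp only [Complex.ofReal_one, one_smul, sum_labS, sum_labP, mul_one, one_mul] at h
  rw [cenQ_eq_sum, dimPowS_eq_sum, dimPowS_eq_sum]
  exact h

/-- `e^{b F^{whole}} ≤ binom(k,r)^b e^{b F^{good}} e^{b F^{bad}}` -/
theorem cl_dimPow_le (Q : Finset s) (B : Finset κ) {b : ℝ} (hb : 0 ≤ b) :
    cenQ (io := io) Q (fun i => ((((Rep.dimI i : ℕ) : ℝ) ^ b : ℝ) : ℂ)) ≤
      ((((Fintype.card κ).choose B.card : ℝ) ^ b : ℝ) : ℂ) • (dimPowS Q Bᶜ b * dimPowS Q B b) := by
  have h := (clc_triple_group (io := io) Q B).prod_le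
    (fun l => ((Rep.dimI l : ℕ) : ℝ) ^ b) (fun _ => ((Fintype.card κ).choose B.card : ℝ) ^ b)
    (fun _ => 1) (fun α => ((Rep.dimI α : ℕ) : ℝ) ^ b) (fun _ => 1)
    (fun β => ((Rep.dimI β : ℕ) : ℝ) ^ b)
    (by
      intro l α β hne
      have h1 := (cl_group_compat Q B l α β hne).2
      have h2 : ((Rep.dimI l : ℕ) : ℝ) ≤ ((Fintype.card κ).choose B.card : ℝ) *
          (((Rep.dimI α : ℕ) : ℝ) * ((Rep.dimI β : ℕ) : ℝ)) := by
        exact_mod_cast h1
      rw [mul_one, mul_one, mul_assoc, ← Real.mul_rpow (clc_dim_pos α).le (clc_dim_pos β).le,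
        ← Real.mul_rpow (Nat.cast_nonneg _) (mul_pos (clc_dim_pos α) (clc_dim_pos β)).le]
      exact Real.rpow_le_rpow (clc_dim_pos l).le h2 hb)
  simp only [Complex.ofReal_one, one_smul, sum_labS, ← Finset.smul_sum, sum_labP, mul_one] at h
  rw [cenQ_eq_sum, dimPowS_eq_sum, dimPowS_eq_sum]
  rw [Matrix.smul_mul, Matrix.one_mul, Matrix.smul_mul] at h
  exact h

/-! #### occurrence -/

/-- glue a configuration of the copies in `S` of the region `Q` into a background configuration -/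
def clcGlue (Q : Finset s) (S : Finset κ) (c₀ : RCfg io κ) (f : {j // j ∈ S} → CfgOn io Q) :
    RCfg io κ :=
  fun p => if h : p.1 ∈ S ∧ p.2 ∈ Q then f ⟨p.1, h.1⟩ ⟨p.2, h.2⟩ else c₀ p

theorem clcGlue_injective (Q : Finset s) (S : Finset κ) (c₀ : RCfg io κ) :
    Function.Injective (clcGlue Q S c₀) := by
  intro f g h
  funext j x
  have h1 := congrFun h (j.1, x.1)
  simp only [clcGlue] at h1
  rw [dif_pos ⟨j.2, x.2⟩, dif_pos ⟨j.2, x.2⟩] at h1
  exact h1

theorem clcGlue_self (Q : Finset s) (S : Finset κ) (c₀ : RCfg io κ) :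
    clcGlue Q S c₀ (fun j x => c₀ (j.1, x.1)) = c₀ := by
  funext p
  simp only [clcGlue]
  split_ifs <;> rfl

theorem clc_rperm_glue (Q : Finset s) (S : Finset κ) (c₀ : RCfg io κ)
    (π : Equiv.Perm {j // j ∈ S}) (g : {j // j ∈ S} → CfgOn io Q) :
    rperm Q (subHom S π) (clcGlue Q S c₀ g) = clcGlue Q S c₀ (g ∘ (π⁻¹ : Equiv.Perm _)) := by
  funext p
  rw [rperm_apply, ← map_inv]
  by_cases hQ : p.2 ∈ Q
  · rw [if_pos hQ]
    by_cases hS : p.1 ∈ S
    · have e : subHom S π⁻¹ p.1 = (π⁻¹ ⟨p.1, hS⟩ : {j // j ∈ S}) := clc_subHom_of_mem S π⁻¹ hS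
      simp only [clcGlue]
      rw [dif_pos (by rw [e]; exact ⟨(π⁻¹ ⟨p.1, hS⟩).2, hQ⟩), dif_pos ⟨hS, hQ⟩]
      simp only [Function.comp]
      congr 1
      exact Subtype.ext e
    · rw [clc_subHom_of_not_mem S π⁻¹ hS]
      simp only [clcGlue]
      rw [dif_neg (fun h => hS h.1), dif_neg (fun h => hS h.1)]
  · rw [if_neg hQ]
    simp only [clcGlue]
    rw [dif_neg (fun h => hQ h.2), dif_neg (fun h => hQ h.2)]

theorem clc_UQ_glue (Q : Finset s) (S : Finset κ) (c₀ : RCfg io κ)
    (π : Equiv.Perm {j // j ∈ S}) (f g : {j // j ∈ S} → CfgOn io Q) :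
    UQ Q (subHom S π) (clcGlue Q S c₀ f) (clcGlue Q S c₀ g) =
      Rep.tU (CfgOn io Q) {j // j ∈ S} π f g := by
  rw [Rep.tU_apply]
  simp only [UQ, Matrix.of_apply]
  rw [clc_rperm_glue]
  have h : f = g ∘ (π⁻¹ : Equiv.Perm _) ↔ f ∘ π = g := by
    rw [Rep.ta_comp_iff π g f]
    exact eq_comm
  simp only [(clcGlue_injective Q S c₀).eq_iff, h]

theorem clc_repS_glue (Q : Finset s) (S : Finset κ) (c₀ : RCfg io κ) (y : GA {j // j ∈ S})
    (f g : {j // j ∈ S} → CfgOn io Q) :
    repS Q S y (clcGlue Q S c₀ f) (clcGlue Q S c₀ g) =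
      Rep.tRep (CfgOn io Q) {j // j ∈ S} y f g := by
  rw [repS_eq_repAlg, Rep.repAlg_eq_sum, Rep.tRep, Rep.repAlg_eq_sum, Matrix.sum_apply,
    Matrix.sum_apply]
  refine Finset.sum_congr rfl fun π _ => ?_
  rw [Matrix.smul_apply, Matrix.smul_apply]
  congr 1
  exact clc_UQ_glue Q S c₀ π f g

/-- labels which occur on `|S|` copies of `Q` -/
theorem cl_labS_occurs (Q : Finset s) (S : Finset κ) (α : Rep.Irr (Equiv.Perm {j // j ∈ S}))
    (h : labS (io := io) Q S α ≠ 0) :
    Rep.dimI α ≤ Fintype.card (CfgOn io Q) ^ S.card := by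
  have htr : trace (labS (io := io) Q S α) ≠ 0 := fun h0 =>
    h (Rep.idempotent_eq_zero_of_trace _ (by rw [labS_mul_labS, if_pos rfl]) h0)
  obtain ⟨c, -, hc⟩ := Finset.exists_ne_zero_of_sum_ne_zero htr
  rw [diag_apply] at hc
  have h1 : Rep.tRep (CfgOn io Q) {j // j ∈ S} (Rep.idem α) ≠ 0 := by
    intro h0
    apply hc
    have h2 := clc_repS_glue Q S c (Rep.idem α) (fun j x => c (j.1, x.1)) (fun j x => c (j.1, x.1))
    rw [clcGlue_self, h0] at h2
    exact h2
  have h3 := Rep.dimI_le_card_pow (α := CfgOn io Q) α h1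
  rwa [Fintype.card_coe] at h3

/-! #### mirror -/

/-- mirror: on vectors fixed by the permutations of `Q ∪ E` the labels of `Q` and `E` agree -/
theorem cl_mirror {Q E : Finset s} (h : Disjoint Q E) {S : Finset κ} {w : RCfg io κ → ℂ}
    (hw : FixS (Q ∪ E) S w) (φ : Rep.Irr (Equiv.Perm {j // j ∈ S}) → ℂ) :
    cenS Q S φ *ᵥ w = cenS E S φ *ᵥ w := by
  have key : ∀ π : Equiv.Perm {j // j ∈ S},
      UQ Q (subHom S π) *ᵥ w = UQ E (subHom S π⁻¹) *ᵥ w := by
    intro π
    conv_rhs => rw [← hw π]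
    rw [UQ_union h, (UQ_commute_disjoint h _ _).eq, mulVec_mulVec, ← Matrix.mul_assoc, map_inv,
      UQ_inv_mul, Matrix.one_mul]
  have hcen : gaInv (Rep.cfun φ) = Rep.cfun φ := gaInv_of_central fun x => Rep.cfun_comm φ x
  have e1 : ∀ (R : Finset s) (y : GA {j // j ∈ S}),
      repS (io := io) R S y = ∑ π, y.coeff π • UQ R (subHom S π) := by
    intro R y
    rw [repS_eq_repAlg, Rep.repAlg_eq_sum]
    rfl
  rw [cenS, cenS, e1 Q]
  conv_rhs => rw [← hcen]
  rw [e1 E, sum_mulVec, sum_mulVec, ← Equiv.sum_comp (Equiv.inv (Equiv.Perm {j // j ∈ S}))]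
  refine Finset.sum_congr rfl fun π _ => ?_
  rw [smul_mulVec, smul_mulVec, Equiv.inv_apply, gaInv_coeff, key, inv_inv]

/-! #### merging -/

theorem clc_labS_eq_cenS (Q : Finset s) (S : Finset κ) (α : Rep.Irr (Equiv.Perm {j // j ∈ S})) :
    labS (io := io) Q S α = cenS Q S (fun j => if j = α then 1 else 0) := by
  rw [cenS, Rep.cfun_single]
  rfl

theorem clc_triple_merge {Q E : Finset s} (h : Disjoint Q E) (S : Finset κ) :
    ClcTriple (labS (io := io) Q S) (labS E S) (labS (Q ∪ E) S) where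
  hA := labS_isHermitian Q S
  hB := labS_isHermitian E S
  hC := labS_isHermitian (Q ∪ E) S
  sA i := by rw [labS_mul_labS, if_pos rfl]
  sB j := by rw [labS_mul_labS, if_pos rfl]
  sC l := by rw [labS_mul_labS, if_pos rfl]
  cAB _ _ := repS_commute_of_disjoint_regions h S S _ _
  cAC i l := by
    rw [clc_labS_eq_cenS Q S i]
    exact cenS_commute_repS (Or.inl Finset.subset_union_left) S _ _
  cBC j l := by
    rw [clc_labS_eq_cenS E S j]
    exact cenS_commute_repS (Or.inl Finset.subset_union_right) S _ _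

/-- compatible labels of `Q`, `E`, `Q ∪ E` -/
theorem cl_merge_compat {Q E : Finset s} (h : Disjoint Q E) (S : Finset κ)
    (α β ν : Rep.Irr (Equiv.Perm {j // j ∈ S}))
    (hne : labS (io := io) Q S α * labS E S β * labS (Q ∪ E) S ν ≠ 0) :
    Rep.kronMult α β ν ≠ 0 ∧ Rep.dimI ν ≤ Rep.dimI α * Rep.dimI β ∧
      Rep.dimI α ≤ Rep.dimI ν * Rep.dimI β := by
  have hc : ∀ g g' : Equiv.Perm {j // j ∈ S},
      ((UQhom (io := io) Q).comp (subHom S)) g * ((UQhom E).comp (subHom S)) g' =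
        ((UQhom E).comp (subHom S)) g' * ((UQhom Q).comp (subHom S)) g :=
    fun g g' => (UQ_commute_disjoint h _ _).eq
  have hm : Rep.mulRep ((UQhom (io := io) Q).comp (subHom S)) ((UQhom E).comp (subHom S)) hc =
      (UQhom (Q ∪ E)).comp (subHom S) := by
    ext1 g
    exact (UQ_union h _).symm
  have hk : Rep.kronMult α β ν ≠ 0 := by
    refine Rep.merge_compat _ _ hc α β ν ?_
    rw [hm, ← repS_eq_repAlg, ← repS_eq_repAlg, ← repS_eq_repAlg]
    exact hne
  exact ⟨hk, Rep.kron_dim_le α β ν hk, Rep.kron_dim_le' cen_perm_ambivalent α β ν hk⟩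

/-- the merge deficit is nonnegative: `e^{-b D} ≤ 1` -/
theorem cl_mergeS_neg_le_one {Q E : Finset s} (h : Disjoint Q E) (S : Finset κ) {b : ℝ}
    (hb : 0 ≤ b) : mergeS (io := io) Q E S (-b) ≤ 1 := by
  have h1 := (clc_triple_merge (io := io) h S).prod_le
    (fun α => ((Rep.dimI α : ℕ) : ℝ) ^ (-b)) (fun _ => 1)
    (fun β => ((Rep.dimI β : ℕ) : ℝ) ^ (-b)) (fun _ => 1)
    (fun ν => ((Rep.dimI ν : ℕ) : ℝ) ^ (-(-b))) (fun _ => 1)
    (by
      intro α β ν hne
      have h2 := (cl_merge_compat h S α β ν hne).2.1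
      have h3 : ((Rep.dimI ν : ℕ) : ℝ) ≤ ((Rep.dimI α : ℕ) : ℝ) * ((Rep.dimI β : ℕ) : ℝ) := by
        exact_mod_cast h2
      have hp := mul_pos (clc_dim_pos α) (clc_dim_pos β)
      rw [neg_neg, ← Real.mul_rpow (clc_dim_pos α).le (clc_dim_pos β).le, mul_one, mul_one]
      calc (((Rep.dimI α : ℕ) : ℝ) * ((Rep.dimI β : ℕ) : ℝ)) ^ (-b) * ((Rep.dimI ν : ℕ) : ℝ) ^ b
          ≤ (((Rep.dimI α : ℕ) : ℝ) * ((Rep.dimI β : ℕ) : ℝ)) ^ (-b) *
            (((Rep.dimI α : ℕ) : ℝ) * ((Rep.dimI β : ℕ) : ℝ)) ^ b :=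
            mul_le_mul_of_nonneg_left (Real.rpow_le_rpow (clc_dim_pos ν).le h3 hb)
              (Real.rpow_nonneg hp.le _)
        _ = 1 := by rw [← Real.rpow_add hp, neg_add_cancel, Real.rpow_zero])
  simp only [Complex.ofReal_one, one_smul, sum_labS, mul_one] at h1
  rw [mergeS, dimPowS_eq_sum, dimPowS_eq_sum, dimPowS_eq_sum]
  exact h1

theorem cl_mergeS_posSemidef {Q E : Finset s} (h : Disjoint Q E) (S : Finset κ) (b : ℝ) :
    (mergeS (io := io) Q E S b).PosSemidef := by
  have h1 := (clc_triple_merge (io := io) h S).prod_le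
    (fun _ => 0) (fun α => ((Rep.dimI α : ℕ) : ℝ) ^ b)
    (fun _ => 0) (fun β => ((Rep.dimI β : ℕ) : ℝ) ^ b)
    (fun _ => 0) (fun ν => ((Rep.dimI ν : ℕ) : ℝ) ^ (-b))
    (by
      intro α β ν _
      have h1 := Real.rpow_pos_of_pos (clc_dim_pos α) b
      have h2 := Real.rpow_pos_of_pos (clc_dim_pos β) b
      have h3 := Real.rpow_pos_of_pos (clc_dim_pos ν) (-b)
      simp only [mul_zero]
      positivity)
  simp only [Complex.ofReal_zero, zero_smul, Finset.sum_const_zero, mul_zero] at h1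
  rw [mergeS, dimPowS_eq_sum, dimPowS_eq_sum, dimPowS_eq_sum, ← Matrix.nonneg_iff_posSemidef]
  exact h1

theorem clc_defs_eqns_cite : True := by
  have := @clcGlue.eq_1
  trivial

end Compat

end Claimed.Agent.R296
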