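import Claimed.Agent.R296.CmpMom

/-!
# Row 296, P1 Section 7.3, package CL-IID-A: reduction to `CmpMom.lean` (S7-MOM)

`cl_iid_pos`/`cl_iid_neg` of `Cmp/LowIid.lean` are `cm_moment_pos`/`cm_moment_neg` of `CmpMom.lean`
(architect helper218) up to the form of the polynomial prefactor.  Owner: helper98.  Prefix `cli_`.
-/

set_option autoImplicit false
set_option linter.unusedSectionVars false

namespace Claimed.Agent.R296

open Matrix Finset
open scoped ComplexOrder MatrixOrder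

/-- the polynomial prefactor of `cm_moment_neg` in the form `C (k+1)^m` -/
theorem cli_poly_le (d k : ℕ) (hd : 1 ≤ d) :
    Real.sqrt (((k : ℝ) + 1) ^ d * ((k : ℝ) + d) ^ (d * (d - 1) / 2)) ≤
      (d : ℝ) ^ (d * (d - 1) / 2) * ((k : ℝ) + 1) ^ (d + d * (d - 1) / 2) := by
  set e := d * (d - 1) / 2 with he
  have hd' : (1 : ℝ) ≤ d := by exact_mod_cast hd
  have hk : (0 : ℝ) ≤ k := Nat.cast_nonneg k
  have h1 : (k : ℝ) + d ≤ d * ((k : ℝ) + 1) := by nlinarith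
  have h2 : ((k : ℝ) + d) ^ e ≤ (d : ℝ) ^ e * ((k : ℝ) + 1) ^ e := by
    rw [← mul_pow]
    exact pow_le_pow_left₀ (by positivity) h1 e
  have h3 : ((k : ℝ) + 1) ^ d * ((k : ℝ) + d) ^ e ≤ (d : ℝ) ^ e * ((k : ℝ) + 1) ^ (d + e) := by
    calc ((k : ℝ) + 1) ^ d * ((k : ℝ) + d) ^ e
        ≤ ((k : ℝ) + 1) ^ d * ((d : ℝ) ^ e * ((k : ℝ) + 1) ^ e) :=
          mul_le_mul_of_nonneg_left h2 (by positivity)
      _ = _ := by rw [pow_add]; ring
  have h4 : (1 : ℝ) ≤ (d : ℝ) ^ e * ((k : ℝ) + 1) ^ (d + e) := by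
    have a1 : (1 : ℝ) ≤ (d : ℝ) ^ e := one_le_pow₀ hd'
    have a2 : (1 : ℝ) ≤ ((k : ℝ) + 1) ^ (d + e) := one_le_pow₀ (by linarith)
    calc (1 : ℝ) = 1 * 1 := by ring
      _ ≤ _ := mul_le_mul a1 a2 zero_le_one (by positivity)
  refine (Real.sqrt_le_sqrt h3).trans ?_
  rw [Real.sqrt_le_left (by positivity)]
  nlinarith

section Full

variable {s : Type} [DecidableEq s] [Fintype s]

theorem cli_iid_neg (io : s → Type) [∀ x, Fintype (io x)] [∀ x, DecidableEq (io x)]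
    [∀ x, Nonempty (io x)] :
    ∃ (C : ℝ) (m : ℕ), 1 ≤ C ∧ ∀ (κ : Type) [Fintype κ] [DecidableEq κ] (Q : Finset s)
      (θ : Cfg io → ℂ), star θ ⬝ᵥ θ = 1 → ∀ u : ℝ, 0 ≤ u → 2 * u ≤ 1 →
      (star (tpow κ θ) ⬝ᵥ (dimPow Q (-u) *ᵥ tpow κ θ)).re ≤
        C * ((Fintype.card κ : ℝ) + 1) ^ m *
          Real.sqrt (Scan.renyiTr (ptr Q (pureOp θ)) (1 + 2 * u) ^ Fintype.card κ) := by
  have hd : 1 ≤ dV io := one_le_dV
  refine ⟨(dV io : ℝ) ^ (dV io * (dV io - 1) / 2), dV io + dV io * (dV io - 1) / 2,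
    one_le_pow₀ (by exact_mod_cast hd), ?_⟩
  intro κ _ _ Q θ hθ u hu0 hu1
  refine (cm_moment_neg Q hθ hu0 hu1).trans ?_
  rw [mul_comm]
  exact mul_le_mul_of_nonneg_right (cli_poly_le (dV io) (Fintype.card κ) hd) (Real.sqrt_nonneg _)

end Full

end Claimed.Agent.R296
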