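import Claimed.Agent.R296.Cmp.LowIidB
import Claimed.Agent.R296.Cmp.LowIidA

/-!
# Row 296, P1 Section 7.1 + 7.3, package CL-IID: label moments of independent copies
(eqs. comparator:label-remainder, comparator:signed-label-moments, "physical moments are evaluated in the exact iid state")

Architect: helper239.  Three packages:
* CL-IID-A (`cl_iid_pos`, `cl_iid_neg`): a FULL replica system, product vector `θ^{⊗κ}`, region `Q`, `ρ = ptr Q (pureOp θ)`.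
  `⟨θ^{⊗κ}, X_Q θ^{⊗κ}⟩ = Tr (ρ^{⊗κ} X)`; `ρ^{⊗κ}` commutes with the permutations; in the block `a` every eigenvalue `x` of
  `ρ^{⊗κ}` satisfies `x d_a ≤ 1` (`labP_mul_topow_le`, `Rep.inv_density_le`).
  (+) `∑_a d_a^u Tr(ρ^{⊗κ} π_a) ≤ ∑_{x > 0} x^{1-u} = (∑_{p > 0} p^{1-u})^k`.
  (-) Cauchy-Schwarz: `x d_a^{-u} = x · x^u · (x d_a)^{-u}`, `∑ x^{1+2u} = (∑ p^{1+2u})^k`,
      `∑_a ∑_x x (x d_a)^{-2u} = ∑_a ∑_{x ∈ spec M_a} (x d_a)^{1-2u} ≤ ∑_a Tr π_a / d_a ≤ poly(k)` (`Rep.trace_tRep_idem_le`,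
      `Rep.card_occurring_le`).
  SHARED with the sharp upper comparison (helper218), where `ρ^{⊗κ}` is replaced by a density dominated by `z^{-k} ρ^{⊗κ}`.
* CL-IID-B (`cl_rank_one`, `cl_iid_transfer`): `mPos B = (|Ω^{⊗good}⟩⟨Ω^{⊗good}| ⊗ 1) ⊗ (bad factors)`; an operator which acts on the physical
  parts of the good copies is compressed to a scalar.  Entrywise computation, see the docstring.
* CL-IID-C (`cl_moment_pos`, `cl_moment_neg`): combination with `MgfAt` and `co_renyi_psi`, `co_psi_unit`.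
-/

set_option autoImplicit false
set_option linter.unusedSectionVars false

namespace Claimed.Agent.R296

open Matrix Finset
open scoped ComplexOrder MatrixOrder

section Full

variable {s : Type} [DecidableEq s] [Fintype s]

/-- (+): `E d^u ≤ (Tr ρ^{1-u})^k` -/
theorem cl_iid_pos {io : s → Type} [∀ x, Fintype (io x)] [∀ x, DecidableEq (io x)]
    [∀ x, Nonempty (io x)] {κ : Type} [Fintype κ] [DecidableEq κ] (Q : Finset s)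
    {θ : Cfg io → ℂ} (hθ : star θ ⬝ᵥ θ = 1) {u : ℝ} (hu0 : 0 ≤ u) (hu1 : u ≤ 1) :
    (star (tpow κ θ) ⬝ᵥ (dimPow Q u *ᵥ tpow κ θ)).re ≤
      Scan.renyiTr (ptr Q (pureOp θ)) (1 - u) ^ Fintype.card κ :=
  cm_moment_pos Q hθ hu0

/-- (-): `E d^{-u} ≤ poly(k) (Tr ρ^{1+2u})^{k/2}` -/
theorem cl_iid_neg (io : s → Type) [∀ x, Fintype (io x)] [∀ x, DecidableEq (io x)]
    [∀ x, Nonempty (io x)] :
    ∃ (C : ℝ) (m : ℕ), 1 ≤ C ∧ ∀ (κ : Type) [Fintype κ] [DecidableEq κ] (Q : Finset s)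
      (θ : Cfg io → ℂ), star θ ⬝ᵥ θ = 1 → ∀ u : ℝ, 0 ≤ u → 2 * u ≤ 1 →
      (star (tpow κ θ) ⬝ᵥ (dimPow Q (-u) *ᵥ tpow κ θ)).re ≤
        C * ((Fintype.card κ : ℝ) + 1) ^ m *
          Real.sqrt (Scan.renyiTr (ptr Q (pureOp θ)) (1 + 2 * u) ^ Fintype.card κ) :=
  cli_iid_neg io

end Full

namespace Scan

variable {Λ ι α : Type} [Fintype Λ] [DecidableEq Λ] [Fintype ι]
  {io : Λ → Type} [∀ x, Fintype (io x)] [∀ x, DecidableEq (io x)] [∀ x, Nonempty (io x)]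
  (𝔇 : RepData Λ ι α io) {κ : Type} [Fintype κ] [DecidableEq κ]

/-- **compression to a scalar.**  For `π ∈ Perm (good)`, `ρ = rperm (rmPh Q) (subHom Bᶜ π)`:
`(mPos B * U * mPos B)(c,c') = ∑_e ∏_j X_j(c_j, e_j) ∏_j X_j((ρ⁻¹ e)_j, c'_j)`.  The sum over `e` factorises: the bad copies give
`X_j² = X_j`; on the good copies `mG1(σ,τ) = [σ_aux = τ_aux] Ω(σ_ph) conj Ω(τ_ph)`, the auxiliary parts of `e` are forced, and the sum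
over the physical parts gives `∑ ∏_j conj Ω(e_j) Ω((ρ⁻¹ e)_j) = ⟨Ψ^{⊗good}, U_Q(π) Ψ^{⊗good}⟩` (Bell is normalised). Extend linearly in `y`. -/
theorem cl_rank_one {a0 : ℝ} (hW : 𝔇.WF a0) (B : Finset κ) (Q : Finset Λ)
    (y : GA {j // j ∈ Bᶜ}) :
    𝔇.mPos B * repS (rmPh Q) Bᶜ y * 𝔇.mPos B =
      (star (tpow {j // j ∈ Bᶜ} 𝔇.mPsi) ⬝ᵥ (repQ (rmPh Q) y *ᵥ tpow {j // j ∈ Bᶜ} 𝔇.mPsi)) •
        𝔇.mPos B :=
  clb_rank_one 𝔇 hW B Q y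

/-- physical label functions of the good copies are evaluated in the exact iid state -/
theorem cl_iid_transfer {a0 : ℝ} (hW : 𝔇.WF a0) (B : Finset κ) (Q : Finset Λ)
    {w : RCfg (rmIo io 𝔇.dst) κ → ℂ} (hw : 𝔇.mPos B *ᵥ w = w) (y : GA {j // j ∈ Bᶜ}) :
    star w ⬝ᵥ (repS (rmPh Q) Bᶜ y *ᵥ w) =
      (star (tpow {j // j ∈ Bᶜ} 𝔇.mPsi) ⬝ᵥ (repQ (rmPh Q) y *ᵥ tpow {j // j ∈ Bᶜ} 𝔇.mPsi)) *
        (star w ⬝ᵥ w) :=
  clb_iid_transfer 𝔇 hW B Q hw y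

/-- (comparator:signed-label-moments), positive sign, on the good copies of a component -/
theorem cl_moment_pos {a0 : ℝ} (hW : 𝔇.WF a0) {C0 c0 : ℝ} (B : Finset κ) (Q : Finset Λ)
    (hM : 𝔇.MgfAt C0 c0 Q) {w : RCfg (rmIo io 𝔇.dst) κ → ℂ} (hw : 𝔇.mPos B *ᵥ w = w) {u : ℝ}
    (hu0 : 0 ≤ u) (hu1 : u ≤ 1) (hu : u ≤ c0 / Real.sqrt 𝔇.BB) :
    (star w ⬝ᵥ (dimPowS (rmPh Q) Bᶜ u *ᵥ w)).re ≤
      Real.exp ((Bᶜ.card : ℝ) * (u * ent 𝔇.S.rho Q + C0 * 𝔇.BB * u ^ 2)) * (star w ⬝ᵥ w).re := by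
  have := cp_nonempty 𝔇 hW
  exact clb_moment_pos_of 𝔇 hW B Q hM hw hu0 hu
    (cl_iid_pos (rmPh Q) (co_psi_unit 𝔇 hW) hu0 hu1)

/-- (comparator:signed-label-moments), negative sign, on the good copies of a component -/
theorem cl_moment_neg {a0 : ℝ} (hW : 𝔇.WF a0) :
    ∃ (C : ℝ) (m : ℕ), 1 ≤ C ∧ ∀ (κ : Type) [Fintype κ] [DecidableEq κ] (C0 c0 : ℝ)
      (B : Finset κ) (Q : Finset Λ), 𝔇.MgfAt C0 c0 Q →
      ∀ w : RCfg (rmIo io 𝔇.dst) κ → ℂ, 𝔇.mPos B *ᵥ w = w → ∀ u : ℝ, 0 ≤ u → 2 * u ≤ 1 →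
      2 * u ≤ c0 / Real.sqrt 𝔇.BB →
      (star w ⬝ᵥ (dimPowS (rmPh Q) Bᶜ (-u) *ᵥ w)).re ≤
        C * ((Fintype.card κ : ℝ) + 1) ^ m *
          Real.exp ((Bᶜ.card : ℝ) * (-(u * ent 𝔇.S.rho Q) + 2 * C0 * 𝔇.BB * u ^ 2)) *
          (star w ⬝ᵥ w).re := by
  have := cp_nonempty 𝔇 hW
  obtain ⟨C, m, hC, h⟩ := cl_iid_neg (rmIo io 𝔇.dst)
  refine ⟨C, m, hC, ?_⟩
  intro κ _ _ C0 c0 B Q hM w hw u hu0 hu1 hu
  exact clb_moment_neg_of 𝔇 hW hC B Q hM hw hu0 hu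
    (h {j // j ∈ Bᶜ} (rmPh Q) 𝔇.mPsi (co_psi_unit 𝔇 hW) u hu0 hu1)

end Scan

end Claimed.Agent.R296
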