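import Claimed.Agent.R296.Cmp.LowComp

/-!
# Row 296, P1 Section 7.3, package CL-IID-B: compression to a scalar on the good copies

Owner: helper53.  Prefix `clb`.

Two Kronecker decompositions of the replica configurations:
* `clbCopies S : RCfg io κ ≃ RCfg io S × RCfg io Sᶜ`      (copies in `S` / other copies),
* `clbAux     : RCfg (rmIo io d) κ ≃ RCfg io κ × aux`      (physical / auxiliary sites).
In both, product operators and the relevant permutation operators are Kronecker products, so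
`mPos B * U * mPos B` is computed by `Matrix.mul_kronecker_mul`; the physical factor of the good copies
is the rank one operator `pureOp (tpow Ω)`.  The scalar is identified with the help of `Ψ^{⊗}`.
-/

set_option autoImplicit false
set_option linter.unusedSectionVars false

namespace Claimed.Agent.R296

open Matrix Finset
open scoped ComplexOrder MatrixOrder Kronecker

/-! ### Kronecker products along an equivalence -/

section Kr

variable {X Y Z : Type} [Fintype X] [Fintype Y] [Fintype Z]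

/-- the Kronecker product of `M` and `N`, transported along `Φ : X ≃ Y × Z` -/
def clbKr (Φ : X ≃ Y × Z) (M : Matrix Y Y ℂ) (N : Matrix Z Z ℂ) : Matrix X X ℂ :=
  (M ⊗ₖ N).submatrix Φ Φ

theorem clbKr_apply (Φ : X ≃ Y × Z) (M : Matrix Y Y ℂ) (N : Matrix Z Z ℂ) (c c' : X) :
    clbKr Φ M N c c' = M (Φ c).1 (Φ c').1 * N (Φ c).2 (Φ c').2 := rfl

theorem clbKr_mul (Φ : X ≃ Y × Z) (M M' : Matrix Y Y ℂ) (N N' : Matrix Z Z ℂ) :
    clbKr Φ M N * clbKr Φ M' N' = clbKr Φ (M * M') (N * N') := by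
  unfold clbKr
  rw [Matrix.submatrix_mul_equiv, Matrix.mul_kronecker_mul]

theorem clbKr_smul (Φ : X ≃ Y × Z) (a : ℂ) (M : Matrix Y Y ℂ) (N : Matrix Z Z ℂ) :
    clbKr Φ (a • M) N = a • clbKr Φ M N := by
  unfold clbKr
  rw [Matrix.smul_kronecker]
  rfl

/-- a permutation matrix which acts on the first factor only -/
theorem clbKr_rpMat [DecidableEq X] [DecidableEq Y] [DecidableEq Z] (Φ : X ≃ Y × Z)
    (e : Equiv.Perm X) (f : Equiv.Perm Y) (h : ∀ c, Φ (e c) = (f (Φ c).1, (Φ c).2)) :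
    rpMat e = clbKr Φ (rpMat f) 1 := by
  ext c c'
  rw [clbKr_apply, rpMat_apply, rpMat_apply, Matrix.one_apply]
  have : c = e c' ↔ (Φ c).1 = f (Φ c').1 ∧ (Φ c).2 = (Φ c').2 := by
    rw [← Φ.apply_eq_iff_eq, h c', Prod.ext_iff]
  by_cases h1 : c = e c'
  · obtain ⟨h2, h3⟩ := this.1 h1
    rw [if_pos h1, if_pos h2, if_pos h3, mul_one]
  · rw [if_neg h1]
    by_cases h2 : (Φ c).1 = f (Φ c').1
    · have h3 : ¬ (Φ c).2 = (Φ c').2 := fun h3 => h1 (this.2 ⟨h2, h3⟩)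
      rw [if_neg h3, mul_zero]
    · rw [if_neg h2, zero_mul]

end Kr

/-- compression by a rank one operator -/
theorem clb_pureOp_mul {n : Type} [Fintype n] (v : n → ℂ) (M : Matrix n n ℂ) :
    pureOp v * M * pureOp v = (star v ⬝ᵥ (M *ᵥ v)) • pureOp v := by
  unfold pureOp
  rw [Matrix.mul_assoc, Matrix.mul_vecMulVec, Matrix.vecMulVec_mul_vecMulVec, Matrix.vecMulVec_smul]

/-! ### copies in `S` / other copies -/

section Copies

variable {s : Type} [DecidableEq s] [Fintype s] {io : s → Type}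
  [∀ x, Fintype (io x)] [∀ x, DecidableEq (io x)] {κ : Type} [Fintype κ] [DecidableEq κ]

/-- the copies in `S` and the other copies -/
def clbCopies (S : Finset κ) : RCfg io κ ≃ RCfg io {j // j ∈ S} × RCfg io {j // j ∉ S} where
  toFun c := (fun p => c (p.1.1, p.2), fun p => c (p.1.1, p.2))
  invFun q := fun p => if h : p.1 ∈ S then q.1 (⟨p.1, h⟩, p.2) else q.2 (⟨p.1, h⟩, p.2)
  left_inv c := by
    funext p
    by_cases h : p.1 ∈ S <;> simp [h]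
  right_inv q := by
    rcases q with ⟨a, b⟩
    refine Prod.ext ?_ ?_
    · funext p
      simp [p.1.2]
    · funext p
      simp [p.1.2]

theorem clbCopies_fst_rcopy (S : Finset κ) (c : RCfg io κ) (j : {j // j ∈ S}) :
    rcopy (clbCopies S c).1 j = rcopy c j.1 := rfl

theorem clbCopies_snd_rcopy (S : Finset κ) (c : RCfg io κ) (j : {j // j ∉ S}) :
    rcopy (clbCopies S c).2 j = rcopy c j.1 := rfl

/-- product operators are Kronecker products -/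
theorem clb_tprodOp_copies (S : Finset κ) (X : κ → Matrix (Cfg io) (Cfg io) ℂ) :
    tprodOp X = clbKr (clbCopies S) (tprodOp fun j : {j // j ∈ S} => X j.1)
      (tprodOp fun j : {j // j ∉ S} => X j.1) := by
  ext c c'
  rw [clbKr_apply]
  simp only [tprodOp, Matrix.of_apply, clbCopies_fst_rcopy, clbCopies_snd_rcopy]
  convert (Fintype.prod_subtype_mul_prod_subtype (fun j => j ∈ S)
    (fun j => X j (rcopy c j) (rcopy c' j))).symm

theorem clb_congr_copy (c : RCfg io κ) {j j' : κ} (h : j = j') (x : s) :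
    c (j, x) = c (j', x) := by
  subst h
  rfl

theorem clb_subHom_inv_coe (S : Finset κ) (π : Equiv.Perm {j // j ∈ S}) (j : {j // j ∈ S}) :
    (subHom S π)⁻¹ j.1 = (π⁻¹ j).1 := by
  rw [← map_inv]
  exact Equiv.Perm.ofSubtype_apply_coe _ _

theorem clb_subHom_inv_of_not_mem (S : Finset κ) (π : Equiv.Perm {j // j ∈ S}) {j : κ}
    (hj : j ∉ S) : (subHom S π)⁻¹ j = j := by
  rw [← map_inv]
  exact Equiv.Perm.ofSubtype_apply_of_not_mem _ hj

/-- the permutations of the copies in `S` act on the first factor -/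
theorem clb_UQ_copies (E : Finset s) (S : Finset κ) (π : Equiv.Perm {j // j ∈ S}) :
    UQ (io := io) E (subHom S π) = clbKr (clbCopies S) (UQ E π) 1 := by
  rw [UQ_eq_rpMat, UQ_eq_rpMat]
  refine clbKr_rpMat _ _ _ fun c => ?_
  refine Prod.ext ?_ ?_
  · funext p
    show rperm E (subHom S π) c (p.1.1, p.2) = rperm E π (clbCopies S c).1 p
    rw [rperm_apply, rperm_apply]
    have e : c ((subHom S π)⁻¹ p.1.1, p.2) = c ((π⁻¹ p.1).1, p.2) :=
      clb_congr_copy c (clb_subHom_inv_coe S π p.1) p.2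
    split_ifs
    · exact e
    · rfl
  · funext p
    show rperm E (subHom S π) c (p.1.1, p.2) = c (p.1.1, p.2)
    rw [rperm_apply]
    have e : c ((subHom S π)⁻¹ p.1.1, p.2) = c (p.1.1, p.2) :=
      clb_congr_copy c (clb_subHom_inv_of_not_mem S π p.1.2) p.2
    split_ifs
    · exact e
    · rfl

/-- `repS` as a sum over the permutations of the group -/
theorem clb_repS_eq_sum (E : Finset s) (S : Finset κ) (y : GA {j // j ∈ S}) :
    repS (io := io) E S y = ∑ π : Equiv.Perm {j // j ∈ S}, y.coeff π • UQ E (subHom S π) := by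
  conv_lhs => rw [ga_eq_sum_single y]
  rw [map_sum]
  refine Finset.sum_congr rfl fun π _ => ?_
  unfold repS Rep.gmap
  rw [AlgHom.comp_apply, MonoidAlgebra.mapDomainAlgHom_apply, MonoidAlgebra.mapDomain_single,
    repQ_single]

end Copies

/-! ### physical / auxiliary sites -/

section Aux

variable {Λ : Type} [Fintype Λ] [DecidableEq Λ] {io : Λ → Type} [∀ x, Fintype (io x)]
  [∀ x, DecidableEq (io x)] {d : ℕ} {κ : Type} [Fintype κ] [DecidableEq κ]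

/-- the physical and the auxiliary parts of a replica configuration of the extended system -/
def clbAux : RCfg (rmIo io d) κ ≃ RCfg io κ × (κ → Fin d × Fin d) where
  toFun c := (fun p => c (p.1, Sum.inl p.2), fun j => (c (j, Sum.inr false), c (j, Sum.inr true)))
  invFun q := fun p => match p with
    | (j, Sum.inl y) => q.1 (j, y)
    | (j, Sum.inr false) => (q.2 j).1
    | (j, Sum.inr true) => (q.2 j).2
  left_inv c := by
    funext ⟨j, x⟩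
    rcases x with y | b
    · rfl
    · cases b <;> rfl
  right_inv q := rfl

theorem clbAux_fst_rcopy (c : RCfg (rmIo io d) κ) (j : κ) :
    rcopy (clbAux c).1 j = rmPhys (rcopy c j) := rfl

theorem clbAux_snd (c : RCfg (rmIo io d) κ) (j : κ) :
    (clbAux c).2 j = (rmAtC (rcopy c j), rmAtR (rcopy c j)) := rfl

/-- tensor powers of lifted operators -/
theorem clb_topow_lift (h : Matrix (Cfg io) (Cfg io) ℂ) :
    topow κ (rmLift d h) = clbKr clbAux (topow κ h) 1 := by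
  ext c c'
  rw [clbKr_apply, Matrix.one_apply]
  simp only [topow, rmLift, Matrix.of_apply, clbAux_fst_rcopy]
  rw [Finset.prod_ite_zero]
  have : (∀ j ∈ (Finset.univ : Finset κ), rmAtC (rcopy c j) = rmAtC (rcopy c' j) ∧
      rmAtR (rcopy c j) = rmAtR (rcopy c' j)) ↔ (clbAux c).2 = (clbAux c').2 := by
    constructor
    · intro h
      funext j
      rw [clbAux_snd, clbAux_snd, (h j (Finset.mem_univ j)).1, (h j (Finset.mem_univ j)).2]
    · intro h j _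
      have := congrFun h j
      rw [clbAux_snd, clbAux_snd, Prod.ext_iff] at this
      exact this
  by_cases h1 : (clbAux c).2 = (clbAux c').2
  · rw [if_pos (this.2 h1), if_pos h1, mul_one]
  · rw [if_neg (fun h2 => h1 (this.1 h2)), if_neg h1, mul_zero]

/-- permutations of a physical region -/
theorem clb_UQ_phys (Q : Finset Λ) (π : Equiv.Perm κ) :
    UQ (io := rmIo io d) (rmPh Q) π = clbKr clbAux (UQ Q π) 1 := by
  rw [UQ_eq_rpMat, UQ_eq_rpMat]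
  refine clbKr_rpMat _ _ _ fun c => ?_
  refine Prod.ext ?_ ?_
  · funext p
    show rperm (rmPh Q) π c (p.1, Sum.inl p.2) = rperm Q π (clbAux c).1 p
    rw [rperm_apply, rperm_apply]
    have : (Sum.inl p.2 : Λ ⊕ Bool) ∈ rmPh Q ↔ p.2 ∈ Q := by simp [rmPh]
    by_cases h : p.2 ∈ Q
    · rw [if_pos h, if_pos (this.2 h)]
      rfl
    · rw [if_neg h, if_neg (fun h2 => h (this.1 h2))]
      rfl
  · funext j
    have hn : ∀ b : Bool, (Sum.inr b : Λ ⊕ Bool) ∉ rmPh Q := by intro b; simp [rmPh]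
    refine Prod.ext ?_ ?_
    · show rperm (rmPh Q) π c (j, Sum.inr false) = c (j, Sum.inr false)
      rw [rperm_apply, if_neg (hn false)]
    · show rperm (rmPh Q) π c (j, Sum.inr true) = c (j, Sum.inr true)
      rw [rperm_apply, if_neg (hn true)]

/-- a tensor power of a rank one operator has rank one -/
theorem clb_topow_pureOp (Ω : Cfg io → ℂ) : topow κ (pureOp Ω) = pureOp (tpow κ Ω) := by
  ext c c'
  simp only [topow, pureOp, tpow, Matrix.of_apply, vecMulVec_apply, Pi.star_apply,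
    Finset.prod_mul_distrib, star_prod]

/-- existence of the scalar, all copies good -/
theorem clb_full_scalar (Ω : Cfg io → ℂ) (Q : Finset Λ) (π : Equiv.Perm κ) :
    topow κ (rmLift d (pureOp Ω)) * UQ (rmPh Q) π * topow κ (rmLift d (pureOp Ω)) =
      (star (tpow κ Ω) ⬝ᵥ (UQ Q π *ᵥ tpow κ Ω)) • topow κ (rmLift d (pureOp Ω)) := by
  rw [clb_topow_lift, clb_UQ_phys, clbKr_mul, clbKr_mul, clb_topow_pureOp, clb_pureOp_mul,
    clbKr_smul, Matrix.one_mul, Matrix.one_mul]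

end Aux

/-! ### the model -/

namespace Scan

variable {Λ ι α : Type} [Fintype Λ] [DecidableEq Λ] [Fintype ι]
  {io : Λ → Type} [∀ x, Fintype (io x)] [∀ x, DecidableEq (io x)] [∀ x, Nonempty (io x)]
  (𝔇 : RepData Λ ι α io) {κ : Type} [Fintype κ] [DecidableEq κ]

/-- all copies good: the scalar is the expectation in `Ψ^{⊗κ}` -/
theorem clb_full {a0 : ℝ} (hW : 𝔇.WF a0) (Q : Finset Λ) (π : Equiv.Perm κ) :
    topow κ 𝔇.mG1 * UQ (rmPh Q) π * topow κ 𝔇.mG1 =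
      (star (tpow κ 𝔇.mPsi) ⬝ᵥ (UQ (rmPh Q) π *ᵥ tpow κ 𝔇.mPsi)) • topow κ 𝔇.mG1 := by
  have h : topow κ 𝔇.mG1 * UQ (rmPh Q) π * topow κ 𝔇.mG1 = _ • topow κ 𝔇.mG1 :=
    clb_full_scalar (d := 𝔇.dst) (κ := κ) 𝔇.S.Om Q π
  have hG : topow κ 𝔇.mG1 *ᵥ tpow κ 𝔇.mPsi = tpow κ 𝔇.mPsi := by
    rw [topow_mulVec_tpow, co_G1_psi 𝔇 hW]
  have hH : (topow κ 𝔇.mG1).conjTranspose = topow κ 𝔇.mG1 := by
    rw [topow_conjTranspose, (co_G1_isHermitian 𝔇 hW).eq]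
  have hu : star (tpow κ 𝔇.mPsi) ⬝ᵥ tpow κ 𝔇.mPsi = 1 := by
    rw [tpow_dotProduct, co_psi_unit 𝔇 hW, one_pow]
  have key : star (tpow κ 𝔇.mPsi) ⬝ᵥ (UQ (rmPh Q) π *ᵥ tpow κ 𝔇.mPsi) =
      star (tpow κ 𝔇.S.Om) ⬝ᵥ (UQ Q π *ᵥ tpow κ 𝔇.S.Om) := by
    calc star (tpow κ 𝔇.mPsi) ⬝ᵥ (UQ (rmPh Q) π *ᵥ tpow κ 𝔇.mPsi)
        = star (topow κ 𝔇.mG1 *ᵥ tpow κ 𝔇.mPsi) ⬝ᵥ
            (UQ (rmPh Q) π *ᵥ (topow κ 𝔇.mG1 *ᵥ tpow κ 𝔇.mPsi)) := by rw [hG]
      _ = star (tpow κ 𝔇.mPsi) ⬝ᵥ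
            ((topow κ 𝔇.mG1 * UQ (rmPh Q) π * topow κ 𝔇.mG1) *ᵥ tpow κ 𝔇.mPsi) := by
          rw [star_mulVec, ← dotProduct_mulVec, mulVec_mulVec, mulVec_mulVec, hH,
            Matrix.mul_assoc]
      _ = _ := by
          rw [h, smul_mulVec, hG, dotProduct_smul, hu, smul_eq_mul, mul_one]
  rw [key]
  exact h

/-- compression of a permutation of the physical parts of the good copies -/
theorem clb_rank_one_UQ {a0 : ℝ} (hW : 𝔇.WF a0) (B : Finset κ) (Q : Finset Λ)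
    (π : Equiv.Perm {j // j ∈ Bᶜ}) :
    𝔇.mPos B * UQ (rmPh Q) (subHom Bᶜ π) * 𝔇.mPos B =
      (star (tpow {j // j ∈ Bᶜ} 𝔇.mPsi) ⬝ᵥ (UQ (rmPh Q) π *ᵥ tpow {j // j ∈ Bᶜ} 𝔇.mPsi)) •
        𝔇.mPos B := by
  have hP : 𝔇.mPos B = clbKr (clbCopies Bᶜ) (topow {j // j ∈ Bᶜ} 𝔇.mG1)
      (topow {j // j ∉ Bᶜ} (1 - 𝔇.mG1)) := by
    unfold RepData.mPos
    rw [clb_tprodOp_copies Bᶜ]
    congr 1
    · rw [← tprodOp_const]
      congr 1
      funext j
      rw [if_neg (Finset.mem_compl.1 j.2)]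
    · rw [← tprodOp_const]
      congr 1
      funext j
      have hj : j.1 ∈ B := by
        by_contra hc
        exact j.2 (Finset.mem_compl.2 hc)
      rw [if_pos hj]
  rw [hP, clb_UQ_copies, clbKr_mul, clbKr_mul, clb_full 𝔇 hW, clbKr_smul, Matrix.mul_one,
    ← topow_mul, cp_Q1_sq 𝔇 hW]

/-- **compression to a scalar** -/
theorem clb_rank_one {a0 : ℝ} (hW : 𝔇.WF a0) (B : Finset κ) (Q : Finset Λ)
    (y : GA {j // j ∈ Bᶜ}) :
    𝔇.mPos B * repS (rmPh Q) Bᶜ y * 𝔇.mPos B =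
      (star (tpow {j // j ∈ Bᶜ} 𝔇.mPsi) ⬝ᵥ (repQ (rmPh Q) y *ᵥ tpow {j // j ∈ Bᶜ} 𝔇.mPsi)) •
        𝔇.mPos B := by
  rw [clb_repS_eq_sum, repQ_eq_sum, Finset.mul_sum, Finset.sum_mul, Matrix.sum_mulVec,
    dotProduct_sum, Finset.sum_smul]
  refine Finset.sum_congr rfl fun π _ => ?_
  rw [Matrix.mul_smul, Matrix.smul_mul, clb_rank_one_UQ 𝔇 hW, smul_mulVec, dotProduct_smul,
    smul_smul, smul_eq_mul]

/-- physical label functions of the good copies are evaluated in the exact iid state -/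
theorem clb_iid_transfer {a0 : ℝ} (hW : 𝔇.WF a0) (B : Finset κ) (Q : Finset Λ)
    {w : RCfg (rmIo io 𝔇.dst) κ → ℂ} (hw : 𝔇.mPos B *ᵥ w = w) (y : GA {j // j ∈ Bᶜ}) :
    star w ⬝ᵥ (repS (rmPh Q) Bᶜ y *ᵥ w) =
      (star (tpow {j // j ∈ Bᶜ} 𝔇.mPsi) ⬝ᵥ (repQ (rmPh Q) y *ᵥ tpow {j // j ∈ Bᶜ} 𝔇.mPsi)) *
        (star w ⬝ᵥ w) := by
  calc star w ⬝ᵥ (repS (rmPh Q) Bᶜ y *ᵥ w)
      = star (𝔇.mPos B *ᵥ w) ⬝ᵥ (repS (rmPh Q) Bᶜ y *ᵥ (𝔇.mPos B *ᵥ w)) := by rw [hw]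
    _ = star w ⬝ᵥ ((𝔇.mPos B * repS (rmPh Q) Bᶜ y * 𝔇.mPos B) *ᵥ w) := by
        rw [star_mulVec, ← dotProduct_mulVec, mulVec_mulVec, mulVec_mulVec,
          (cp_pos_isHermitian 𝔇 hW B).eq, Matrix.mul_assoc]
    _ = _ := by
        rw [clb_rank_one 𝔇 hW, smul_mulVec, hw, dotProduct_smul, smul_eq_mul]

/-! ### moments -/

theorem clb_renyiTr_nonneg {n : Type} [Fintype n] [DecidableEq n] (M : Matrix n n ℂ) (r : ℝ) :
    0 ≤ renyiTr M r := by
  unfold renyiTr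
  refine Multiset.sum_nonneg fun x hx => ?_
  obtain ⟨p, -, rfl⟩ := Multiset.mem_map.1 hx
  split_ifs with h
  · exact Real.rpow_nonneg h.le _
  · exact le_rfl

theorem clb_pow_le_exp {x b : ℝ} (hx : 0 ≤ x) (h : Real.log x ≤ b) (k : ℕ) :
    x ^ k ≤ Real.exp (k * b) := by
  have h1 : x ≤ Real.exp b := by
    rcases hx.eq_or_lt with h0 | h0
    · rw [← h0]; exact (Real.exp_pos _).le
    · calc x = Real.exp (Real.log x) := (Real.exp_log h0).symm
        _ ≤ Real.exp b := Real.exp_le_exp.2 h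
  calc x ^ k ≤ Real.exp b ^ k := pow_le_pow_left₀ hx h1 k
    _ = Real.exp (k * b) := (Real.exp_nat_mul b k).symm

/-- a bound in the iid state gives a bound on every vector in the range of `mPos B` -/
theorem clb_moment_of {a0 : ℝ} (hW : 𝔇.WF a0) (B : Finset κ) (Q : Finset Λ)
    {w : RCfg (rmIo io 𝔇.dst) κ → ℂ} (hw : 𝔇.mPos B *ᵥ w = w) (b : ℝ) {M : ℝ}
    (hM : (star (tpow {j // j ∈ Bᶜ} 𝔇.mPsi) ⬝ᵥ
      (cenQ (rmPh Q) (fun i => ((((Rep.dimI i : ℕ) : ℝ) ^ b : ℝ) : ℂ)) *ᵥ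
        tpow {j // j ∈ Bᶜ} 𝔇.mPsi)).re ≤ M) :
    (star w ⬝ᵥ (dimPowS (rmPh Q) Bᶜ b *ᵥ w)).re ≤ M * (star w ⬝ᵥ w).re := by
  have h0 := Complex.le_def.1 (dotProduct_star_self_nonneg w)
  simp only [Complex.zero_re, Complex.zero_im] at h0
  unfold dimPowS cenS
  rw [clb_iid_transfer 𝔇 hW B Q hw, Complex.mul_re, ← h0.2, mul_zero, sub_zero]
  exact mul_le_mul_of_nonneg_right hM h0.1

/-- positive sign -/
theorem clb_moment_pos_of {a0 : ℝ} (hW : 𝔇.WF a0) {C0 c0 : ℝ} (B : Finset κ) (Q : Finset Λ)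
    (hM : 𝔇.MgfAt C0 c0 Q) {w : RCfg (rmIo io 𝔇.dst) κ → ℂ} (hw : 𝔇.mPos B *ᵥ w = w) {u : ℝ}
    (hu0 : 0 ≤ u) (hu : u ≤ c0 / Real.sqrt 𝔇.BB)
    (hiid : (star (tpow {j // j ∈ Bᶜ} 𝔇.mPsi) ⬝ᵥ
      (cenQ (rmPh Q) (fun i => ((((Rep.dimI i : ℕ) : ℝ) ^ u : ℝ) : ℂ)) *ᵥ
        tpow {j // j ∈ Bᶜ} 𝔇.mPsi)).re ≤
      renyiTr (ptr (rmPh Q) (pureOp 𝔇.mPsi)) (1 - u) ^ Fintype.card {j // j ∈ Bᶜ}) :
    (star w ⬝ᵥ (dimPowS (rmPh Q) Bᶜ u *ᵥ w)).re ≤
      Real.exp ((Bᶜ.card : ℝ) * (u * ent 𝔇.S.rho Q + C0 * 𝔇.BB * u ^ 2)) * (star w ⬝ᵥ w).re := by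
  refine clb_moment_of 𝔇 hW B Q hw u (hiid.trans ?_)
  rw [co_renyi_psi 𝔇 hW, Fintype.card_coe]
  exact clb_pow_le_exp (clb_renyiTr_nonneg _ _) (hM u (by rwa [abs_of_nonneg hu0])) _

/-- negative sign -/
theorem clb_moment_neg_of {a0 : ℝ} (hW : 𝔇.WF a0) {C : ℝ} {m : ℕ} (hC : 1 ≤ C) {C0 c0 : ℝ}
    (B : Finset κ) (Q : Finset Λ) (hM : 𝔇.MgfAt C0 c0 Q) {w : RCfg (rmIo io 𝔇.dst) κ → ℂ}
    (hw : 𝔇.mPos B *ᵥ w = w) {u : ℝ} (hu0 : 0 ≤ u) (hu : 2 * u ≤ c0 / Real.sqrt 𝔇.BB)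
    (hiid : (star (tpow {j // j ∈ Bᶜ} 𝔇.mPsi) ⬝ᵥ
      (cenQ (rmPh Q) (fun i => ((((Rep.dimI i : ℕ) : ℝ) ^ (-u) : ℝ) : ℂ)) *ᵥ
        tpow {j // j ∈ Bᶜ} 𝔇.mPsi)).re ≤
      C * ((Fintype.card {j // j ∈ Bᶜ} : ℝ) + 1) ^ m * Real.sqrt
        (renyiTr (ptr (rmPh Q) (pureOp 𝔇.mPsi)) (1 + 2 * u) ^ Fintype.card {j // j ∈ Bᶜ})) :
    (star w ⬝ᵥ (dimPowS (rmPh Q) Bᶜ (-u) *ᵥ w)).re ≤
      C * ((Fintype.card κ : ℝ) + 1) ^ m *
        Real.exp ((Bᶜ.card : ℝ) * (-(u * ent 𝔇.S.rho Q) + 2 * C0 * 𝔇.BB * u ^ 2)) *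
        (star w ⬝ᵥ w).re := by
  refine clb_moment_of 𝔇 hW B Q hw (-u) (hiid.trans ?_)
  rw [co_renyi_psi 𝔇 hW, Fintype.card_coe]
  have h1 : renyiTr (ptr Q 𝔇.S.rho) (1 + 2 * u) ^ Bᶜ.card ≤
      Real.exp ((Bᶜ.card : ℝ) * (-(u * ent 𝔇.S.rho Q) + 2 * C0 * 𝔇.BB * u ^ 2)) ^ 2 := by
    have h2 := hM (-(2 * u)) (by rw [abs_neg, abs_of_nonneg (by linarith)]; exact hu)
    rw [sub_neg_eq_add] at h2
    refine (clb_pow_le_exp (clb_renyiTr_nonneg _ _) h2 _).trans (le_of_eq ?_)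
    rw [← Real.exp_nat_mul]
    congr 1
    push_cast
    ring
  have h3 : Real.sqrt (renyiTr (ptr Q 𝔇.S.rho) (1 + 2 * u) ^ Bᶜ.card) ≤
      Real.exp ((Bᶜ.card : ℝ) * (-(u * ent 𝔇.S.rho Q) + 2 * C0 * 𝔇.BB * u ^ 2)) := by
    refine (Real.sqrt_le_sqrt h1).trans (le_of_eq ?_)
    exact Real.sqrt_sq (Real.exp_pos _).le
  have h4 : ((Bᶜ.card : ℝ) + 1) ^ m ≤ ((Fintype.card κ : ℝ) + 1) ^ m := by
    refine pow_le_pow_left₀ (by positivity) ?_ m
    have : Bᶜ.card ≤ Fintype.card κ := Finset.card_le_univ _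
    have : (Bᶜ.card : ℝ) ≤ Fintype.card κ := by exact_mod_cast this
    linarith
  have hC0 : 0 ≤ C := by linarith
  exact mul_le_mul (mul_le_mul_of_nonneg_left h4 hC0) h3 (Real.sqrt_nonneg _) (by positivity)

end Scan

end Claimed.Agent.R296
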