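import Claimed.Agent.R296.Cmp.LowDefs
import Claimed.Agent.R296.Replica.Transfer

/-!
# Row 296, P1 Section 7.3: transfer `Rep.tRep → repS` for a group of copies

Owner: helper167 (part of package CL-MERGE; also used by CL-GRP-B).  Prefix `clt_`.

`repS Q S y = repQ Q (gmap (subHom S) y) = liftQ Q (tRep (CfgOn io Q) κ (gmap (subHom S) y))`, and in the basis `κ → A`
`tRep A κ (gmap (subHom S) y) f g = [f = g off S] * tRep A S y (f|S) (g|S)` (`clt_tRep_gmap_apply`), i.e. `tRep A S y ⊗ 1`.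
Consequences: `clt_repS_eq_zero`, `clt_repS_ne_zero_iff`, `clt_labS_ne_zero_iff`, `clt_labS_occurs`.
-/

set_option autoImplicit false
set_option linter.unusedSectionVars false

namespace Claimed.Agent.R296

open Matrix Finset
open scoped ComplexOrder

section Abstract

variable {κ : Type} [Fintype κ] [DecidableEq κ] {A : Type} [Fintype A] [DecidableEq A]

theorem clt_comp_ofSubtype_iff (S : Finset κ) (π : Equiv.Perm {j // j ∈ S}) (f g : κ → A) :
    f ∘ (subHom S π) = g ↔
      ((fun j : {j // j ∈ S} => f j) ∘ π = fun j : {j // j ∈ S} => g j) ∧ ∀ j, j ∉ S → f j = g j := by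
  constructor
  · intro h
    refine ⟨?_, ?_⟩
    · funext j
      have := congrFun h j
      simp only [Function.comp_apply, subHom, Equiv.Perm.ofSubtype_apply_coe] at this ⊢
      exact this
    · intro j hj
      have := congrFun h j
      simp only [Function.comp_apply, subHom, Equiv.Perm.ofSubtype_apply_of_not_mem π hj] at this
      exact this
  · rintro ⟨h1, h2⟩
    funext j
    by_cases hj : j ∈ S
    · have := congrFun h1 ⟨j, hj⟩
      simp only [Function.comp_apply] at this ⊢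
      rw [← this, subHom, Equiv.Perm.ofSubtype_apply_of_mem π hj]
    · simp only [Function.comp_apply, subHom, Equiv.Perm.ofSubtype_apply_of_not_mem π hj]
      exact h2 j hj

theorem clt_tRep_gmap_apply (S : Finset κ) (y : GA {j // j ∈ S}) (f g : κ → A) :
    Rep.tRep A κ (Rep.gmap (subHom S) y) f g =
      if ∀ j, j ∉ S → f j = g j then
        Rep.tRep A {j // j ∈ S} y (fun j => f j) (fun j => g j) else 0 := by
  have h1 : Rep.tRep A κ (Rep.gmap (subHom S) y) = ∑ π, y.coeff π • Rep.tU A κ (subHom S π) := by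
    rw [Rep.gmap_eq_sum, map_sum]
    refine Finset.sum_congr rfl fun π _ => ?_
    rw [map_smul, Rep.tRep, Rep.repAlg_of]
  have h2 : Rep.tRep A {j // j ∈ S} y = ∑ π, y.coeff π • Rep.tU A {j // j ∈ S} π :=
    Rep.repAlg_eq_sum _ y
  rw [h1, h2]
  simp only [Matrix.sum_apply, Matrix.smul_apply, Rep.tU_apply, clt_comp_ofSubtype_iff]
  by_cases h : ∀ j, j ∉ S → f j = g j
  · rw [if_pos h]
    refine Finset.sum_congr rfl fun π _ => ?_
    simp only [and_iff_left h]
  · rw [if_neg h]
    refine Finset.sum_eq_zero fun π _ => ?_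
    rw [if_neg (fun hh => h hh.2), smul_zero]

theorem clt_tRep_gmap_eq_zero (S : Finset κ) (y : GA {j // j ∈ S})
    (h : Rep.tRep A {j // j ∈ S} y = 0) : Rep.tRep A κ (Rep.gmap (subHom S) y) = 0 := by
  ext f g
  rw [clt_tRep_gmap_apply, h]
  simp

theorem clt_tRep_gmap_ne_zero [Nonempty A] (S : Finset κ) (y : GA {j // j ∈ S})
    (h : Rep.tRep A {j // j ∈ S} y ≠ 0) : Rep.tRep A κ (Rep.gmap (subHom S) y) ≠ 0 := by
  intro h0
  apply h
  ext f g
  have a₀ : A := Classical.arbitrary A
  have := congrFun (congrFun h0 (fun j => if hj : j ∈ S then f ⟨j, hj⟩ else a₀))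
    (fun j => if hj : j ∈ S then g ⟨j, hj⟩ else a₀)
  rw [clt_tRep_gmap_apply, if_pos (fun j hj => by simp [hj])] at this
  simpa using this

end Abstract

variable {s : Type} [DecidableEq s] [Fintype s] {io : s → Type}
  [∀ x, Fintype (io x)] [∀ x, DecidableEq (io x)] {κ : Type} [Fintype κ] [DecidableEq κ]

theorem clt_repS_eq_liftQ (Q : Finset s) (S : Finset κ) (y : GA {j // j ∈ S}) :
    repS (io := io) Q S y = liftQ Q (Rep.tRep (CfgOn io Q) κ (Rep.gmap (subHom S) y)) :=
  repQ_eq_liftQ Q _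

theorem clt_repS_eq_zero (Q : Finset s) (S : Finset κ) (y : GA {j // j ∈ S})
    (h : Rep.tRep (CfgOn io Q) {j // j ∈ S} y = 0) : repS (io := io) Q S y = 0 := by
  rw [clt_repS_eq_liftQ, clt_tRep_gmap_eq_zero S y h, liftQ_zero]

theorem clt_liftQ_ne_zero [∀ x, Nonempty (io x)] (Q : Finset s)
    {M : Matrix (κ → CfgOn io Q) (κ → CfgOn io Q) ℂ} (h : M ≠ 0) : liftQ Q M ≠ 0 := by
  intro h0
  apply h
  ext f g
  have r₀ : κ → CfgOff io Q := fun _ _ => Classical.arbitrary _
  have := congrFun (congrFun h0 ((rsplit Q).symm (f, r₀))) ((rsplit Q).symm (g, r₀))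
  rw [liftQ_apply] at this
  simpa using this

theorem clt_repS_ne_zero_iff [∀ x, Nonempty (io x)] (Q : Finset s) (S : Finset κ)
    (y : GA {j // j ∈ S}) :
    repS (io := io) Q S y ≠ 0 ↔ Rep.tRep (CfgOn io Q) {j // j ∈ S} y ≠ 0 := by
  constructor
  · intro h h0
    exact h (clt_repS_eq_zero Q S y h0)
  · intro h
    have : Nonempty (CfgOn io Q) := ⟨fun _ => Classical.arbitrary _⟩
    rw [clt_repS_eq_liftQ]
    exact clt_liftQ_ne_zero Q (clt_tRep_gmap_ne_zero S y h)

/-- occurrence of a label of a group of copies, in terms of `Rep.tRep` -/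
theorem clt_labS_ne_zero_iff [∀ x, Nonempty (io x)] (Q : Finset s) (S : Finset κ)
    (α : Rep.Irr (Equiv.Perm {j // j ∈ S})) :
    labS (io := io) Q S α ≠ 0 ↔ Rep.tRep (CfgOn io Q) {j // j ∈ S} (Rep.idem α) ≠ 0 :=
  clt_repS_ne_zero_iff Q S _

/-- the direction which needs no nonemptiness -/
theorem clt_tRep_ne_zero_of_labS (Q : Finset s) (S : Finset κ)
    (α : Rep.Irr (Equiv.Perm {j // j ∈ S})) (h : labS (io := io) Q S α ≠ 0) :
    Rep.tRep (CfgOn io Q) {j // j ∈ S} (Rep.idem α) ≠ 0 :=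
  fun h0 => h (clt_repS_eq_zero Q S _ h0)

/-- labels which occur on `|S|` copies of `Q` -/
theorem clt_labS_occurs (Q : Finset s) (S : Finset κ) (α : Rep.Irr (Equiv.Perm {j // j ∈ S}))
    (h : labS (io := io) Q S α ≠ 0) :
    Rep.dimI α ≤ Fintype.card (CfgOn io Q) ^ S.card := by
  have := Rep.dimI_le_card_pow α (clt_tRep_ne_zero_of_labS Q S α h)
  rwa [Fintype.card_coe] at this

end Claimed.Agent.R296
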