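import Claimed.Agent.R296.Cmp.LowGrp
import Claimed.Agent.R296.Cmp.LowTr
import Claimed.Agent.R296.Rep.Merge

/-!
# Row 296, P1 Section 7.3, package CL-MERGE: exponential moments of the merge deficit
(eqs. replicas:merge-moment, comparator:merge-moments)

Architect: helper239.  Proofs: helper167 (auxiliary lemmas: prefix `clm`; the abstract core is `Rep/Merge.lean` of helper116,
the transfer `tRep → repS` is `Cmp/LowTr.lean`).

`cl_merge_moment`: let `Q, E` be disjoint regions with "mirror partners" `Q', E'`: the vector `w` is fixed by the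
permutations (of the copies in `S`) of `Q ∪ Q'` and of `E ∪ E'`.  Then `⟨w, e^{b D} w⟩ ≤ poly(k) ‖w‖²`, `0 ≤ b ≤ 1`,
`D = F_Q + F_E - F_{QE}`.  NO product structure and NO marginal is needed:

1. `φ(y, y') := ⟨w, repS Q S y * repS E S y' w⟩` is SEPARATELY TRACIAL.  For group elements
   `⟨w, U_Q(σ) U_Q(σ') U_E(y') w⟩ = ⟨w, U_Q(σ) U_E(y') U_{Q'}(σ'⁻¹) w⟩` (mirror `U_Q(σ') w = U_{Q'}(σ'⁻¹) w`, `Q ⊥ E`)
   `= ⟨U_{Q'}(σ') w, U_Q(σ) U_E(y') w⟩` (`Q' ⊥ Q, E`) `= ⟨U_Q(σ'⁻¹) w, …⟩ = ⟨w, U_Q(σ') U_Q(σ) U_E(y') w⟩`.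
2. `Rep.bitracial_merge` (+ `UQ_union`): `⟨w, π_Q^α π_E^β π_{QE}^ν w⟩ = φ(e_α, e_β) g_{αβν} d_ν / (d_α d_β)`.
3. `φ(e_α, e_β) ≥ 0`, `∑ φ(e_α, e_β) = ‖w‖²`, and `φ(e_α, e_β) ≠ 0` forces `labS Q S α ≠ 0`, `labS E S β ≠ 0`.
4. `∑_ν g_{αβν} (d_ν / (d_α d_β))^{1-b} ≤ ∑_ν g_{αβν} ≤ poly(k)` for labels which occur: `cl_kron_sum_le`
   (pure representation theory: `Rep.kronMult_le` for `U₁ = tU α₁ ⊗ 1`, `U₂ = 1 ⊗ tU α₂` on `(κ → α₁) × (κ → α₂) ≃ (κ → α₁ × α₂)`,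
   `Rep.trace_tRep_idem_le`, `Rep.card_occurring_le`, and `Tr (π^α ⊗ π^β) ≥ d_α d_β` when both are nonzero: `Rep.dimI_le_trace`).
-/

set_option autoImplicit false
set_option linter.unusedSectionVars false

namespace Claimed.Agent.R296

open Matrix Finset
open scoped ComplexOrder MatrixOrder

/-- the Kronecker multiplicities of labels which occur in tensor powers are polynomially bounded -/
theorem cl_kron_sum_le (d : ℕ) :
    ∃ (C : ℝ) (m : ℕ), 1 ≤ C ∧ ∀ (κ : Type) [Fintype κ] [DecidableEq κ]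
      (α₁ α₂ : Type) [Fintype α₁] [DecidableEq α₁] [Fintype α₂] [DecidableEq α₂],
      Fintype.card α₁ * Fintype.card α₂ ≤ d → ∀ i j : Rep.Irr (Equiv.Perm κ),
      Rep.tRep α₁ κ (Rep.idem i) ≠ 0 → Rep.tRep α₂ κ (Rep.idem j) ≠ 0 →
      ∑ l, (Rep.kronMult i j l).re ≤ C * ((Fintype.card κ : ℝ) + 1) ^ m := by
  refine ⟨((d : ℝ) + 1) ^ (d * (d - 1) / 2), d + d * (d - 1) / 2,
    one_le_pow₀ (by have : (0 : ℝ) ≤ d := Nat.cast_nonneg d; linarith), ?_⟩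
  intro κ _ _ α₁ α₂ _ _ _ _ hd i j hi hj
  refine (Rep.sum_kronMult_le d hd i j hi hj).trans ?_
  have hk : (0 : ℝ) ≤ Fintype.card κ := Nat.cast_nonneg _
  have hd0 : (0 : ℝ) ≤ d := Nat.cast_nonneg d
  have h1 : (Fintype.card κ : ℝ) + d ≤ ((d : ℝ) + 1) * ((Fintype.card κ : ℝ) + 1) := by nlinarith
  calc ((Fintype.card κ : ℝ) + 1) ^ d * ((Fintype.card κ : ℝ) + d) ^ (d * (d - 1) / 2)
      ≤ ((Fintype.card κ : ℝ) + 1) ^ d *
          (((d : ℝ) + 1) * ((Fintype.card κ : ℝ) + 1)) ^ (d * (d - 1) / 2) := by gcongr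
    _ = _ := by rw [mul_pow, pow_add]; ring

section Abstract

variable {G : Type} [Group G] [Fintype G] {n : Type} [Fintype n] [DecidableEq n]

theorem clm_commute_repAlg (V U : G →* Matrix n n ℂ) (h : ∀ g h, V g * U h = U h * V g) (g : G)
    (a : Rep.GA G) : V g * Rep.repAlg U a = Rep.repAlg U a * V g := by
  rw [Rep.repAlg_eq_sum, Finset.mul_sum, Finset.sum_mul]
  refine Finset.sum_congr rfl fun x _ => ?_
  rw [Matrix.mul_smul, Matrix.smul_mul, h]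

/-- a mirror representation makes the form tracial in the first argument -/
theorem clm_tracial_left (U₁ U₂ V : G →* Matrix n n ℂ) (hU₁ : ∀ g, (U₁ g)ᴴ = U₁ g⁻¹)
    (hV : ∀ g, (V g)ᴴ = V g⁻¹) (hc : ∀ g h, U₁ g * U₂ h = U₂ h * U₁ g)
    (hV1 : ∀ g h, V g * U₁ h = U₁ h * V g) (hV2 : ∀ g h, V g * U₂ h = U₂ h * V g) (w : n → ℂ)
    (hm : ∀ g, U₁ g *ᵥ w = V g⁻¹ *ᵥ w) (a a' b : Rep.GA G) :
    Rep.mgForm U₁ U₂ w (a * a') b = Rep.mgForm U₁ U₂ w (a' * a) b := by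
  have key : ∀ g : G, Rep.mgForm U₁ U₂ w (a * MonoidAlgebra.of ℂ G g) b
      = Rep.mgForm U₁ U₂ w (MonoidAlgebra.of ℂ G g * a) b := by
    intro g
    rw [Rep.mgForm_apply, Rep.mgForm_apply, map_mul, map_mul, Rep.repAlg_of]
    obtain ⟨X, hX⟩ : ∃ X, X = Rep.repAlg U₁ a * Rep.repAlg U₂ b := ⟨_, rfl⟩
    have e1 : Rep.repAlg U₁ a * U₁ g * Rep.repAlg U₂ b = X * U₁ g := by
      rw [hX, Matrix.mul_assoc, clm_commute_repAlg U₁ U₂ hc g b, ← Matrix.mul_assoc]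
    have e2 : V g⁻¹ * X = X * V g⁻¹ := by
      rw [hX, ← Matrix.mul_assoc, clm_commute_repAlg V U₁ hV1, Matrix.mul_assoc,
        clm_commute_repAlg V U₂ hV2, ← Matrix.mul_assoc]
    have e3 : U₁ g * Rep.repAlg U₁ a * Rep.repAlg U₂ b = U₁ g * X := by
      rw [hX, Matrix.mul_assoc]
    have s1 : star w ⬝ᵥ ((X * U₁ g) *ᵥ w) = star (V g *ᵥ w) ⬝ᵥ (X *ᵥ w) := by
      rw [← Matrix.mulVec_mulVec, hm g, Matrix.mulVec_mulVec, ← e2, ← Matrix.mulVec_mulVec,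
        tr_dot_conjTranspose, hV, inv_inv]
    have s2 : star w ⬝ᵥ ((U₁ g * X) *ᵥ w) = star (V g *ᵥ w) ⬝ᵥ (X *ᵥ w) := by
      rw [← Matrix.mulVec_mulVec, tr_dot_conjTranspose, hU₁, hm g⁻¹, inv_inv]
    rw [e1, e3, s1, s2]
  rw [Rep.ga_eq_sum_coeff a', Finset.mul_sum, Finset.sum_mul, map_sum, map_sum,
    LinearMap.sum_apply, LinearMap.sum_apply]
  refine Finset.sum_congr rfl fun g _ => ?_
  rw [mul_smul_comm, smul_mul_assoc, map_smul, map_smul, LinearMap.smul_apply,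
    LinearMap.smul_apply, key]

theorem clm_mgForm_swap (U₁ U₂ : G →* Matrix n n ℂ) (hc : ∀ g h, U₁ g * U₂ h = U₂ h * U₁ g)
    (w : n → ℂ) (a b : Rep.GA G) : Rep.mgForm U₁ U₂ w a b = Rep.mgForm U₂ U₁ w b a := by
  rw [Rep.mgForm_apply, Rep.mgForm_apply, Rep.repAlg_commute U₁ U₂ hc]

end Abstract

variable {s : Type} [DecidableEq s] [Fintype s]

/-- occurrence of a label of a group of copies, in terms of `Rep.tRep` -/
theorem cl_labS_ne_zero_iff {io : s → Type} [∀ x, Fintype (io x)] [∀ x, DecidableEq (io x)]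
    [∀ x, Nonempty (io x)] {κ : Type} [Fintype κ] [DecidableEq κ] (Q : Finset s) (S : Finset κ)
    (α : Rep.Irr (Equiv.Perm {j // j ∈ S})) :
    labS (io := io) Q S α ≠ 0 ↔ Rep.tRep (CfgOn io Q) {j // j ∈ S} (Rep.idem α) ≠ 0 :=
  clt_labS_ne_zero_iff Q S α

section Concrete

variable {io : s → Type} [∀ x, Fintype (io x)] [∀ x, DecidableEq (io x)]
  {κ : Type} [Fintype κ] [DecidableEq κ]

/-- the permutations of the copies in `S` acting on the region `Q` -/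
noncomputable def clmU (Q : Finset s) (S : Finset κ) :
    Equiv.Perm {j // j ∈ S} →* Matrix (RCfg io κ) (RCfg io κ) ℂ :=
  (UQhom Q).comp (subHom S)

theorem clmU_apply (Q : Finset s) (S : Finset κ) (π : Equiv.Perm {j // j ∈ S}) :
    clmU (io := io) Q S π = UQ Q (subHom S π) := rfl

theorem clmU_conjTranspose (Q : Finset s) (S : Finset κ) (π : Equiv.Perm {j // j ∈ S}) :
    (clmU (io := io) Q S π)ᴴ = clmU Q S π⁻¹ := by
  rw [clmU_apply, UQ_conjTranspose, clmU_apply, map_inv]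

theorem clmU_commute {Q E : Finset s} (h : Disjoint Q E) (S : Finset κ)
    (g g' : Equiv.Perm {j // j ∈ S}) :
    clmU (io := io) Q S g * clmU E S g' = clmU E S g' * clmU Q S g :=
  (UQ_commute_disjoint h _ _).eq

theorem clmU_mulRep {Q E : Finset s} (h : Disjoint Q E) (S : Finset κ) :
    Rep.mulRep (clmU (io := io) Q S) (clmU E S) (clmU_commute h S) = clmU (Q ∪ E) S := by
  ext1 g
  rw [Rep.mulRep_apply, clmU_apply, clmU_apply, clmU_apply, UQ_union h]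

theorem clm_labS_eq (Q : Finset s) (S : Finset κ) (α : Rep.Irr (Equiv.Perm {j // j ∈ S})) :
    labS (io := io) Q S α = Rep.repAlg (clmU Q S) (Rep.idem α) :=
  repS_eq_repAlg Q S _

theorem clm_mirror {Q Q' : Finset s} (h : Disjoint Q Q') {S : Finset κ} {w : RCfg io κ → ℂ}
    (hw : FixS (Q ∪ Q') S w) (g : Equiv.Perm {j // j ∈ S}) :
    clmU Q S g *ᵥ w = clmU Q' S g⁻¹ *ᵥ w := by
  have h1 : clmU Q' S g *ᵥ (clmU Q S g *ᵥ w) = w := by
    have h2 := hw g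
    rw [UQ_union h, (UQ_commute_disjoint h _ _).eq, ← Matrix.mulVec_mulVec] at h2
    exact h2
  calc clmU Q S g *ᵥ w = (clmU Q' S g⁻¹ * clmU Q' S g) *ᵥ (clmU Q S g *ᵥ w) := by
        rw [← map_mul, inv_mul_cancel, map_one, Matrix.one_mulVec]
    _ = clmU Q' S g⁻¹ *ᵥ w := by rw [← Matrix.mulVec_mulVec, h1]

theorem clm_tracial {S : Finset κ} {Q Q' E E' : Finset s}
    (hQQ' : Disjoint Q Q') (hEE' : Disjoint E E') (hQE : Disjoint Q E) (hQE' : Disjoint Q E')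
    (hQ'E : Disjoint Q' E) {w : RCfg io κ → ℂ} (h1 : FixS (Q ∪ Q') S w) (h2 : FixS (E ∪ E') S w) :
    (∀ a a' b, Rep.mgForm (clmU Q S) (clmU E S) w (a * a') b
        = Rep.mgForm (clmU Q S) (clmU E S) w (a' * a) b) ∧
    (∀ a b b', Rep.mgForm (clmU Q S) (clmU E S) w a (b * b')
        = Rep.mgForm (clmU Q S) (clmU E S) w a (b' * b)) := by
  refine ⟨?_, ?_⟩
  · exact clm_tracial_left (clmU Q S) (clmU E S) (clmU Q' S) (clmU_conjTranspose Q S)
      (clmU_conjTranspose Q' S) (clmU_commute hQE S) (clmU_commute hQQ'.symm S)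
      (clmU_commute hQ'E S) w (clm_mirror hQQ' h1)
  · intro a b b'
    rw [clm_mgForm_swap _ _ (clmU_commute hQE S), clm_mgForm_swap _ _ (clmU_commute hQE S)]
    exact clm_tracial_left (clmU E S) (clmU Q S) (clmU E' S) (clmU_conjTranspose E S)
      (clmU_conjTranspose E' S) (clmU_commute hQE.symm S) (clmU_commute hEE'.symm S)
      (clmU_commute hQE'.symm S) w (clm_mirror hEE' h2) b b' a

end Concrete

/-- the law of the three labels (step 2) -/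
theorem cl_merge_law {io : s → Type} [∀ x, Fintype (io x)] [∀ x, DecidableEq (io x)]
    {κ : Type} [Fintype κ] [DecidableEq κ] {S : Finset κ} {Q Q' E E' : Finset s}
    (hQQ' : Disjoint Q Q') (hEE' : Disjoint E E') (hQE : Disjoint Q E) (hQE' : Disjoint Q E')
    (hQ'E : Disjoint Q' E) {w : RCfg io κ → ℂ} (h1 : FixS (Q ∪ Q') S w) (h2 : FixS (E ∪ E') S w)
    (α β ν : Rep.Irr (Equiv.Perm {j // j ∈ S})) :
    star w ⬝ᵥ ((labS Q S α * labS E S β * labS (Q ∪ E) S ν) *ᵥ w) =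
      (star w ⬝ᵥ ((labS Q S α * labS E S β) *ᵥ w)) *
        (Rep.kronMult α β ν * Rep.dimI ν / ((Rep.dimI α : ℂ) * Rep.dimI β)) := by
  obtain ⟨t1, t2⟩ := clm_tracial hQQ' hEE' hQE hQE' hQ'E h1 h2
  have h := Rep.merge_quad (clmU Q S) (clmU E S) (clmU_commute hQE S) w t1 t2 α β ν
  rw [clmU_mulRep hQE S, Rep.mgForm_apply] at h
  rw [clm_labS_eq, clm_labS_eq, clm_labS_eq]
  exact h

theorem clm_rpow_merge (x y z : ℕ) (b : ℝ) :
    (((x : ℝ) ^ b : ℝ) : ℂ) * (((y : ℝ) ^ b : ℝ) : ℂ) * (((z : ℝ) ^ (-b) : ℝ) : ℂ)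
      = ((((x : ℝ) * y / z) ^ b : ℝ) : ℂ) := by
  rw [Real.div_rpow (by positivity) (by positivity), Real.mul_rpow (by positivity) (by positivity),
    Real.rpow_neg (by positivity), div_eq_mul_inv]
  push_cast
  rfl

theorem clm_mergeS_eq_sum {io : s → Type} [∀ x, Fintype (io x)] [∀ x, DecidableEq (io x)]
    {κ : Type} [Fintype κ] [DecidableEq κ] (Q E : Finset s) (S : Finset κ) (b : ℝ) :
    mergeS (io := io) Q E S b = ∑ i, ∑ j, ∑ l,
      (((((Rep.dimI i : ℕ) : ℝ) * ((Rep.dimI j : ℕ) : ℝ) / ((Rep.dimI l : ℕ) : ℝ)) ^ b : ℝ) : ℂ) •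
        (labS Q S i * labS E S j * labS (Q ∪ E) S l) := by
  rw [mergeS, dimPowS_eq_sum, dimPowS_eq_sum, dimPowS_eq_sum, Finset.sum_mul_sum, Finset.sum_mul]
  refine Finset.sum_congr rfl fun i _ => ?_
  rw [Finset.sum_mul]
  refine Finset.sum_congr rfl fun j _ => ?_
  rw [Finset.mul_sum]
  refine Finset.sum_congr rfl fun l _ => ?_
  simp only [Matrix.smul_mul, Matrix.mul_smul, smul_smul]
  rw [← clm_rpow_merge]
  congr 1
  ring

/-- **(comparator:merge-moments)** -/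
theorem cl_merge_moment (io : s → Type) [∀ x, Fintype (io x)] [∀ x, DecidableEq (io x)]
    [∀ x, Nonempty (io x)] :
    ∃ (C : ℝ) (m : ℕ), 1 ≤ C ∧ ∀ (κ : Type) [Fintype κ] [DecidableEq κ] (S : Finset κ)
      (Q Q' E E' : Finset s), Disjoint Q Q' → Disjoint E E' → Disjoint Q E → Disjoint Q E' →
      Disjoint Q' E → ∀ w : RCfg io κ → ℂ, FixS (Q ∪ Q') S w → FixS (E ∪ E') S w →
      ∀ b : ℝ, 0 ≤ b → b ≤ 1 →
        (star w ⬝ᵥ (mergeS Q E S b *ᵥ w)).re ≤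
          C * ((Fintype.card κ : ℝ) + 1) ^ m * (star w ⬝ᵥ w).re := by
  obtain ⟨C, m, hC, H⟩ := cl_kron_sum_le (dV io * dV io)
  refine ⟨C, m, hC, ?_⟩
  intro κ _ _ S Q Q' E E' hQQ' hEE' hQE hQE' hQ'E w h1 h2 b _ hb1
  obtain ⟨t1, t2⟩ := clm_tracial hQQ' hEE' hQE hQE' hQ'E h1 h2
  have hK : ∀ i j, Rep.repAlg (clmU (io := io) Q S) (Rep.idem i) *
      Rep.repAlg (clmU E S) (Rep.idem j) ≠ 0 →
      ∑ l, (Rep.kronMult i j l).re ≤ C * ((Fintype.card κ : ℝ) + 1) ^ m := by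
    intro i j hne
    have hi : labS (io := io) Q S i ≠ 0 := by
      rw [clm_labS_eq]
      intro h0
      exact hne (by rw [h0, Matrix.zero_mul])
    have hj : labS (io := io) E S j ≠ 0 := by
      rw [clm_labS_eq]
      intro h0
      exact hne (by rw [h0, Matrix.mul_zero])
    refine (H {j // j ∈ S} (CfgOn io Q) (CfgOn io E)
      (Nat.mul_le_mul (card_cfgOn_le_dV Q) (card_cfgOn_le_dV E)) i j
      ((cl_labS_ne_zero_iff Q S i).1 hi) ((cl_labS_ne_zero_iff E S j).1 hj)).trans ?_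
    rw [Fintype.card_coe]
    have hS : (S.card : ℝ) ≤ Fintype.card κ := by exact_mod_cast Finset.card_le_univ S
    have hC0 : 0 ≤ C := by linarith
    gcongr
  have hmm := Rep.merge_moment (clmU Q S) (clmU E S) (clmU_conjTranspose Q S)
    (clmU_conjTranspose E S) (clmU_commute hQE S) w t1 t2 _ hK b hb1
  refine le_trans (le_of_eq ?_) hmm
  rw [clm_mergeS_eq_sum, clmU_mulRep hQE S, Matrix.sum_mulVec, dotProduct_sum, Complex.re_sum]
  refine Finset.sum_congr rfl fun i _ => ?_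
  rw [Matrix.sum_mulVec, dotProduct_sum, Complex.re_sum]
  refine Finset.sum_congr rfl fun j _ => ?_
  rw [Matrix.sum_mulVec, dotProduct_sum, Complex.re_sum]
  refine Finset.sum_congr rfl fun l _ => ?_
  rw [Matrix.smul_mulVec, dotProduct_smul, smul_eq_mul, Complex.re_ofReal_mul, clm_labS_eq,
    clm_labS_eq, clm_labS_eq]

end Claimed.Agent.R296
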