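import Mathlib

/-!
# Row 296, P1 Section 7.3, package CL-NUM: binomial coefficients against the binary entropy; polynomials against exponentials

Architect: helper239.  ONE owner.  Mathlib only.
* `cl_choose_le`: `1 = (τ + (1-τ))^k ≥ choose k r τ^r (1-τ)^{k-r}` (`add_pow`, one term of a sum of nonnegative terms) and
  `τ^r (1-τ)^{k-r} ≥ τ^{τ k} (1-τ)^{k - τ k} = exp (-k h(τ))` because `τ ≤ 1 - τ` and `r ≤ τ k`
  (`Real.binEntropy τ = -τ log τ - (1-τ) log (1-τ)`: `Real.binEntropy_eq_negMulLog_add_negMulLog_one_sub` or unfold).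
* `cl_card_small_le`: the subsets of size `r` number `choose k r`; there are at most `k + 1` sizes.
* `cl_poly_le_exp`: `log (C (k+1)^m) / k → 0`.
-/

set_option autoImplicit false

namespace Claimed.Agent.R296

theorem cl_choose_le {τ : ℝ} (h0 : 0 < τ) (h1 : τ < 1 / 2) (k r : ℕ) (hr : (r : ℝ) ≤ τ * k) :
    ((k.choose r : ℕ) : ℝ) ≤ Real.exp (k * Real.binEntropy τ) := by
  have h1' : 0 < 1 - τ := by linarith
  have hk0 : (0 : ℝ) ≤ k := Nat.cast_nonneg k
  have hrk : r ≤ k := by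
    have : (r : ℝ) ≤ k := hr.trans (by nlinarith)
    exact_mod_cast this
  -- one term of the binomial sum
  have hsum : τ ^ r * (1 - τ) ^ (k - r) * (k.choose r : ℝ) ≤ 1 := by
    have h2 : (τ + (1 - τ)) ^ k = 1 := by
      rw [add_sub_cancel, one_pow]
    rw [add_pow] at h2
    refine le_trans ?_ h2.le
    exact Finset.single_le_sum (f := fun m => τ ^ m * (1 - τ) ^ (k - m) * (k.choose m : ℝ))
      (fun m _ => by positivity) (Finset.mem_range.mpr (Nat.lt_succ_of_le hrk))
  -- the weight of that term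
  have hw : Real.exp (-(k * Real.binEntropy τ)) ≤ τ ^ r * (1 - τ) ^ (k - r) := by
    have e1 : τ ^ r * (1 - τ) ^ (k - r) =
        Real.exp (r * Real.log τ + ((k - r : ℕ) : ℝ) * Real.log (1 - τ)) := by
      rw [Real.exp_add, mul_comm (r : ℝ), mul_comm ((k - r : ℕ) : ℝ), Real.exp_mul, Real.exp_mul,
        Real.exp_log h0, Real.exp_log h1', Real.rpow_natCast, Real.rpow_natCast]
    rw [e1, Real.exp_le_exp, Nat.cast_sub hrk]
    unfold Real.binEntropy
    rw [Real.log_inv, Real.log_inv]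
    have hlog : Real.log τ ≤ Real.log (1 - τ) := Real.log_le_log h0 (by linarith)
    nlinarith [mul_nonneg (sub_nonneg.mpr hr) (sub_nonneg.mpr hlog)]
  have hpos : 0 < Real.exp (-(k * Real.binEntropy τ)) := Real.exp_pos _
  have hc0 : (0 : ℝ) ≤ (k.choose r : ℝ) := Nat.cast_nonneg _
  have h3 : Real.exp (-(k * Real.binEntropy τ)) * (k.choose r : ℝ) ≤ 1 :=
    (mul_le_mul_of_nonneg_right hw hc0).trans hsum
  have h4 : Real.exp (k * Real.binEntropy τ) * Real.exp (-(k * Real.binEntropy τ)) = 1 := by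
    rw [← Real.exp_add, add_neg_cancel, Real.exp_zero]
  calc (k.choose r : ℝ) = Real.exp (k * Real.binEntropy τ) *
        (Real.exp (-(k * Real.binEntropy τ)) * (k.choose r : ℝ)) := by
        rw [← mul_assoc, h4, one_mul]
    _ ≤ Real.exp (k * Real.binEntropy τ) * 1 :=
        mul_le_mul_of_nonneg_left h3 (Real.exp_pos _).le
    _ = Real.exp (k * Real.binEntropy τ) := mul_one _

theorem cl_card_small_le {τ : ℝ} (h0 : 0 < τ) (h1 : τ < 1 / 2) (κ : Type) [Fintype κ]
    [DecidableEq κ] :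
    (((Finset.univ.filter fun B : Finset κ => (B.card : ℝ) ≤ τ * Fintype.card κ).card : ℕ) : ℝ) ≤
      ((Fintype.card κ : ℝ) + 1) * Real.exp (Fintype.card κ * Real.binEntropy τ) := by
  classical
  set k := Fintype.card κ with hk
  set R := (Finset.range (k + 1)).filter fun r : ℕ => (r : ℝ) ≤ τ * k with hR
  have hsub : (Finset.univ.filter fun B : Finset κ => (B.card : ℝ) ≤ τ * k) ⊆
      R.biUnion fun r => Finset.powersetCard r (Finset.univ : Finset κ) := by
    intro B hB
    rw [Finset.mem_filter] at hB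
    rw [Finset.mem_biUnion]
    refine ⟨B.card, ?_, ?_⟩
    · rw [hR, Finset.mem_filter, Finset.mem_range]
      exact ⟨Nat.lt_succ_of_le (Finset.card_le_univ B), hB.2⟩
    · rw [Finset.mem_powersetCard]
      exact ⟨Finset.subset_univ _, rfl⟩
  have h2 : ((Finset.univ.filter fun B : Finset κ => (B.card : ℝ) ≤ τ * k).card : ℝ) ≤
      ∑ r ∈ R, ((k.choose r : ℕ) : ℝ) := by
    have h3 := (Finset.card_le_card hsub).trans Finset.card_biUnion_le
    have h4 : ∑ r ∈ R, (Finset.powersetCard r (Finset.univ : Finset κ)).card =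
        ∑ r ∈ R, k.choose r := by
      refine Finset.sum_congr rfl fun r _ => ?_
      rw [Finset.card_powersetCard, Finset.card_univ]
    rw [h4] at h3
    exact_mod_cast h3
  refine h2.trans ?_
  have h5 : ∑ r ∈ R, ((k.choose r : ℕ) : ℝ) ≤ ∑ _r ∈ R, Real.exp (k * Real.binEntropy τ) := by
    refine Finset.sum_le_sum fun r hr => ?_
    rw [hR, Finset.mem_filter] at hr
    exact cl_choose_le h0 h1 k r hr.2
  refine h5.trans ?_
  rw [Finset.sum_const, nsmul_eq_mul]
  refine mul_le_mul_of_nonneg_right ?_ (Real.exp_pos _).le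
  have : R.card ≤ k + 1 := (Finset.card_filter_le _ _).trans (by simp)
  exact_mod_cast this

theorem cl_poly_le_exp (C : ℝ) (m : ℕ) {ε : ℝ} (hε : 0 < ε) :
    ∃ k0 : ℕ, ∀ k : ℕ, k0 ≤ k → C * ((k : ℝ) + 1) ^ m ≤ Real.exp (ε * k) := by
  have hlo := isLittleO_pow_exp_pos_mul_atTop (k := m) hε
  have hc : (0 : ℝ) < 1 / (|C| * 2 ^ m + 1) := by positivity
  have hev := hlo.bound hc
  have hev' := (tendsto_natCast_atTop_atTop (R := ℝ)).eventually hev
  obtain ⟨k0, hk0⟩ := Filter.eventually_atTop.mp hev'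
  refine ⟨max k0 1, fun k hk => ?_⟩
  have h1 := hk0 k ((le_max_left _ _).trans hk)
  have hk1 : (1 : ℝ) ≤ k := by exact_mod_cast (le_max_right _ _).trans hk
  rw [Real.norm_of_nonneg (by positivity), Real.norm_of_nonneg (Real.exp_pos _).le] at h1
  have hden : (0 : ℝ) < |C| * 2 ^ m + 1 := by positivity
  have h2 : (|C| * 2 ^ m + 1) * (k : ℝ) ^ m ≤ Real.exp (ε * k) := by
    rw [div_mul_eq_mul_div, one_mul, le_div_iff₀ hden] at h1
    linarith
  have h3 : ((k : ℝ) + 1) ^ m ≤ 2 ^ m * (k : ℝ) ^ m := by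
    rw [← mul_pow]
    exact pow_le_pow_left₀ (by positivity) (by linarith) m
  have hkm : (0 : ℝ) ≤ (k : ℝ) ^ m := by positivity
  calc C * ((k : ℝ) + 1) ^ m ≤ |C| * ((k : ℝ) + 1) ^ m :=
        mul_le_mul_of_nonneg_right (le_abs_self C) (by positivity)
    _ ≤ |C| * (2 ^ m * (k : ℝ) ^ m) := mul_le_mul_of_nonneg_left h3 (abs_nonneg C)
    _ ≤ (|C| * 2 ^ m + 1) * (k : ℝ) ^ m := by nlinarith
    _ ≤ Real.exp (ε * k) := h2

end Claimed.Agent.R296
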