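import Claimed.Agent.R296.Cmp.LowGood
import Claimed.Agent.R296.Cmp.LowBand
import Claimed.Agent.R296.Cmp.LowIid
import Claimed.Agent.R296.Cmp.LowNum

/-!
# Row 296, P1 Section 7.3: the bound for one component (eq. comparator:component-inverse)

Owner: helper239.  Assembly of the packages CL-BAND, CL-GOOD, CL-IID.  Prefix `cl_`.
-/

set_option autoImplicit false
set_option linter.unusedSectionVars false

namespace Claimed.Agent.R296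

open Matrix Finset
open scoped ComplexOrder MatrixOrder

section Quad

variable {n : Type} [Fintype n]

theorem cl_quad_mono {X Y : Matrix n n ℂ} (h : X ≤ Y) (w : n → ℂ) :
    (star w ⬝ᵥ (X *ᵥ w)).re ≤ (star w ⬝ᵥ (Y *ᵥ w)).re := by
  have h1 := (Matrix.le_iff.1 h).re_dotProduct_nonneg w
  rw [Matrix.sub_mulVec, dotProduct_sub] at h1
  simpa using h1

theorem cl_quad_smul (c : ℝ) (X : Matrix n n ℂ) (w : n → ℂ) :
    (star w ⬝ᵥ (((c : ℂ) • X) *ᵥ w)).re = c * (star w ⬝ᵥ (X *ᵥ w)).re := by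
  rw [Matrix.smul_mulVec, dotProduct_smul, smul_eq_mul, Complex.re_ofReal_mul]

theorem cl_norm_nonneg (w : n → ℂ) : 0 ≤ (star w ⬝ᵥ w).re := by
  have : star w ⬝ᵥ w = ∑ i, ((Complex.normSq (w i) : ℝ) : ℂ) := by
    unfold dotProduct
    refine Finset.sum_congr rfl fun i _ => ?_
    rw [Pi.star_apply, Complex.star_def, Complex.normSq_eq_conj_mul_self]
  rw [this, Complex.re_sum]
  exact Finset.sum_nonneg fun i _ => by
    rw [Complex.ofReal_re]; exact Complex.normSq_nonneg _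

end Quad

namespace Scan

variable {Λ ι α : Type} [Fintype Λ] [DecidableEq Λ] [Fintype ι]
  {io : Λ → Type} [∀ x, Fintype (io x)] [∀ x, DecidableEq (io x)] [∀ x, Nonempty (io x)]
  (𝔇 : RepData Λ ι α io)

section Geo

theorem cl_rmPh_union (A B : Finset Λ) : rmPh (A ∪ B) = rmPh A ∪ rmPh B := by
  unfold rmPh
  exact Finset.map_union _ _

theorem cl_rmPh_disjoint {A B : Finset Λ} (h : Disjoint A B) : Disjoint (rmPh A) (rmPh B) := by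
  unfold rmPh
  exact (Finset.disjoint_map _).2 h

theorem cl_inr_not_mem (b : Bool) (A : Finset Λ) : (Sum.inr b : Λ ⊕ Bool) ∉ rmPh A := by
  simp [rmPh]

theorem cl_five {s : Finset Λ × Finset Λ} (hs : Disjoint s.1 s.2) :
    IsFive (rmPh s.1) (rmPh s.2) (RepData.mY s) (rmC : Λ ⊕ Bool) rmR where
  dQV := cl_rmPh_disjoint hs
  dQY := cl_rmPh_disjoint (by
    rw [Finset.disjoint_left]
    intro x hx hx'
    exact (Finset.mem_compl.1 hx') (Finset.mem_union_left _ hx))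
  dVY := cl_rmPh_disjoint (by
    rw [Finset.disjoint_left]
    intro x hx hx'
    exact (Finset.mem_compl.1 hx') (Finset.mem_union_right _ hx))
  cQ := cl_inr_not_mem _ _
  cV := cl_inr_not_mem _ _
  cY := cl_inr_not_mem _ _
  rQ := cl_inr_not_mem _ _
  rV := cl_inr_not_mem _ _
  rY := cl_inr_not_mem _ _
  cr := by simp

theorem cl_phys_union (s : Finset Λ × Finset Λ) :
    rmPh s.1 ∪ rmPh s.2 ∪ RepData.mY s = rmPh (Finset.univ : Finset Λ) := by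
  unfold RepData.mY
  rw [← cl_rmPh_union, ← cl_rmPh_union, Finset.union_compl]

end Geo

/-- the threshold `D` of the auxiliary labels of the good copies -/
noncomputable def RepData.clD {κ : Type} [Fintype κ] [DecidableEq κ] (lam : Rep.Irr (Equiv.Perm κ))
    (B : Finset κ) : ℝ :=
  (Rep.dimI lam : ℝ) / (((Fintype.card κ).choose B.card : ℝ) * (𝔇.dst : ℝ) ^ B.card)

section Comp

variable {κ : Type} [Fintype κ] [DecidableEq κ]

theorem cl_choose_pos (B : Finset κ) : (0 : ℝ) < ((Fintype.card κ).choose B.card : ℝ) := by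
  have : 0 < (Fintype.card κ).choose B.card :=
    Nat.choose_pos (Finset.card_le_univ B)
  exact_mod_cast this

theorem cl_D_pos {a0 : ℝ} (hW : 𝔇.WF a0) (lam : Rep.Irr (Equiv.Perm κ)) (B : Finset κ) :
    0 < 𝔇.clD lam B := by
  unfold RepData.clD
  have h1 : (0 : ℝ) < Rep.dimI lam := by exact_mod_cast Rep.dimI_pos lam
  have h2 : (0 : ℝ) < (𝔇.dst : ℝ) := by exact_mod_cast co_dst_pos 𝔇 hW
  have h3 := cl_choose_pos B
  positivity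

/-- labels of the good copies of an auxiliary site below the threshold do not occur -/
theorem cl_thr {a0 : ℝ} (hW : 𝔇.WF a0) {lam : Rep.Irr (Equiv.Perm κ)} {B : Finset κ} (b : Bool)
    {w : RCfg (rmIo io 𝔇.dst) κ → ℂ} (h : labP {(Sum.inr b : Λ ⊕ Bool)} lam *ᵥ w = w)
    (α : Rep.Irr (Equiv.Perm {j // j ∈ Bᶜ})) (hα : (Rep.dimI α : ℝ) < 𝔇.clD lam B) :
    labS {(Sum.inr b : Λ ⊕ Bool)} Bᶜ α *ᵥ w = 0 := by
  apply cl_aux_threshold _ B lam h α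
  have hcard : Fintype.card (rmIo io 𝔇.dst (Sum.inr b)) = 𝔇.dst := by
    change Fintype.card (Fin 𝔇.dst) = 𝔇.dst
    exact Fintype.card_fin _
  rw [hcard]
  unfold RepData.clD at hα
  have h2 : (0 : ℝ) < (𝔇.dst : ℝ) := by exact_mod_cast co_dst_pos 𝔇 hW
  have h3 := cl_choose_pos B
  rw [lt_div_iff₀ (by positivity)] at hα
  have : (((Fintype.card κ).choose B.card * (Rep.dimI α * 𝔇.dst ^ B.card) : ℕ) : ℝ) <
      (Rep.dimI lam : ℝ) := by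
    push_cast
    calc ((Fintype.card κ).choose B.card : ℝ) * ((Rep.dimI α : ℝ) * (𝔇.dst : ℝ) ^ B.card)
        = (Rep.dimI α : ℝ) * (((Fintype.card κ).choose B.card : ℝ) * (𝔇.dst : ℝ) ^ B.card) := by
          ring
      _ < _ := hα
  exact_mod_cast this

end Comp

theorem cl_nonempty {a0 : ℝ} (hW : 𝔇.WF a0) : ∀ x, Nonempty (rmIo io 𝔇.dst x)
  | Sum.inl x => inferInstanceAs (Nonempty (io x))
  | Sum.inr _ => ⟨(⟨0, co_dst_pos 𝔇 hW⟩ : Fin 𝔇.dst)⟩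

/-- from the inverse metric to the labels of the good copies -/
theorem cl_comp_core {a0 : ℝ} (hW : 𝔇.WF a0) (ha : 𝔇.a ≤ 1) :
    ∃ (C : ℝ) (m : ℕ), 1 ≤ C ∧ ∀ (κ : Type) [Fintype κ] [DecidableEq κ]
      (lam : Rep.Irr (Equiv.Perm κ)) (B : Finset κ) (w : RCfg (rmIo io 𝔇.dst) κ → ℂ),
      𝔇.GoodVec lam B w → ∀ s : Finset Λ × Finset Λ, Disjoint s.1 s.2 →
      (star w ⬝ᵥ (bandFull (𝔇.a / 2) (RepData.mP s) (RepData.mY s) (RepData.mFar s) (-1) *ᵥ w)).re ≤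
        C * ((Fintype.card κ : ℝ) + 1) ^ m * ((Fintype.card κ).choose B.card : ℝ) ^ 𝔇.a *
          (star w ⬝ᵥ (bandDimS (RepData.mP s) (RepData.mY s) (RepData.mFar s) Bᶜ 𝔇.a *ᵥ w)).re := by
  have := cl_nonempty 𝔇 hW
  have ha0 := hW.a_pos
  obtain ⟨C, m, hC, h1⟩ := cl_band_le_dim (rmIo io 𝔇.dst) (𝔇.a / 2) (by linarith) (by linarith)
  refine ⟨C, m, hC, fun κ _ _ lam B w hw s hs => ?_⟩
  have hP := cp_part3 (Λ := Λ) hs
  have e1 := cl_quad_mono (h1 κ _ _ _ hP) w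
  rw [cl_quad_smul, show 2 * (𝔇.a / 2) = 𝔇.a by ring] at e1
  have e2 := cl_quad_mono (cl_whole_le_groups (io := rmIo io 𝔇.dst) hP B ha0.le) w
  rw [cl_quad_smul] at e2
  have e3 := cl_bad_le (io := rmIo io 𝔇.dst) hP B ha0.le hw.symB
  have hpoly : 0 ≤ C * ((Fintype.card κ : ℝ) + 1) ^ m := by positivity
  have hch : 0 ≤ ((Fintype.card κ).choose B.card : ℝ) ^ 𝔇.a := by positivity
  calc _ ≤ C * ((Fintype.card κ : ℝ) + 1) ^ m * _ := e1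
    _ ≤ C * ((Fintype.card κ : ℝ) + 1) ^ m * (((Fintype.card κ).choose B.card : ℝ) ^ 𝔇.a * _) :=
        mul_le_mul_of_nonneg_left e2 hpoly
    _ ≤ C * ((Fintype.card κ : ℝ) + 1) ^ m * (((Fintype.card κ).choose B.card : ℝ) ^ 𝔇.a * _) :=
        mul_le_mul_of_nonneg_left (mul_le_mul_of_nonneg_left e3 hch) hpoly
    _ = _ := by ring

/-- **(comparator:component-inverse)**, rough version -/
theorem cl_comp_rough {a0 : ℝ} (hW : 𝔇.WF a0) (ha : 2 * 𝔇.a ≤ 1) :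
    ∃ (C : ℝ) (m : ℕ), 1 ≤ C ∧ ∀ (κ : Type) [Fintype κ] [DecidableEq κ]
      (lam : Rep.Irr (Equiv.Perm κ)) (B : Finset κ) (w : RCfg (rmIo io 𝔇.dst) κ → ℂ),
      𝔇.GoodVec lam B w → ∀ s : Finset Λ × Finset Λ, Disjoint s.1 s.2 →
      (star w ⬝ᵥ (bandFull (𝔇.a / 2) (RepData.mP s) (RepData.mY s) (RepData.mFar s) (-1) *ᵥ w)).re ≤
        C * ((Fintype.card κ : ℝ) + 1) ^ m * ((Fintype.card κ).choose B.card : ℝ) ^ 𝔇.a *
          𝔇.clD lam B ^ (-(2 * 𝔇.a)) * (star w ⬝ᵥ w).re := by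
  have := cl_nonempty 𝔇 hW
  have ha0 := hW.a_pos
  obtain ⟨C1, m1, hC1, h1⟩ := cl_comp_core 𝔇 hW (by linarith)
  obtain ⟨C2, m2, hC2, h2⟩ := cl_good_rough (rmIo io 𝔇.dst)
  refine ⟨C1 * C2, m1 + m2, by nlinarith, fun κ _ _ lam B w hw s hs => ?_⟩
  have e1 := h1 κ lam B w hw s hs
  have hph : FixS (rmPh s.1 ∪ rmPh s.2 ∪ RepData.mY s) Bᶜ w := by
    rw [cl_phys_union]; exact hw.physG
  have e2 := h2 κ Bᶜ (rmPh s.1) (rmPh s.2) (RepData.mY s) rmC rmR (cl_five hs) w 𝔇.a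
    (𝔇.clD lam B) ha0.le ha (cl_D_pos 𝔇 hW lam B) hph hw.auxG
    (fun α hα => cl_thr 𝔇 hW false hw.labC α hα) (fun α hα => cl_thr 𝔇 hW true hw.labR α hα)
  have hpoly : 0 ≤ C1 * ((Fintype.card κ : ℝ) + 1) ^ m1 *
      ((Fintype.card κ).choose B.card : ℝ) ^ 𝔇.a := by positivity
  calc _ ≤ _ := e1
    _ ≤ C1 * ((Fintype.card κ : ℝ) + 1) ^ m1 * ((Fintype.card κ).choose B.card : ℝ) ^ 𝔇.a * _ :=
        mul_le_mul_of_nonneg_left e2 hpoly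
    _ = _ := by rw [pow_add]; ring

/-- arithmetic of the fifth root -/
theorem cl_fifth_root {p k' a SQ SV SY c : ℝ} (hp : 1 ≤ p) :
    (p * Real.exp (k' * (-(5 * a * SQ) + 2 * c * (5 * a) ^ 2)) *
        (p * Real.exp (k' * (-(5 * a * SV) + 2 * c * (5 * a) ^ 2))) *
        Real.exp (k' * (5 * a * SY + c * (5 * a) ^ 2))) ^ ((1 : ℝ) / 5) ≤
      p ^ 2 * Real.exp (k' * (-(a * (SQ + SV - SY)) + 25 * c * a ^ 2)) := by
  have e1 : p * Real.exp (k' * (-(5 * a * SQ) + 2 * c * (5 * a) ^ 2)) *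
        (p * Real.exp (k' * (-(5 * a * SV) + 2 * c * (5 * a) ^ 2))) *
        Real.exp (k' * (5 * a * SY + c * (5 * a) ^ 2)) =
      p ^ 2 * Real.exp ((k' * (-(a * (SQ + SV - SY)) + 25 * c * a ^ 2)) * 5) := by
    have : Real.exp ((k' * (-(a * (SQ + SV - SY)) + 25 * c * a ^ 2)) * 5) =
        Real.exp (k' * (-(5 * a * SQ) + 2 * c * (5 * a) ^ 2)) *
        Real.exp (k' * (-(5 * a * SV) + 2 * c * (5 * a) ^ 2)) *
        Real.exp (k' * (5 * a * SY + c * (5 * a) ^ 2)) := by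
      rw [← Real.exp_add, ← Real.exp_add]
      congr 1
      ring
    rw [this]
    ring
  have hp2 : 1 ≤ p ^ 2 := one_le_pow₀ hp
  rw [e1, Real.mul_rpow (by positivity) (Real.exp_pos _).le, ← Real.exp_mul]
  have e2 : k' * (-(a * (SQ + SV - SY)) + 25 * c * a ^ 2) * 5 * (1 / 5) =
      k' * (-(a * (SQ + SV - SY)) + 25 * c * a ^ 2) := by ring
  rw [e2]
  apply mul_le_mul_of_nonneg_right _ (Real.exp_pos _).le
  calc (p ^ 2) ^ ((1 : ℝ) / 5) ≤ (p ^ 2) ^ (1 : ℝ) :=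
        Real.rpow_le_rpow_of_exponent_le hp2 (by norm_num)
    _ = p ^ 2 := Real.rpow_one _

/-- **(comparator:component-inverse)**, sharp version -/
theorem cl_comp_sharp {a0 : ℝ} (hW : 𝔇.WF a0) (ha : 10 * 𝔇.a ≤ 1) :
    ∃ (C : ℝ) (m : ℕ), 1 ≤ C ∧ ∀ (κ : Type) [Fintype κ] [DecidableEq κ] (C0 c0 : ℝ)
      (lam : Rep.Irr (Equiv.Perm κ)) (B : Finset κ) (w : RCfg (rmIo io 𝔇.dst) κ → ℂ),
      𝔇.GoodVec lam B w → ∀ s : Finset Λ × Finset Λ, Disjoint s.1 s.2 →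
      𝔇.MgfAt C0 c0 s.1 → 𝔇.MgfAt C0 c0 s.2 → 𝔇.MgfAt C0 c0 (s.1 ∪ s.2)ᶜ →
      10 * 𝔇.a ≤ c0 / Real.sqrt 𝔇.BB →
      (star w ⬝ᵥ (bandFull (𝔇.a / 2) (RepData.mP s) (RepData.mY s) (RepData.mFar s) (-1) *ᵥ w)).re ≤
        C * ((Fintype.card κ : ℝ) + 1) ^ m * ((Fintype.card κ).choose B.card : ℝ) ^ 𝔇.a *
          𝔇.clD lam B ^ (-(2 * 𝔇.a)) *
          Real.exp ((Bᶜ.card : ℝ) * (-(𝔇.a * 𝔇.gpre s) + 25 * (C0 * 𝔇.BB) * 𝔇.a ^ 2)) *
          (star w ⬝ᵥ w).re := by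
  have := cl_nonempty 𝔇 hW
  have ha0 := hW.a_pos
  obtain ⟨C1, m1, hC1, h1⟩ := cl_comp_core 𝔇 hW (by linarith)
  obtain ⟨C2, m2, hC2, h2⟩ := cl_good_sharp (rmIo io 𝔇.dst)
  obtain ⟨C3, m3, hC3, h3⟩ := cl_moment_neg 𝔇 hW
  refine ⟨C1 * C2 * C3 ^ 2, m1 + m2 + 2 * m3, ?_, fun κ _ _ C0 c0 lam B w hw s hs M1 M2 M3 hc => ?_⟩
  · have : 1 ≤ C3 ^ 2 := one_le_pow₀ hC3
    have h12 : 1 ≤ C1 * C2 := by nlinarith
    nlinarith
  have e1 := h1 κ lam B w hw s hs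
  have hph : FixS (rmPh s.1 ∪ rmPh s.2 ∪ RepData.mY s) Bᶜ w := by
    rw [cl_phys_union]; exact hw.physG
  set p : ℝ := C3 * ((Fintype.card κ : ℝ) + 1) ^ m3 with hp
  have hp1 : 1 ≤ p := by
    have : (1 : ℝ) ≤ ((Fintype.card κ : ℝ) + 1) ^ m3 :=
      one_le_pow₀ (by have : (0 : ℝ) ≤ (Fintype.card κ : ℝ) := Nat.cast_nonneg _; linarith)
    rw [hp]; nlinarith
  have q1 := h3 κ C0 c0 B s.1 M1 w hw.pos (5 * 𝔇.a) (by linarith) (by linarith) (by linarith)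
  have q2 := h3 κ C0 c0 B s.2 M2 w hw.pos (5 * 𝔇.a) (by linarith) (by linarith) (by linarith)
  have q3 := cl_moment_pos 𝔇 hW B (s.1 ∪ s.2)ᶜ M3 hw.pos (u := 5 * 𝔇.a) (by linarith)
    (by linarith) (by linarith)
  have e2 := h2 κ Bᶜ (rmPh s.1) (rmPh s.2) (RepData.mY s) rmC rmR (cl_five hs) w 𝔇.a
    (𝔇.clD lam B)
    (p * Real.exp ((Bᶜ.card : ℝ) * (-(5 * 𝔇.a * ent 𝔇.S.rho s.1) + 2 * (C0 * 𝔇.BB) * (5 * 𝔇.a) ^ 2)))
    (p * Real.exp ((Bᶜ.card : ℝ) * (-(5 * 𝔇.a * ent 𝔇.S.rho s.2) + 2 * (C0 * 𝔇.BB) * (5 * 𝔇.a) ^ 2)))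
    (Real.exp ((Bᶜ.card : ℝ) * (5 * 𝔇.a * ent 𝔇.S.rho (s.1 ∪ s.2)ᶜ + (C0 * 𝔇.BB) * (5 * 𝔇.a) ^ 2)))
    ha0.le (by linarith) (cl_D_pos 𝔇 hW lam B) hph hw.auxG
    (fun α hα => cl_thr 𝔇 hW false hw.labC α hα) (fun α hα => cl_thr 𝔇 hW true hw.labR α hα)
    (by positivity) (by positivity) (by positivity)
    (by convert q1 using 4; ring) (by convert q2 using 4; ring) q3
  have e3 := cl_fifth_root (p := p) (k' := (Bᶜ.card : ℝ)) (a := 𝔇.a) (SQ := ent 𝔇.S.rho s.1)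
    (SV := ent 𝔇.S.rho s.2) (SY := ent 𝔇.S.rho (s.1 ∪ s.2)ᶜ) (c := C0 * 𝔇.BB) hp1
  have hn := cl_norm_nonneg w
  have hD : 0 ≤ 𝔇.clD lam B ^ (-(2 * 𝔇.a)) := (Real.rpow_pos_of_pos (cl_D_pos 𝔇 hW lam B) _).le
  have hpoly : 0 ≤ C1 * ((Fintype.card κ : ℝ) + 1) ^ m1 *
      ((Fintype.card κ).choose B.card : ℝ) ^ 𝔇.a := by positivity
  have hpoly2 : 0 ≤ C2 * ((Fintype.card κ : ℝ) + 1) ^ m2 * 𝔇.clD lam B ^ (-(2 * 𝔇.a)) := by
    positivity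
  have e4 := e2.trans (mul_le_mul_of_nonneg_right (mul_le_mul_of_nonneg_left e3 hpoly2) hn)
  calc _ ≤ _ := e1
    _ ≤ C1 * ((Fintype.card κ : ℝ) + 1) ^ m1 * ((Fintype.card κ).choose B.card : ℝ) ^ 𝔇.a * _ :=
        mul_le_mul_of_nonneg_left e4 hpoly
    _ = _ := by
      rw [hp]
      unfold RepData.gpre
      ring

end Scan

end Claimed.Agent.R296
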