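import Claimed.Agent.R296.Cmp.LowCompress
import Claimed.Agent.R296.CmpTree
import Claimed.Agent.R296.CmpIface

/-!
# Row 296, P1 Section 7.3: the lower comparisons for the model, `cl_lowerK : LowerK`

Owner: helper239.  Prefix `cl_`.  Assembly of the lower pins (`LowCompress.lean`), the floor `cp_band_floor` and the tree
comparison `cp_F_lower` (`CmpTree.lean`).  Constants: `C = max 4 (25 C0)`, `a0 = min (1/10) (c0/10)`, `ε = ζ / (4 K)`.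
-/

set_option autoImplicit false
set_option linter.unusedSectionVars false

namespace Claimed.Agent.R296

namespace Scan

open Matrix Finset
open scoped ComplexOrder MatrixOrder

/-- the errors of the pins, of the floor and of the two-term splitting are at most `ζ` -/
theorem cl_scalar {K k a y ε ζ : ℝ} (hK : 0 < K) (hk : 0 < k) (hζ : 0 < ζ) (hε : ε = ζ / (4 * K))
    (hkζ : K / ζ ≤ k) :
    a * K / 2 * y - ζ ≤
      (1 / 2 * (K * (k * (a * y) - 3 * ε * k + Real.log (Real.exp (-(ε * k)) / 2)))) / k := by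
  rw [Real.log_div (Real.exp_pos _).ne' two_ne_zero, Real.log_exp]
  have hl : Real.log 2 ≤ 1 := by have := Real.log_two_lt_d9; linarith
  rw [le_div_iff₀ hk]
  have h1 : K ≤ ζ * k := by rwa [div_le_iff₀' hζ] at hkζ
  have h2 : K * ε = ζ / 4 := by rw [hε]; field_simp
  have h3 : K * Real.log 2 ≤ K := by nlinarith
  have e : 1 / 2 * (K * (k * (a * y) - 3 * ε * k + (-(ε * k) - Real.log 2))) =
      a * K / 2 * y * k - 2 * (K * ε) * k - K * Real.log 2 / 2 := by ring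
  have e2 : (a * K / 2 * y - ζ) * k = a * K / 2 * y * k - ζ * k := by ring
  rw [e, h2, e2]
  linarith

/-- **the lower comparisons for the model** -/
theorem cl_lowerK : LowerK := by
  intro C0 c0 hC0 hc0
  refine ⟨max 4 (25 * C0), min (1 / 10) (c0 / 10), le_trans (by norm_num) (le_max_left _ _),
    lt_min (by norm_num) (by positivity), ?_⟩
  intro Λ ι α _ _ _ io _ _ _ 𝔇 hW ζ hζ
  set C : ℝ := max 4 (25 * C0) with hCdef
  have hC4 : 4 ≤ C := le_max_left _ _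
  have hCC : 25 * C0 ≤ C := le_max_right _ _
  have ha10 : 10 * 𝔇.a ≤ 1 := by
    have h1 := hW.a_le
    have h2 := min_le_left (1 / 10 : ℝ) (c0 / 10)
    linarith
  have ha0 := hW.a_pos
  have hK : (0 : ℝ) < 𝔇.K := by exact_mod_cast hW.K_pos
  set ε : ℝ := ζ / (4 * 𝔇.K) with hε
  have hε0 : 0 < ε := by positivity
  obtain ⟨k1, hk1⟩ := cl_pin_rough 𝔇 hW (by linarith) hC4 hε0
  obtain ⟨k2, hk2⟩ := cp_band_floor 𝔇 hW (by linarith) ε hε0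
  have hsharp : ∃ k3 : ℕ, 𝔇.MgfData C0 c0 → 𝔇.a * Real.sqrt 𝔇.BB ≤ min (1 / 10) (c0 / 10) →
      ∀ k : ℕ, k3 ≤ k → ∀ lam : Rep.Irr (Equiv.Perm (Fin k)), 𝔇.GoodLab lam ε →
      ∀ s : Finset Λ × Finset Λ, Disjoint s.1 s.2 →
      𝔇.MgfAt C0 c0 s.1 → 𝔇.MgfAt C0 c0 s.2 → 𝔇.MgfAt C0 c0 (s.1 ∪ s.2)ᶜ →
      ((Real.exp (k * (𝔇.a * 𝔇.LS C s) - 3 * ε * k) : ℝ) : ℂ) • 𝔇.mLow lam ≤
        𝔇.mBand (Fin k) s := by
    by_cases h : 𝔇.MgfData C0 c0 ∧ 𝔇.a * Real.sqrt 𝔇.BB ≤ min (1 / 10) (c0 / 10)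
    · obtain ⟨hM, hsm⟩ := h
      have hBB := hM.BB_ge
      have hsq : 0 < Real.sqrt 𝔇.BB := Real.sqrt_pos.2 (by linarith)
      have hc : 10 * 𝔇.a ≤ c0 / Real.sqrt 𝔇.BB := by
        rw [le_div_iff₀ hsq]
        have := min_le_right (1 / 10 : ℝ) (c0 / 10)
        linarith
      obtain ⟨k3, hk3⟩ := cl_pin_sharp 𝔇 hW ha10 hC4 hC0.le hCC (by linarith) hc hε0
      exact ⟨k3, fun _ _ => hk3⟩
    · exact ⟨0, fun h1 h2 => absurd ⟨h1, h2⟩ h⟩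
  obtain ⟨k3, hk3⟩ := hsharp
  obtain ⟨k4, hk4⟩ := exists_nat_ge ((𝔇.K : ℝ) / ζ)
  refine ⟨ε, hε0, max (max k1 k2) (max k3 (max k4 1)), fun k hk lam hlam => ?_⟩
  have hk1' : k1 ≤ k := le_trans (le_trans (le_max_left _ _) (le_max_left _ _)) hk
  have hk2' : k2 ≤ k := le_trans (le_trans (le_max_right _ _) (le_max_left _ _)) hk
  have hk3' : k3 ≤ k := le_trans (le_trans (le_max_left _ _) (le_max_right _ _)) hk
  have hk4' : k4 ≤ k :=
    le_trans (le_trans (le_trans (le_max_left _ _) (le_max_right _ _)) (le_max_right _ _)) hk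
  have hkpos : 0 < k :=
    le_trans (le_trans (le_trans (le_max_right _ _) (le_max_right _ _)) (le_max_right _ _)) hk
  have hkR : (0 : ℝ) < (k : ℝ) := by exact_mod_cast hkpos
  have hkζ : (𝔇.K : ℝ) / ζ ≤ (k : ℝ) := hk4.trans (by exact_mod_cast hk4')
  have hNe : Nonempty (Fin k) := ⟨⟨0, hkpos⟩⟩
  have hne := cp_pre_ne_zero 𝔇 hW lam (cp_goodLab_pos 𝔇 hlam)
  have hτ := hW.tau_pos
  have hτ1 := hW.tau_lt
  have hld : 0 ≤ 𝔇.ld := typLd_nonneg _ _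
  have hS' : 0 ≤ 𝔇.S' := typS_nonneg _ _
  have hbe : 0 ≤ Real.binEntropy 𝔇.τ := Real.binEntropy_nonneg hτ.le (by linarith)
  have hA : 0 ≤ 𝔇.τ * 𝔇.ld + Real.binEntropy 𝔇.τ / 𝔇.a := by positivity
  have hb1 : Real.exp (-(ε * k)) ≤ 1 := Real.exp_le_one_iff.2 (by
    have : 0 ≤ ε * k := by positivity
    linarith)
  have hWn : 0 ≤ 𝔇.a * 𝔇.K / 2 := by positivity
  have hεk : 0 ≤ 3 * ε * k := by positivity
  refine { ed_nonneg := ?_, rough_lower := ?_, sharp_lower := ?_ }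
  · intro r p hp
    obtain ⟨hv, hT⟩ := cp_tree_ok 𝔇 hW r hp
    exact (cp_defect_mass 𝔇 hW lam hne hT hv).1
  · intro r p hp
    obtain ⟨hv, hT⟩ := cp_tree_ok 𝔇 hW r hp
    have hEd := (cp_defect_mass 𝔇 hW lam hne hT hv).1
    have hF := cp_F_lower 𝔇 hW lam hT hv hne (b0 := Real.exp (-(ε * k))) (Real.exp_pos _) hb1
      (fun l hl g => hk2 k hk2' _ (hW.st_disj l hl g))
      (lamb := fun _ _ => k * (𝔇.a * 𝔇.LR C) - 3 * ε * k)
      (fun l hl g => hk1 k hk1' lam hlam _ (hW.st_disj l hl g))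
      (xmax := k * (𝔇.a * (2 * 𝔇.S'))) (by positivity) (fun l hl g => by
        have h1 : 𝔇.LR C ≤ 2 * 𝔇.S' := by
          unfold RepData.LR
          have : 0 ≤ C * (𝔇.τ * 𝔇.ld + Real.binEntropy 𝔇.τ / 𝔇.a) := by positivity
          linarith
        have h2 : (k : ℝ) * (𝔇.a * 𝔇.LR C) ≤ k * (𝔇.a * (2 * 𝔇.S')) :=
          mul_le_mul_of_nonneg_left (mul_le_mul_of_nonneg_left h1 ha0.le) hkR.le
        linarith)
    simp only [MTree.E_const, Finset.sum_const, Finset.card_univ, Fintype.card_fin,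
      nsmul_eq_mul] at hF
    refine le_trans ?_ hF
    set Ed := 𝔇.mEd lam (𝔇.tree r p) with hEdd
    have hs := cl_scalar (a := 𝔇.a) (y := 𝔇.LR C - Ed / 𝔇.τ * (2 * 𝔇.S')) hK hkR hζ hε hkζ
    have e1 : (k : ℝ) * (𝔇.a * 𝔇.LR C) - 3 * ε * k - Ed / 𝔇.τ * (k * (𝔇.a * (2 * 𝔇.S'))) =
        k * (𝔇.a * (𝔇.LR C - Ed / 𝔇.τ * (2 * 𝔇.S'))) - 3 * ε * k := by ring
    rw [e1]
    refine le_trans ?_ hs
    have hB : 0 ≤ Ed / 𝔇.τ * 𝔇.S' := by positivity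
    have h3 : 2 * 𝔇.S' - C * (𝔇.τ * 𝔇.ld + Real.binEntropy 𝔇.τ / 𝔇.a) - C * (Ed / 𝔇.τ) * 𝔇.S' ≤
        𝔇.LR C - Ed / 𝔇.τ * (2 * 𝔇.S') := by
      unfold RepData.LR
      nlinarith
    have h4 := mul_le_mul_of_nonneg_left h3 hWn
    unfold RepData.W
    linarith
  · intro hM hsm gmax hg r p hp
    obtain ⟨hv, hT⟩ := cp_tree_ok 𝔇 hW r hp
    have hEd := (cp_defect_mass 𝔇 hW lam hne hT hv).1
    have hBB := hM.BB_ge
    have hgm : 0 ≤ gmax := by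
      obtain ⟨l, hl⟩ := RepData.rm_exists_leaf (hW.hs_al r)
      exact (RepData.rm_gpre_nonneg hW _).trans (hg l hl ⟨0, hW.K_pos⟩)
    have hA' : 0 ≤ 𝔇.τ * 𝔇.ld + Real.binEntropy 𝔇.τ / 𝔇.a + 𝔇.a * 𝔇.BB := by
      have h0 : 0 ≤ 𝔇.BB := by linarith
      positivity
    have hF := cp_F_lower 𝔇 hW lam hT hv hne (b0 := Real.exp (-(ε * k))) (Real.exp_pos _) hb1
      (fun l hl g => hk2 k hk2' _ (hW.st_disj l hl g))
      (lamb := fun g l => k * (𝔇.a * 𝔇.LS C (𝔇.st l g)) - 3 * ε * k)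
      (fun l hl g => hk3 hM hsm k hk3' lam hlam _ (hW.st_disj l hl g) (hM.mgf l hl g).1
        (hM.mgf l hl g).2.1 (hM.mgf l hl g).2.2.1)
      (xmax := k * (𝔇.a * (2 * 𝔇.S' + gmax))) (by positivity) (fun l hl g => by
        have h1 : 𝔇.LS C (𝔇.st l g) ≤ 2 * 𝔇.S' + gmax := by
          unfold RepData.LS
          have h5 : 0 ≤ C * (𝔇.τ * 𝔇.ld + Real.binEntropy 𝔇.τ / 𝔇.a + 𝔇.a * 𝔇.BB) := by
            positivity
          have h6 := RepData.rm_gpre_nonneg hW (𝔇.st l g)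
          have h7 := hg l hl g
          nlinarith
        have h2 : (k : ℝ) * (𝔇.a * 𝔇.LS C (𝔇.st l g)) ≤ k * (𝔇.a * (2 * 𝔇.S' + gmax)) :=
          mul_le_mul_of_nonneg_left (mul_le_mul_of_nonneg_left h1 ha0.le) hkR.le
        linarith)
    refine le_trans ?_ hF
    set T := 𝔇.tree r p with hTd
    set Ed := 𝔇.mEd lam T with hEdd
    set A' := 𝔇.τ * 𝔇.ld + Real.binEntropy 𝔇.τ / 𝔇.a + 𝔇.a * 𝔇.BB with hA'd
    have eE : ∀ g : Fin 𝔇.K, T.E (fun l => (k : ℝ) * (𝔇.a * 𝔇.LS C (𝔇.st l g)) - 3 * ε * k) =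
        (k * 𝔇.a * (1 - 𝔇.τ)) * T.E (fun l => 𝔇.gpre (𝔇.st l g)) +
          (k * (𝔇.a * (2 * 𝔇.S' - C * A')) - 3 * ε * k) := by
      intro g
      have : (fun l => (k : ℝ) * (𝔇.a * 𝔇.LS C (𝔇.st l g)) - 3 * ε * k) =
          fun l => (k * 𝔇.a * (1 - 𝔇.τ)) * 𝔇.gpre (𝔇.st l g) +
            (k * (𝔇.a * (2 * 𝔇.S' - C * A')) - 3 * ε * k) := by
        funext l
        unfold RepData.LS
        ring
      rw [this, MTree.E_add, MTree.E_mul_left, MTree.E_const]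
    have hav : ∑ g : Fin 𝔇.K, T.E (fun l => 𝔇.gpre (𝔇.st l g)) = 𝔇.K * 𝔇.av 𝔇.gpre T := by
      unfold RepData.av
      rw [← mul_assoc, mul_inv_cancel₀ hK.ne', one_mul]
    have eS : ∑ g : Fin 𝔇.K, (T.E (fun l => (k : ℝ) * (𝔇.a * 𝔇.LS C (𝔇.st l g)) - 3 * ε * k) -
        Ed / 𝔇.τ * (k * (𝔇.a * (2 * 𝔇.S' + gmax))) + Real.log (Real.exp (-(ε * k)) / 2)) =
        𝔇.K * (k * (𝔇.a * (2 * 𝔇.S' + (1 - 𝔇.τ) * 𝔇.av 𝔇.gpre T - C * A' -
          Ed / 𝔇.τ * (2 * 𝔇.S' + gmax))) - 3 * ε * k + Real.log (Real.exp (-(ε * k)) / 2)) := by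
      simp only [eE]
      rw [Finset.sum_add_distrib, Finset.sum_sub_distrib, Finset.sum_add_distrib, ← Finset.mul_sum,
        hav]
      simp only [Finset.sum_const, Finset.card_univ, Fintype.card_fin, nsmul_eq_mul]
      ring
    rw [eS, Fintype.card_fin]
    have hs := cl_scalar (a := 𝔇.a) (y := 2 * 𝔇.S' + (1 - 𝔇.τ) * 𝔇.av 𝔇.gpre T - C * A' -
          Ed / 𝔇.τ * (2 * 𝔇.S' + gmax)) hK hkR hζ hε hkζ
    refine le_trans ?_ hs
    have hB : 0 ≤ Ed / 𝔇.τ * (𝔇.S' + gmax) := by positivity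
    have hB2 : 0 ≤ Ed / 𝔇.τ * gmax := by positivity
    have h3 : 2 * 𝔇.S' + (1 - 𝔇.τ) * 𝔇.av 𝔇.gpre T - C * A' - C * (Ed / 𝔇.τ) * (𝔇.S' + gmax) ≤
        2 * 𝔇.S' + (1 - 𝔇.τ) * 𝔇.av 𝔇.gpre T - C * A' - Ed / 𝔇.τ * (2 * 𝔇.S' + gmax) := by
      nlinarith
    have h4 := mul_le_mul_of_nonneg_left h3 hWn
    unfold RepData.W
    linarith

end Scan

end Claimed.Agent.R296
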